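import Crest.Agent.R300.UDefs

/-!
# Row 300: numerical inequalities for `arctan`.

`P θ = η/(π((θ-θ₀)²+η²))` has primitive `arctan((θ-θ₀)/η)/π` (`pois_int`).
`arctan_ineq` is a one-variable inequality (true maximum of the left side is `0.1141`, at
`h ≈ 1.46`); split `[0,10]` into finitely many intervals and use monotonicity of `arctan`
together with numerical bounds (`x - x³/3 ≤ arctan x ≤ x - x³/3 + x⁵/5` for `x ≥ 0`,
`arctan x = π/2 - arctan x⁻¹`, `arctan x = π/4 + arctan ((x-1)/(x+1))`, `Real.pi_gt_d4`), or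
tangent-line bounds (`arctan(h/2)` is concave).
`arctan_sym`: `s ↦ arctan(h-s) + arctan(h+s)` is even and antitone on `s ≥ 0`.
`pois_low`: let `H = h/η`, `s = θ₀/η`.  If `H ≥ 10` use only the second integral
(`≥ (arctan(10-s0) + arctan(10+s0))/π ≥ 0.87`).  Otherwise with `c = θ₀ - h/2`,
`2∫ P a ≥ ∫_{-b}^{b-h} (P φ a φ + P(φ+h) a(φ+h)) ≥ S(∫_{-b}^{c} P + ∫_{c}^{b-h} P(·+h))`
and `arctan z ≥ π/2 - 1/z`.
-/

set_option autoImplicit false

namespace Crest.Agent.R300

/-- lower Padé approximant -/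
noncomputable def Arctan_L (x : ℝ) : ℝ := 3 * x / (3 + x ^ 2)

/-- upper Padé approximant -/
noncomputable def Arctan_H (x : ℝ) : ℝ := (15 * x + 4 * x ^ 3) / (15 + 9 * x ^ 2)

theorem Arctan_nonneg {f f' : ℝ → ℝ} (hf : ∀ x, HasDerivAt f (f' x) x) (h0 : ∀ x, 0 ≤ f' x)
    (h1 : f 0 = 0) {x : ℝ} (hx : 0 ≤ x) : 0 ≤ f x :=
  h1 ▸ monotone_of_deriv_nonneg (fun x => (hf x).differentiableAt)
    (fun x => by rw [(hf x).deriv]; exact h0 x) hx

theorem Arctan_loA {x : ℝ} (hx : 0 ≤ x) : Arctan_L x ≤ Real.arctan x := by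
  refine sub_nonneg.1 (Arctan_nonneg (f := fun x => Real.arctan x - Arctan_L x)
    (f' := fun x => 4 * x ^ 4 / ((1 + x ^ 2) * (3 + x ^ 2) ^ 2)) (fun x => ?_)
    (fun x => by positivity) (by simp [Arctan_L]) hx)
  have h1 : HasDerivAt (fun x : ℝ => 3 * x) 3 x := by simpa using (hasDerivAt_id x).const_mul 3
  have h2 : HasDerivAt (fun x : ℝ => 3 + x ^ 2) (2 * x) x := by
    simpa using (hasDerivAt_pow 2 x).const_add 3
  refine ((Real.hasDerivAt_arctan x).sub (h1.div h2 (by positivity))).congr_deriv ?_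
  field_simp
  ring

theorem Arctan_hiA {x : ℝ} (hx : 0 ≤ x) : Real.arctan x ≤ Arctan_H x := by
  refine sub_nonneg.1 (Arctan_nonneg (f := fun x => Arctan_H x - Real.arctan x)
    (f' := fun x => 36 * x ^ 6 / ((1 + x ^ 2) * (15 + 9 * x ^ 2) ^ 2)) (fun x => ?_)
    (fun x => by positivity) (by simp [Arctan_H]) hx)
  have h1 : HasDerivAt (fun x : ℝ => 15 * x + 4 * x ^ 3) (15 + 12 * x ^ 2) x := by
    refine (((hasDerivAt_id x).const_mul 15).add ((hasDerivAt_pow 3 x).const_mul 4)).congr_deriv ?_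
    norm_num
    ring
  have h2 : HasDerivAt (fun x : ℝ => 15 + 9 * x ^ 2) (18 * x) x := by
    refine (((hasDerivAt_pow 2 x).const_mul 9).const_add 15).congr_deriv ?_
    norm_num
    ring
  refine ((h1.div h2 (by positivity)).sub (Real.hasDerivAt_arctan x)).congr_deriv ?_
  field_simp
  ring

theorem Arctan_loB {x : ℝ} (hx : 0 < x) : 1.57075 - Arctan_H x⁻¹ ≤ Real.arctan x := by
  have h1 := Arctan_hiA (inv_pos.2 hx).le
  rw [Real.arctan_inv_of_pos hx] at h1
  linarith [Real.pi_gt_d4]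

theorem Arctan_hiB {x : ℝ} (hx : 0 < x) : Real.arctan x ≤ 1.5708 - Arctan_L x⁻¹ := by
  have h1 := Arctan_loA (inv_pos.2 hx).le
  rw [Real.arctan_inv_of_pos hx] at h1
  linarith [Real.pi_lt_d4]

theorem Arctan_loNA {x : ℝ} (hx : x ≤ 0) : -Arctan_H (-x) ≤ Real.arctan x := by
  have h1 := Arctan_hiA (neg_nonneg.2 hx)
  rw [Real.arctan_neg] at h1
  linarith

theorem Arctan_loNB {x : ℝ} (hx : x < 0) : -(1.5708 - Arctan_L (-x)⁻¹) ≤ Real.arctan x := by
  have h1 := Arctan_hiB (neg_pos.2 hx)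
  rw [Real.arctan_neg] at h1
  linarith

theorem Arctan_step (a b : ℝ) {u v w h : ℝ} (hu : Real.arctan (b / 2) ≤ u)
    (hv : v ≤ Real.arctan (a - 17 / 8)) (hw : w ≤ Real.arctan (a + 17 / 8))
    (hn : 7 / 20 * u - 3 / 20 * (v + w) ≤ 0.14) (h0 : a ≤ h) (h1 : h ≤ b) :
    7 / 20 * Real.arctan (h / 2) - 3 / 20 * (Real.arctan (h - s0) + Real.arctan (h + s0)) ≤
      0.14 := by
  have e1 : Real.arctan (h / 2) ≤ Real.arctan (b / 2) := Real.arctan_mono (by linarith)
  have e2 : Real.arctan (a - 17 / 8) ≤ Real.arctan (h - s0) := Real.arctan_mono (by unfold s0; linarith)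
  have e3 : Real.arctan (a + 17 / 8) ≤ Real.arctan (h + s0) := Real.arctan_mono (by unfold s0; linarith)
  linarith

theorem arctan_ineq {h : ℝ} (h0 : 0 ≤ h) (h1 : h ≤ 10) :
    7 / 20 * Real.arctan (h / 2) - 3 / 20 * (Real.arctan (h - s0) + Real.arctan (h + s0)) ≤
      0.14 := by
  rcases le_total h (3 / 4) with k0 | k0
  · exact Arctan_step (0) (3 / 4) (Arctan_hiA (by norm_num)) (Arctan_loNB (by norm_num))
      (Arctan_loB (by norm_num)) (by norm_num [Arctan_L, Arctan_H]) h0 k0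
  rcases le_total h (9 / 8) with k1 | k1
  · exact Arctan_step (3 / 4) (9 / 8) (Arctan_hiA (by norm_num)) (Arctan_loNB (by norm_num))
      (Arctan_loB (by norm_num)) (by norm_num [Arctan_L, Arctan_H]) k0 k1
  rcases le_total h (11 / 8) with k2 | k2
  · exact Arctan_step (9 / 8) (11 / 8) (Arctan_hiA (by norm_num)) (Arctan_loNA (by norm_num))
      (Arctan_loB (by norm_num)) (by norm_num [Arctan_L, Arctan_H]) k1 k2
  rcases le_total h (3 / 2) with k3 | k3
  · exact Arctan_step (11 / 8) (3 / 2) (Arctan_hiA (by norm_num)) (Arctan_loNA (by norm_num))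
      (Arctan_loB (by norm_num)) (by norm_num [Arctan_L, Arctan_H]) k2 k3
  rcases le_total h (13 / 8) with k4 | k4
  · exact Arctan_step (3 / 2) (13 / 8) (Arctan_hiA (by norm_num)) (Arctan_loNA (by norm_num))
      (Arctan_loB (by norm_num)) (by norm_num [Arctan_L, Arctan_H]) k3 k4
  rcases le_total h (15 / 8) with k5 | k5
  · exact Arctan_step (13 / 8) (15 / 8) (Arctan_hiA (by norm_num)) (Arctan_loNA (by norm_num))
      (Arctan_loB (by norm_num)) (by norm_num [Arctan_L, Arctan_H]) k4 k5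
  rcases le_total h (9 / 4) with k6 | k6
  · exact Arctan_step (15 / 8) (9 / 4) (Arctan_hiA (by norm_num)) (Arctan_loNA (by norm_num))
      (Arctan_loB (by norm_num)) (by norm_num [Arctan_L, Arctan_H]) k5 k6
  rcases le_total h (13 / 4) with k7 | k7
  · exact Arctan_step (9 / 4) (13 / 4) (Arctan_hiB (by norm_num)) (Arctan_loA (by norm_num))
      (Arctan_loB (by norm_num)) (by norm_num [Arctan_L, Arctan_H]) k6 k7
  rcases le_total h (9) with k8 | k8
  · exact Arctan_step (13 / 4) (9) (Arctan_hiB (by norm_num)) (Arctan_loB (by norm_num))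
      (Arctan_loB (by norm_num)) (by norm_num [Arctan_L, Arctan_H]) k7 k8
  exact Arctan_step (9) (10) (Arctan_hiB (by norm_num)) (Arctan_loB (by norm_num))
      (Arctan_loB (by norm_num)) (by norm_num [Arctan_L, Arctan_H]) k8 h1

theorem arctan_big : 0.87 * Real.pi ≤ Real.arctan (10 - s0) + Real.arctan (10 + s0) := by
  have h1 := Arctan_hiA (x := (10 - 17 / 8)⁻¹) (by norm_num)
  have h2 := Arctan_hiA (x := (10 + 17 / 8)⁻¹) (by norm_num)
  rw [Real.arctan_inv_of_pos (by norm_num)] at h1 h2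
  have h3 : Arctan_H (10 - 17 / 8)⁻¹ ≤ 0.2 := by norm_num [Arctan_H]
  have h4 : Arctan_H (10 + 17 / 8)⁻¹ ≤ 0.15 := by norm_num [Arctan_H]
  unfold s0
  linarith [Real.pi_gt_d4]

theorem arctan_sym {h s : ℝ} (h0 : 0 ≤ h) (hs : |s| ≤ s0) :
    Real.arctan (h - s0) + Real.arctan (h + s0) ≤ Real.arctan (h - s) + Real.arctan (h + s) := by
  have hd : ∀ x : ℝ, HasDerivAt (fun x => Real.arctan (h - x) + Real.arctan (h + x))
      (1 / (1 + (h + x) ^ 2) - 1 / (1 + (h - x) ^ 2)) x := by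
    intro x
    refine (((hasDerivAt_id x).const_sub h).arctan.add
      ((hasDerivAt_id x).const_add h).arctan).congr_deriv ?_
    simp only [id]
    ring
  have ha : AntitoneOn (fun x => Real.arctan (h - x) + Real.arctan (h + x)) (Set.Ici 0) := by
    refine antitoneOn_of_deriv_nonpos (convex_Ici 0)
      (fun x _ => (hd x).continuousAt.continuousWithinAt)
      (fun x _ => (hd x).differentiableAt.differentiableWithinAt) fun x hx => ?_
    rw [interior_Ici] at hx
    have hx0 : 0 < x := hx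
    rw [(hd x).deriv, sub_nonpos]
    exact one_div_le_one_div_of_le (by positivity) (by nlinarith [mul_nonneg h0 hx0.le])
  have h2 := ha (abs_nonneg s) ((abs_nonneg s).trans hs) hs
  rcases abs_cases s with h3 | h3
  · rwa [h3.1] at h2
  · simp only [h3.1, sub_neg_eq_add, ← sub_eq_add_neg] at h2
    linarith

end Crest.Agent.R300
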