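import Crest.Agent.R300.Jun

/-!
# Row 300: phase retrieval chain (pure algebra in the seminorm `‖f‖_μ = √(∑ μ ‖f‖²)`).

For a pair `P = (φ, h)` with `X φ, X (φ+h) ≠ 0` let
`u_P = Y(φ+h) conj(Y φ) / (X(φ+h) conj(X φ)) ∈ V`, `m_P = ‖X(φ+h)‖‖X φ‖`.
* `|h - h'| ≤ β ⟹ ‖u_P - u_P'‖_μ ≤ √ε (1/m_P + 1/m_P')` (expand the square, three uses of `P4`).
* `‖u_(0,0) - 1‖_μ ≤ 2Ξ²√ε` (`P4`, `P2`), `‖1 - Y 0/X 0‖_μ ≤ 2Ξ√ε` (`P2`, `P1`),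
  `‖Y θ‖_μ ≤ ‖X θ‖ + √ε` (`P2`), `‖Et f‖ ≤ ‖f‖_μ` (`Et_cs` with `1`).
Call `i ≥ 1` good if some `φ` has `|φ|, |φ + iβ| ≤ b` and `m ≥ m₀`.  Let `i*` be the least
`i ≥ 1` that is not good (exists: `iβ > 2b` is never good); `h = i*β`, second alternative.
By induction `‖u_{Pᵢ} - 1‖_μ ≤ 2(i+1)Ξ²√ε/m₀` for `i < i*` (`P₀ = (0,0)`).  For `0 ≤ θ < h`,
`θ ≤ b`, take `i = ⌊θ/β⌋ ≤ b/β` and the pair `(0,θ)`; for `θ < 0` the pair `(θ,-θ)` and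
conjugate.  `Y θ/X θ = u + (Y θ/X θ)(1 - conj(Y 0/X 0))`.  If `X θ = 0` use the first claim.
-/

set_option autoImplicit false

namespace Crest.Agent.R300

open Complex ComplexConjugate

section aux

variable {Ω : Type} [Fintype Ω] {μ : Ω → ℝ} {V : Submodule ℂ (Ω → ℂ)}

/-- the seminorm -/
noncomputable def chN (μ : Ω → ℝ) (f : Ω → ℂ) : ℝ := √(∑ y, μ y * ‖f y‖ ^ 2)

/-- the normalised product attached to a pair -/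
noncomputable def chU (Y : ℝ → Ω → ℂ) (X : ℝ → ℂ) (α γ : ℝ) (y : Ω) : ℂ :=
  (X α * conj (X γ))⁻¹ * (Y α y * conj (Y γ y))

theorem chN_sub_le {f g : Ω → ℂ} {a c d r : ℝ}
    (ha : ‖Et μ (fun y => f y * conj (f y)) - 1‖ ≤ a)
    (hc : ‖Et μ (fun y => f y * conj (g y)) - 1‖ ≤ c)
    (hd : ‖Et μ (fun y => g y * conj (g y)) - 1‖ ≤ d) (hr : 0 ≤ r) (h : a + 2 * c + d ≤ r ^ 2) :
    chN μ (fun y => f y - g y) ≤ r := by
  have h1 := Et_normSq μ fun y => f y - g y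
  have h2 : Et μ (fun y => (f y - g y) * conj (f y - g y))
      = (Et μ (fun y => f y * conj (f y)) - 1) - (Et μ (fun y => f y * conj (g y)) - 1)
        - conj (Et μ (fun y => f y * conj (g y)) - 1) + (Et μ (fun y => g y * conj (g y)) - 1) := by
    have e : (fun y => (f y - g y) * conj (f y - g y)) = fun y =>
        f y * conj (f y) - f y * conj (g y) - conj (f y * conj (g y)) + g y * conj (g y) := by
      funext y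
      simp only [map_sub, map_mul, conj_conj]
      ring
    rw [e, Et_add, Et_sub, Et_sub, Et_conj, map_sub, map_one]
    ring
  have h3 : ∑ y, μ y * ‖f y - g y‖ ^ 2 ≤ a + 2 * c + d := by
    have h4 := le_abs_self (∑ y, μ y * ‖f y - g y‖ ^ 2)
    rw [← Real.norm_eq_abs, ← Complex.norm_real, ← h1, h2] at h4
    set A := Et μ (fun y => f y * conj (f y)) - 1
    set C := Et μ (fun y => f y * conj (g y)) - 1
    set D := Et μ (fun y => g y * conj (g y)) - 1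
    have h5 := norm_add_le (A - C - conj C) D
    have h6 := norm_sub_le (A - C) (conj C)
    have h7 := norm_sub_le A C
    rw [Complex.norm_conj] at h6
    linarith
  exact Real.sqrt_le_iff.2 ⟨hr, h3.trans h⟩

theorem ch_norm {F : Ω → ℂ} {c : ℂ} {e : ℝ} (hc : c ≠ 0) (h : ‖Et μ F - c‖ ≤ e) :
    ‖Et μ (fun y => c⁻¹ * F y) - 1‖ ≤ e / ‖c‖ := by
  have e1 : c⁻¹ * Et μ F - 1 = c⁻¹ * (Et μ F - c) := by field_simp
  rw [Et_mul_left, e1, norm_mul, norm_inv, inv_mul_eq_div]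
  exact div_le_div_of_nonneg_right h (norm_nonneg _)

theorem chN_tri (hpsd : ∀ f ∈ V, 0 ≤ ∑ y, μ y * ‖f y‖ ^ 2) {f g k : Ω → ℂ} (hf : f ∈ V)
    (hg : g ∈ V) (hk : k ∈ V) :
    chN μ (fun y => f y - k y) ≤ chN μ (fun y => f y - g y) + chN μ (fun y => g y - k y) := by
  have h := seminorm_add_le hpsd (V.sub_mem hf hg) (V.sub_mem hg hk)
  simp only [Pi.sub_apply, sub_add_sub_cancel] at h
  exact h

theorem ch_Et_le (hsum : ∑ y, μ y = 1) (hpsd : ∀ f ∈ V, 0 ≤ ∑ y, μ y * ‖f y‖ ^ 2)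
    (h1 : (fun _ => (1 : ℂ)) ∈ V) {f : Ω → ℂ} (hf : f ∈ V) : ‖Et μ f‖ ≤ chN μ f := by
  have h := Et_cs hpsd hf h1
  simp only [map_one, mul_one, norm_one, one_pow, hsum, Real.sqrt_one] at h
  exact h

theorem chN_Y {f : Ω → ℂ} {x : ℂ} {ε : ℝ} (hε : 0 ≤ ε)
    (h : ‖Et μ (fun y => f y * conj (f y)) - x * conj x‖ ≤ ε) : chN μ f ≤ ‖x‖ + √ε := by
  rw [Et_normSq, Complex.mul_conj', ← Complex.ofReal_pow, ← Complex.ofReal_sub, Complex.norm_real,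
    Real.norm_eq_abs] at h
  have h2 := (abs_le.1 h).2
  have h3 := Real.sq_sqrt hε
  have h4 : 0 ≤ ‖x‖ * √ε := by positivity
  exact Real.sqrt_le_iff.2 ⟨by positivity, by nlinarith⟩

variable {Y : ℝ → Ω → ℂ} {X : ℝ → ℂ} {b β ε : ℝ}

omit [Fintype Ω] in
theorem chU_mem (hYY : ∀ θ θ', (fun y => Y θ y * conj (Y θ' y)) ∈ V) (α γ : ℝ) :
    chU Y X α γ ∈ V := V.smul_mem (X α * conj (X γ))⁻¹ (hYY α γ)

theorem chU_mul
    (P4 : ∀ θ₁ θ₂ θ₃ θ₄, |θ₁| ≤ b → |θ₂| ≤ b → |θ₃| ≤ b → |θ₄| ≤ b → |θ₁ + θ₂ - θ₃ - θ₄| ≤ β →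
      ‖Et μ (fun y => Y θ₁ y * Y θ₂ y * conj (Y θ₃ y) * conj (Y θ₄ y)) -
        X θ₁ * X θ₂ * conj (X θ₃) * conj (X θ₄)‖ ≤ ε)
    {α γ α' γ' : ℝ} (h1 : |α| ≤ b) (h2 : |γ| ≤ b) (h3 : |α'| ≤ b) (h4 : |γ'| ≤ b)
    (x1 : X α ≠ 0) (x2 : X γ ≠ 0) (x3 : X α' ≠ 0) (x4 : X γ' ≠ 0)
    (h : |α - γ - (α' - γ')| ≤ β) :
    ‖Et μ (fun y => chU Y X α γ y * conj (chU Y X α' γ' y)) - 1‖
      ≤ ε * ((‖X α‖ * ‖X γ‖)⁻¹ * (‖X α'‖ * ‖X γ'‖)⁻¹) := by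
  have h5 := P4 α γ' γ α' h1 h4 h2 h3 (by convert h using 2; ring)
  have y2 : conj (X γ) ≠ 0 := (map_ne_zero _).2 x2
  have y3 : conj (X α') ≠ 0 := (map_ne_zero _).2 x3
  have h6 := ch_norm (mul_ne_zero (mul_ne_zero (mul_ne_zero x1 x4) y2) y3) h5
  have e : (fun y => chU Y X α γ y * conj (chU Y X α' γ' y)) = fun y =>
      (X α * X γ' * conj (X γ) * conj (X α'))⁻¹ *
        (Y α y * Y γ' y * conj (Y γ y) * conj (Y α' y)) := by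
    funext y
    simp only [chU, map_mul, map_inv₀, conj_conj]
    field_simp
  rw [e]
  refine h6.trans (le_of_eq ?_)
  simp only [norm_mul, Complex.norm_conj]
  ring

theorem chU_sub (hβ : 0 ≤ β) (hε : 0 ≤ ε)
    (P4 : ∀ θ₁ θ₂ θ₃ θ₄, |θ₁| ≤ b → |θ₂| ≤ b → |θ₃| ≤ b → |θ₄| ≤ b → |θ₁ + θ₂ - θ₃ - θ₄| ≤ β →
      ‖Et μ (fun y => Y θ₁ y * Y θ₂ y * conj (Y θ₃ y) * conj (Y θ₄ y)) -
        X θ₁ * X θ₂ * conj (X θ₃) * conj (X θ₄)‖ ≤ ε)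
    {α γ α' γ' : ℝ} (h1 : |α| ≤ b) (h2 : |γ| ≤ b) (h3 : |α'| ≤ b) (h4 : |γ'| ≤ b)
    (x1 : X α ≠ 0) (x2 : X γ ≠ 0) (x3 : X α' ≠ 0) (x4 : X γ' ≠ 0)
    (h : |α - γ - (α' - γ')| ≤ β) :
    chN μ (fun y => chU Y X α γ y - chU Y X α' γ' y)
      ≤ √ε * ((‖X α‖ * ‖X γ‖)⁻¹ + (‖X α'‖ * ‖X γ'‖)⁻¹) := by
  refine chN_sub_le (chU_mul P4 h1 h2 h1 h2 x1 x2 x1 x2 (by simpa using hβ))
    (chU_mul P4 h1 h2 h3 h4 x1 x2 x3 x4 h)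
    (chU_mul P4 h3 h4 h3 h4 x3 x4 x3 x4 (by simpa using hβ)) (by positivity) (le_of_eq ?_)
  rw [mul_pow, Real.sq_sqrt hε]
  ring

end aux

theorem chain {Ω : Type} [Fintype Ω] {μ : Ω → ℝ} (hsum : ∑ y, μ y = 1)
    {V : Submodule ℂ (Ω → ℂ)} (hpsd : ∀ f ∈ V, 0 ≤ ∑ y, μ y * ‖f y‖ ^ 2)
    (Y : ℝ → Ω → ℂ) (X : ℝ → ℂ) (h1 : (fun _ => (1 : ℂ)) ∈ V) (hY : ∀ θ, Y θ ∈ V)
    (hYY : ∀ θ θ', (fun y => Y θ y * conj (Y θ' y)) ∈ V)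
    {b β ε m₀ Ξ : ℝ} (hb : 0 < b) (hβ : 0 < β) (hε : 0 ≤ ε) (hε1 : ε ≤ 1) (hm : 0 < m₀)
    (hm1 : m₀ ≤ 1) (hΞ : 1 ≤ Ξ) (hX0 : 1 / Ξ ≤ ‖X 0‖)
    (P4 : ∀ θ₁ θ₂ θ₃ θ₄, |θ₁| ≤ b → |θ₂| ≤ b → |θ₃| ≤ b → |θ₄| ≤ b → |θ₁ + θ₂ - θ₃ - θ₄| ≤ β →
      ‖Et μ (fun y => Y θ₁ y * Y θ₂ y * conj (Y θ₃ y) * conj (Y θ₄ y)) -
        X θ₁ * X θ₂ * conj (X θ₃) * conj (X θ₄)‖ ≤ ε)
    (P2 : ∀ θ, |θ| ≤ b → ‖Et μ (fun y => Y θ y * conj (Y θ y)) - X θ * conj (X θ)‖ ≤ ε)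
    (P1 : ‖Et μ (Y 0) - X 0‖ ≤ ε) :
    (∀ θ, |θ| ≤ b → ‖Et μ (Y θ) - X θ‖ ≤ 2 * ‖X θ‖ + √ε) ∧
    ∃ h, 0 < h ∧
      (∀ θ, |θ| ≤ b → |θ| < h →
        ‖Et μ (Y θ) - X θ‖ ≤ 10 * (b / β + 1) * Ξ ^ 2 * √ε * (1 + ‖X θ‖ / m₀)) ∧
      ∀ φ, |φ| ≤ b → |φ + h| ≤ b → ‖X φ‖ * ‖X (φ + h)‖ < m₀ := by
  classical
  have hs0 : 0 ≤ √ε := Real.sqrt_nonneg _
  have hs1 : √ε ≤ 1 := Real.sqrt_le_one.2 hε1
  have hss : √ε ^ 2 = ε := Real.sq_sqrt hε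
  have hΞ0 : 0 < Ξ := by linarith
  have hΞ2 : Ξ ≤ Ξ ^ 2 := le_self_pow₀ hΞ two_ne_zero
  have hn0 : 0 < ‖X 0‖ := lt_of_lt_of_le (by positivity) hX0
  have hx0 : X 0 ≠ 0 := norm_pos_iff.1 hn0
  have hi0 : ‖X 0‖⁻¹ ≤ Ξ := by
    rw [inv_le_comm₀ hn0 hΞ0, ← one_div]
    exact hX0
  have hi00 : (‖X 0‖ * ‖X 0‖)⁻¹ ≤ Ξ ^ 2 := by
    rw [mul_inv, sq]
    exact mul_le_mul hi0 hi0 (by positivity) hΞ0.le
  have hb0 : |(0 : ℝ)| ≤ b := by rw [abs_zero]; exact hb.le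
  have hmi : 1 ≤ m₀⁻¹ := (one_le_inv₀ hm).2 hm1
  have hNY : ∀ θ, |θ| ≤ b → chN μ (Y θ) ≤ ‖X θ‖ + √ε := fun θ hθ => chN_Y hε (P2 θ hθ)
  have hfirst : ∀ θ, |θ| ≤ b → ‖Et μ (Y θ) - X θ‖ ≤ 2 * ‖X θ‖ + √ε := by
    intro θ hθ
    have h2 := norm_sub_le (Et μ (Y θ)) (X θ)
    have h3 := ch_Et_le hsum hpsd h1 (hY θ)
    have h4 := hNY θ hθ
    linarith
  have hone : ‖Et μ (fun _ => (1 : ℂ) * conj (1 : ℂ)) - 1‖ ≤ 0 := by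
    rw [Et_const hsum]
    simp
  have hP20 : ‖Et μ (fun y => (X 0 * conj (X 0))⁻¹ * (Y 0 y * conj (Y 0 y))) - 1‖ ≤ ε * Ξ ^ 2 := by
    refine (ch_norm (mul_ne_zero hx0 ((map_ne_zero _).2 hx0)) (P2 0 hb0)).trans ?_
    rw [norm_mul, Complex.norm_conj, div_eq_mul_inv]
    exact mul_le_mul_of_nonneg_left hi00 hε
  -- the base pair
  have hU0 : chN μ (fun y => chU Y X 0 0 y - 1) ≤ 2 * Ξ ^ 2 * √ε := by
    refine chN_sub_le (g := fun _ => 1) (c := ε * Ξ ^ 2)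
      (chU_mul P4 hb0 hb0 hb0 hb0 hx0 hx0 hx0 hx0 (by simpa using hβ.le)) ?_ hone
      (by positivity) ?_
    · simpa only [map_one, mul_one, chU] using hP20
    · have h2 : (‖X 0‖ * ‖X 0‖)⁻¹ * (‖X 0‖ * ‖X 0‖)⁻¹ ≤ Ξ ^ 2 * Ξ ^ 2 :=
        mul_le_mul hi00 hi00 (by positivity) (by positivity)
      have h3 := mul_le_mul_of_nonneg_left h2 hε
      have h4 : Ξ ^ 2 * 1 ≤ Ξ ^ 2 * Ξ ^ 2 := mul_le_mul_of_nonneg_left (by linarith) (by positivity)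
      have h5 := mul_le_mul_of_nonneg_left h4 hε
      have h6 : (2 * Ξ ^ 2 * √ε) ^ 2 = 4 * (ε * (Ξ ^ 2 * Ξ ^ 2)) := by rw [mul_pow, hss]; ring
      have h7 : 0 ≤ ε * (Ξ ^ 2 * Ξ ^ 2) := by positivity
      rw [h6]
      linarith
  have hV0 : chN μ (fun y => (X 0)⁻¹ * Y 0 y - 1) ≤ 2 * Ξ * √ε := by
    refine chN_sub_le (g := fun _ => 1) (a := ε * Ξ ^ 2) (c := ε * Ξ) ?_ ?_ hone
      (by positivity) ?_
    · convert hP20 using 4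
      funext y
      simp only [map_mul, map_inv₀, mul_inv]
      ring
    · simp only [map_one, mul_one]
      refine (ch_norm hx0 P1).trans ?_
      rw [div_eq_mul_inv]
      exact mul_le_mul_of_nonneg_left hi0 hε
    · have h5 := mul_le_mul_of_nonneg_left hΞ2 hε
      have h6 : (2 * Ξ * √ε) ^ 2 = 4 * (ε * Ξ ^ 2) := by rw [mul_pow, hss]; ring
      have h7 : 0 ≤ ε * Ξ ^ 2 := by positivity
      rw [h6]
      linarith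
  -- the first bad level
  have hex : ∃ i : ℕ, ∀ φ, |φ| ≤ b → |φ + (i + 1) * β| ≤ b →
      ‖X φ‖ * ‖X (φ + (i + 1) * β)‖ < m₀ := by
    obtain ⟨i, hi⟩ := exists_nat_gt (2 * b / β)
    refine ⟨i, fun φ h2 h3 => ?_⟩
    rw [div_lt_iff₀ hβ] at hi
    have h4 := (abs_le.1 h2).1
    have h5 := (abs_le.1 h3).2
    nlinarith
  set K : ℝ := Ξ ^ 2 * m₀⁻¹ with hK
  have hK1 : Ξ ^ 2 ≤ K := le_mul_of_one_le_right (by positivity) hmi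
  have hK2 : m₀⁻¹ ≤ K := le_mul_of_one_le_left (by positivity) (by linarith)
  have hlev : ∀ i : ℕ, i ≤ Nat.find hex → ∃ α γ : ℝ, |α| ≤ b ∧ |γ| ≤ b ∧ X α ≠ 0 ∧ X γ ≠ 0 ∧
      α - γ = i * β ∧ (‖X α‖ * ‖X γ‖)⁻¹ ≤ K ∧
      chN μ (fun y => chU Y X α γ y - 1) ≤ 2 * (i + 1) * K * √ε := by
    intro i
    induction i with
    | zero =>
      intro _
      refine ⟨0, 0, hb0, hb0, hx0, hx0, by simp, hi00.trans hK1, hU0.trans ?_⟩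
      have := mul_le_mul_of_nonneg_right hK1 hs0
      push_cast
      linarith
    | succ i ih =>
      intro hi
      obtain ⟨α', γ', a1, a2, a3, a4, a5, a6, a7⟩ := ih (by omega)
      have h2 := Nat.find_min hex (show i < Nat.find hex by omega)
      push Not at h2
      obtain ⟨φ, h3, h4, h5⟩ := h2
      have h6 : 0 < ‖X φ‖ * ‖X (φ + (i + 1) * β)‖ := hm.trans_le h5
      have x1 : X φ ≠ 0 := by
        intro h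
        rw [h, norm_zero, zero_mul] at h6
        exact lt_irrefl _ h6
      have x2 : X (φ + (i + 1) * β) ≠ 0 := by
        intro h
        rw [h, norm_zero, mul_zero] at h6
        exact lt_irrefl _ h6
      have h7 : (‖X (φ + (i + 1) * β)‖ * ‖X φ‖)⁻¹ ≤ K := by
        rw [mul_comm]
        exact (inv_anti₀ hm h5).trans hK2
      refine ⟨φ + (i + 1) * β, φ, h4, h3, x2, x1, by push_cast; ring, h7, ?_⟩
      have h8 := chU_sub hβ.le hε P4 h4 h3 a1 a2 x2 x1 a3 a4 (by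
        rw [a5, show φ + (i + 1) * β - φ - i * β = β by ring, abs_of_pos hβ])
      have h9 := chN_tri hpsd (chU_mem (X := X) hYY (φ + (i + 1) * β) φ)
        (chU_mem (X := X) hYY α' γ') h1
      have h10 := mul_le_mul_of_nonneg_left (add_le_add h7 a6) hs0
      push_cast
      linarith
  refine ⟨hfirst, (Nat.find hex + 1) * β, by positivity, fun θ hθ hθh => ?_, Nat.find_spec hex⟩
  have hbβ : 0 ≤ b / β := by positivity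
  by_cases hx : X θ = 0
  · refine (hfirst θ hθ).trans ?_
    rw [hx, norm_zero, mul_zero, zero_add, zero_div, add_zero, mul_one]
    refine le_mul_of_one_le_left hs0 ?_
    nlinarith
  have hn : 0 < ‖X θ‖ := norm_pos_iff.2 hx
  set i : ℕ := ⌊|θ| / β⌋₊ with hi
  have hi1 : (i : ℝ) ≤ |θ| / β := Nat.floor_le (by positivity)
  have hi2 : |θ| / β < i + 1 := Nat.lt_floor_add_one _
  have hi3 : (i : ℝ) ≤ b / β := hi1.trans (div_le_div_of_nonneg_right hθ hβ.le)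
  have hi4 : i ≤ Nat.find hex := by
    have h2 : |θ| / β < Nat.find hex + 1 := by rwa [div_lt_iff₀ hβ]
    have h3 : (i : ℝ) < (Nat.find hex + 1 : ℕ) := by push_cast; linarith
    exact Nat.lt_succ_iff.1 (Nat.cast_lt.1 h3)
  have hi5 : |(|θ| - i * β)| ≤ β := by
    rw [le_div_iff₀ hβ] at hi1
    rw [div_lt_iff₀ hβ] at hi2
    rw [abs_le]
    constructor <;> linarith
  obtain ⟨α', γ', a1, a2, a3, a4, a5, a6, a7⟩ := hlev i hi4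
  have hθ0 : (‖X θ‖ * ‖X 0‖)⁻¹ ≤ ‖X θ‖⁻¹ * Ξ := by
    rw [mul_inv]
    exact mul_le_mul_of_nonneg_left hi0 (by positivity)
  have hpair : ∀ α γ : ℝ, |α| ≤ b → |γ| ≤ b → X α ≠ 0 → X γ ≠ 0 → α - γ = |θ| →
      (‖X α‖ * ‖X γ‖)⁻¹ ≤ ‖X θ‖⁻¹ * Ξ →
      ‖Et μ (chU Y X α γ) - 1‖ ≤ √ε * (‖X θ‖⁻¹ * Ξ + K) + 2 * (i + 1) * K * √ε := by
    intro α γ b1 b2 b3 b4 b5 b6
    have h8 := chU_sub hβ.le hε P4 b1 b2 a1 a2 b3 b4 a3 a4 (by rw [b5, a5]; exact hi5)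
    have h9 := chN_tri hpsd (chU_mem (X := X) hYY α γ) (chU_mem (X := X) hYY α' γ') h1
    have h10 := mul_le_mul_of_nonneg_left (add_le_add b6 a6) hs0
    have h11 : ‖Et μ fun y => chU Y X α γ y - 1‖ ≤ chN μ fun y => chU Y X α γ y - 1 :=
      ch_Et_le hsum hpsd h1 (V.sub_mem (chU_mem (X := X) hYY α γ) h1)
    rw [Et_sub, Et_const hsum] at h11
    linarith
  have hu : ‖Et μ (chU Y X θ 0) - 1‖ ≤ √ε * (‖X θ‖⁻¹ * Ξ + K) + 2 * (i + 1) * K * √ε := by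
    rcases le_total 0 θ with h2 | h2
    · exact hpair θ 0 hθ hb0 hx hx0 (by rw [sub_zero, abs_of_nonneg h2]) hθ0
    · have h3 := hpair 0 θ hb0 hθ hx0 hx (by rw [zero_sub, abs_of_nonpos h2])
        (by rw [mul_comm]; exact hθ0)
      have e : chU Y X θ 0 = fun y => conj (chU Y X 0 θ y) := by
        funext y
        simp only [chU, map_mul, map_inv₀, conj_conj]
        ring
      rw [e, Et_conj, ← Complex.norm_conj, map_sub, conj_conj, map_one]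
      exact h3
  have hcs : ‖Et μ fun y => Y θ y * conj ((X 0)⁻¹ * Y 0 y - 1)‖
      ≤ chN μ (Y θ) * chN μ fun y => (X 0)⁻¹ * Y 0 y - 1 :=
    Et_cs hpsd (hY θ) (g := fun y => (X 0)⁻¹ * Y 0 y - 1)
      (V.sub_mem (V.smul_mem (X 0)⁻¹ (hY 0)) h1)
  have hcs' : ‖Et μ fun y => Y θ y * conj ((X 0)⁻¹ * Y 0 y - 1)‖
      ≤ (‖X θ‖ + √ε) * (2 * Ξ * √ε) :=
    hcs.trans (mul_le_mul (hNY θ hθ) hV0 (Real.sqrt_nonneg _) (by positivity))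
  have hdec : Et μ (Y θ) - X θ = X θ * (Et μ (chU Y X θ 0) - 1)
      - Et μ fun y => Y θ y * conj ((X 0)⁻¹ * Y 0 y - 1) := by
    have y0 : conj (X 0) ≠ 0 := (map_ne_zero _).2 hx0
    have e : (fun y => Y θ y * conj ((X 0)⁻¹ * Y 0 y - 1))
        = fun y => X θ * chU Y X θ 0 y - Y θ y := by
      funext y
      simp only [chU, map_mul, map_sub, map_inv₀, map_one]
      field_simp
    rw [e, Et_sub, Et_mul_left]
    ring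
  rw [hdec]
  refine (norm_sub_le _ _).trans ?_
  rw [norm_mul]
  have h2 := mul_le_mul_of_nonneg_left hu hn.le
  have h3 : ‖X θ‖ * (√ε * (‖X θ‖⁻¹ * Ξ + K) + 2 * (i + 1) * K * √ε)
      = √ε * Ξ + (2 * i + 3) * (√ε * (K * ‖X θ‖)) := by
    field_simp
    ring
  have h4 : 10 * (b / β + 1) * Ξ ^ 2 * √ε * (1 + ‖X θ‖ / m₀)
      = 10 * (b / β + 1) * (√ε * Ξ ^ 2) + 10 * (b / β + 1) * (√ε * (K * ‖X θ‖)) := by
    rw [hK]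
    ring
  have h5 : √ε * Ξ ≤ √ε * Ξ ^ 2 := mul_le_mul_of_nonneg_left hΞ2 hs0
  have h6 : √ε * (Ξ * ‖X θ‖) ≤ √ε * (K * ‖X θ‖) :=
    mul_le_mul_of_nonneg_left (mul_le_mul_of_nonneg_right (hΞ2.trans hK1) hn.le) hs0
  have h7 : √ε * (√ε * Ξ) ≤ 1 * (√ε * Ξ) := mul_le_mul_of_nonneg_right hs1 (by positivity)
  have h8 : 0 ≤ √ε * Ξ ^ 2 := by positivity
  have h9 : 0 ≤ √ε * (K * ‖X θ‖) := by positivity
  have h10 : (2 * i + 5) * (√ε * (K * ‖X θ‖)) ≤ 10 * (b / β + 1) * (√ε * (K * ‖X θ‖)) :=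
    mul_le_mul_of_nonneg_right (by linarith) h9
  have h11 : 3 * (√ε * Ξ ^ 2) ≤ 10 * (b / β + 1) * (√ε * Ξ ^ 2) :=
    mul_le_mul_of_nonneg_right (by linarith) h8
  rw [h4]
  rw [h3] at h2
  linarith

end Crest.Agent.R300
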