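import Crest.Agent.R300.UDefs

/-!
# Row 300: low-degree functions and pseudo-expectations.

`Jun_mul`: `Submodule.span_induction` twice (union of the coordinate sets).
`Et_cs`: the Hermitian form `(f,g) ↦ Et μ (f * conj g)` is positive semidefinite on `V`; apply
positivity to `f - s • g` (discriminant argument; `Et μ (f * conj f) = ∑ μ ‖f‖²`).
`PD.junta_bound`: `‖Et f‖² ≤ ∑ μ ‖f‖²` (C-S with `1`), and `1 - ‖f‖² = ‖g‖²` for the junta
`g = √(1 - ‖f‖²)` on the same coordinates.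
-/

set_option autoImplicit false

namespace Crest.Agent.R300

open Complex ComplexConjugate

theorem junta_mem {n d : ℕ} {f : (Fin n → Bool) → ℂ} (S : Finset (Fin n)) (hS : S.card ≤ d)
    (h : ∀ y y' : Fin n → Bool, (∀ i ∈ S, y i = y' i) → f y = f y') : f ∈ Jun n d := by
  exact Submodule.subset_span ⟨S, hS, h⟩

theorem Jun_mono {n d d' : ℕ} (h : d ≤ d') : Jun n d ≤ Jun n d' := by
  refine Submodule.span_mono ?_
  rintro f ⟨S, hS, hf⟩
  exact ⟨S, hS.trans h, hf⟩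

theorem const_mem_Jun (n d : ℕ) (c : ℂ) : (fun _ => c) ∈ Jun n d := by
  exact junta_mem ∅ (by simp) fun _ _ _ => rfl

theorem Jun_mul {n a b : ℕ} {f g : (Fin n → Bool) → ℂ} (hf : f ∈ Jun n a) (hg : g ∈ Jun n b) :
    (fun y => f y * g y) ∈ Jun n (a + b) := by
  change f * g ∈ Jun n (a + b)
  unfold Jun at hf hg
  induction hf using Submodule.span_induction with
  | zero => rw [zero_mul]; exact Submodule.zero_mem _
  | add f f' _ _ h1 h2 => rw [add_mul]; exact Submodule.add_mem _ h1 h2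
  | smul c f _ h1 => rw [smul_mul_assoc]; exact Submodule.smul_mem _ c h1
  | mem f hf =>
    obtain ⟨S, hS, hf⟩ := hf
    induction hg using Submodule.span_induction with
    | zero => rw [mul_zero]; exact Submodule.zero_mem _
    | add g g' _ _ h1 h2 => rw [mul_add]; exact Submodule.add_mem _ h1 h2
    | smul c g _ h1 => rw [mul_smul_comm]; exact Submodule.smul_mem _ c h1
    | mem g hg =>
      obtain ⟨T, hT, hg⟩ := hg
      refine junta_mem (S ∪ T) ((Finset.card_union_le _ _).trans (add_le_add hS hT)) fun y y' h => ?_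
      simp only [Pi.mul_apply]
      rw [hf y y' fun i hi => h i (Finset.mem_union_left _ hi),
        hg y y' fun i hi => h i (Finset.mem_union_right _ hi)]

theorem Jun_conj {n a : ℕ} {f : (Fin n → Bool) → ℂ} (hf : f ∈ Jun n a) :
    (fun y => conj (f y)) ∈ Jun n a := by
  unfold Jun at hf
  induction hf using Submodule.span_induction with
  | zero => simpa using const_mem_Jun n a 0
  | add f f' _ _ h1 h2 =>
    have := Submodule.add_mem _ h1 h2
    convert this using 1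
    ext y
    simp
  | smul c f _ h1 =>
    have := Submodule.smul_mem _ (conj c) h1
    convert this using 1
    ext y
    simp
  | mem f hf =>
    obtain ⟨S, hS, hf⟩ := hf
    exact junta_mem S hS fun y y' h => by rw [hf y y' h]

theorem Jun_sum {n a : ℕ} {ι : Type} (s : Finset ι) {f : ι → (Fin n → Bool) → ℂ}
    (hf : ∀ i ∈ s, f i ∈ Jun n a) : (fun y => ∑ i ∈ s, f i y) ∈ Jun n a := by
  have := Submodule.sum_mem _ hf
  convert this using 1
  ext y
  simp

/-- a function of one letter -/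
theorem bit_mem_Jun (n j : ℕ) (φ : Bool → ℂ) : (fun y : Fin n → Bool => φ (yb y j)) ∈ Jun n 1 := by
  by_cases hj : j < n
  · refine junta_mem {⟨j, hj⟩} (by simp) fun y y' h => ?_
    simp only [yb, dif_pos hj]
    rw [h _ (Finset.mem_singleton_self _)]
  · simp only [yb, dif_neg hj]
    exact const_mem_Jun n 1 _

section general
variable {Ω : Type} [Fintype Ω]

theorem Et_add (μ : Ω → ℝ) (f g : Ω → ℂ) : Et μ (fun y => f y + g y) = Et μ f + Et μ g := by
  simp only [Et, mul_add, Finset.sum_add_distrib]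

theorem Et_sub (μ : Ω → ℝ) (f g : Ω → ℂ) : Et μ (fun y => f y - g y) = Et μ f - Et μ g := by
  simp only [Et, mul_sub, Finset.sum_sub_distrib]

theorem Et_mul_left (μ : Ω → ℝ) (c : ℂ) (f : Ω → ℂ) : Et μ (fun y => c * f y) = c * Et μ f := by
  simp only [Et, Finset.mul_sum]
  exact Finset.sum_congr rfl fun y _ => by ring

theorem Et_sum {ι : Type} (μ : Ω → ℝ) (s : Finset ι) (f : ι → Ω → ℂ) :
    Et μ (fun y => ∑ i ∈ s, f i y) = ∑ i ∈ s, Et μ (f i) := by
  simp only [Et, Finset.mul_sum]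
  exact Finset.sum_comm

theorem Et_const {μ : Ω → ℝ} (h : ∑ y, μ y = 1) (c : ℂ) : Et μ (fun _ => c) = c := by
  simp only [Et, ← Finset.sum_mul]
  rw [← Complex.ofReal_sum, h]
  simp

theorem Et_conj (μ : Ω → ℝ) (f : Ω → ℂ) : Et μ (fun y => conj (f y)) = conj (Et μ f) := by
  simp only [Et, map_sum, map_mul, Complex.conj_ofReal]

theorem Et_normSq (μ : Ω → ℝ) (f : Ω → ℂ) :
    Et μ (fun y => f y * conj (f y)) = ((∑ y, μ y * ‖f y‖ ^ 2 : ℝ) : ℂ) := by
  simp only [Et, Complex.mul_conj, Complex.normSq_eq_norm_sq]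
  push_cast
  rfl

theorem sum_normSq_add (μ : Ω → ℝ) (f g : Ω → ℂ) :
    ∑ y, μ y * ‖f y + g y‖ ^ 2 = ∑ y, μ y * ‖f y‖ ^ 2 + ∑ y, μ y * ‖g y‖ ^ 2 +
      2 * (Et μ fun y => f y * conj (g y)).re := by
  simp only [Et, Complex.re_sum, Finset.mul_sum, ← Finset.sum_add_distrib]
  refine Finset.sum_congr rfl fun y _ => ?_
  rw [← Complex.normSq_eq_norm_sq, ← Complex.normSq_eq_norm_sq, ← Complex.normSq_eq_norm_sq,
    Complex.normSq_add, Complex.re_ofReal_mul]
  ring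

theorem Et_cs {μ : Ω → ℝ} {V : Submodule ℂ (Ω → ℂ)}
    (hpsd : ∀ f ∈ V, 0 ≤ ∑ y, μ y * ‖f y‖ ^ 2) {f g : Ω → ℂ} (hf : f ∈ V) (hg : g ∈ V) :
    ‖Et μ (fun y => f y * conj (g y))‖ ≤
      √(∑ y, μ y * ‖f y‖ ^ 2) * √(∑ y, μ y * ‖g y‖ ^ 2) := by
  set a := ∑ y, μ y * ‖f y‖ ^ 2 with ha
  set b := ∑ y, μ y * ‖g y‖ ^ 2 with hb
  set c := Et μ (fun y => f y * conj (g y)) with hc
  have ha0 : 0 ≤ a := hpsd f hf
  have hb0 : 0 ≤ b := hpsd g hg
  have key : ∀ r : ℝ, 0 ≤ (‖c‖ ^ 2 * b) * (r * r) + (2 * ‖c‖ ^ 2) * r + a := by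
    intro r
    have h1 := hpsd _ (V.add_mem hf (V.smul_mem ((r : ℂ) * c) hg))
    simp only [Pi.add_apply, Pi.smul_apply, smul_eq_mul] at h1
    rw [sum_normSq_add μ f fun y => (r : ℂ) * c * g y] at h1
    have h2 : Et μ (fun y => f y * conj ((r : ℂ) * c * g y)) = ((r * ‖c‖ ^ 2 : ℝ) : ℂ) := by
      have : (fun y => f y * conj ((r : ℂ) * c * g y)) = fun y => ((r : ℂ) * conj c) * (f y * conj (g y)) := by
        ext y
        simp only [map_mul, Complex.conj_ofReal]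
        ring
      rw [this, Et_mul_left, ← hc, mul_assoc, mul_comm (conj c), Complex.mul_conj, Complex.normSq_eq_norm_sq]
      push_cast
      rfl
    have h3 : ∑ y, μ y * ‖(r : ℂ) * c * g y‖ ^ 2 = (‖c‖ ^ 2 * b) * (r * r) := by
      rw [hb, Finset.mul_sum, Finset.sum_mul]
      refine Finset.sum_congr rfl fun y _ => ?_
      rw [norm_mul, norm_mul, mul_pow, mul_pow, Complex.norm_real, Real.norm_eq_abs, sq_abs]
      ring
    rw [h2, h3, Complex.ofReal_re, ← ha] at h1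
    linarith
  have h4 := discrim_le_zero key
  rw [discrim] at h4
  rw [← Real.sqrt_mul ha0]
  refine Real.le_sqrt_of_sq_le ?_
  rcases (norm_nonneg c).eq_or_lt with h0 | h0
  · rw [← h0]
    simpa using mul_nonneg ha0 hb0
  · have h5 : 0 < ‖c‖ ^ 2 := by positivity
    nlinarith

/-- triangle inequality for the seminorm -/
theorem seminorm_add_le {μ : Ω → ℝ} {V : Submodule ℂ (Ω → ℂ)}
    (hpsd : ∀ f ∈ V, 0 ≤ ∑ y, μ y * ‖f y‖ ^ 2) {f g : Ω → ℂ} (hf : f ∈ V) (hg : g ∈ V) :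
    √(∑ y, μ y * ‖f y + g y‖ ^ 2) ≤ √(∑ y, μ y * ‖f y‖ ^ 2) + √(∑ y, μ y * ‖g y‖ ^ 2) := by
  have h1 := Et_cs hpsd hf hg
  have h2 := Complex.re_le_norm (Et μ fun y => f y * conj (g y))
  have h3 := Real.sq_sqrt (hpsd f hf)
  have h4 := Real.sq_sqrt (hpsd g hg)
  refine Real.sqrt_le_iff.2 ⟨by positivity, ?_⟩
  rw [sum_normSq_add]
  nlinarith

theorem Dl_add (μ : Ω → ℝ) (x : Ω) (f g : Ω → ℂ) :
    Dl μ x (fun y => f y + g y) = Dl μ x f + Dl μ x g := by
  simp only [Dl, Et_add]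
  ring

theorem Dl_mul_left (μ : Ω → ℝ) (x : Ω) (c : ℂ) (f : Ω → ℂ) :
    Dl μ x (fun y => c * f y) = c * Dl μ x f := by
  simp only [Dl, Et_mul_left]
  ring

theorem Dl_sum {ι : Type} (μ : Ω → ℝ) (x : Ω) (s : Finset ι) (f : ι → Ω → ℂ) :
    Dl μ x (fun y => ∑ i ∈ s, f i y) = ∑ i ∈ s, Dl μ x (f i) := by
  simp only [Dl, Et_sum, Finset.sum_sub_distrib]

theorem Dl_list_sum {ι : Type} (μ : Ω → ℝ) (x : Ω) (s : List ι) (f : ι → Ω → ℂ) :
    Dl μ x (fun y => (s.map fun i => f i y).sum) = (s.map fun i => Dl μ x (f i)).sum := by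
  induction s with
  | nil => simp [Dl, Et]
  | cons i s ih => simp only [List.map_cons, List.sum_cons, Dl_add, ih]

theorem Dl_const {μ : Ω → ℝ} (h : ∑ y, μ y = 1) (x : Ω) (c : ℂ) : Dl μ x (fun _ => c) = 0 := by
  simp only [Dl, Et_const h, sub_self]

end general

theorem PD.mono {n d d' t : ℕ} {x : Fin n → Bool} {μ : (Fin n → Bool) → ℝ} (h : PD d t x μ)
    (hd : d' ≤ d) : PD d' t x μ := by
  exact ⟨h.ht, h.sum_one, h.supp, h.flip, fun f hf => h.psd f (Jun_mono hd hf)⟩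

theorem PD.junta_bound {n d t : ℕ} {x : Fin n → Bool} {μ : (Fin n → Bool) → ℝ} (h : PD d t x μ)
    {f : (Fin n → Bool) → ℂ} (S : Finset (Fin n)) (hS : S.card ≤ d)
    (hdep : ∀ y y' : Fin n → Bool, (∀ i ∈ S, y i = y' i) → f y = f y') (hf : ∀ y, ‖f y‖ ≤ 1) :
    ‖Et μ f‖ ≤ 1 := by
  have h1 := Et_cs h.psd (junta_mem S hS hdep) (const_mem_Jun n d 1)
  simp only [map_one, mul_one, norm_one, one_pow, h.sum_one, Real.sqrt_one] at h1
  refine h1.trans (Real.sqrt_le_one.2 ?_)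
  have h2 := h.psd (fun y => ((√(1 - ‖f y‖ ^ 2) : ℝ) : ℂ))
    (junta_mem S hS fun y y' hy => by rw [hdep y y' hy])
  have h3 : ∑ y, μ y * ‖((√(1 - ‖f y‖ ^ 2) : ℝ) : ℂ)‖ ^ 2 = ∑ y, μ y - ∑ y, μ y * ‖f y‖ ^ 2 := by
    rw [← Finset.sum_sub_distrib]
    refine Finset.sum_congr rfl fun y _ => ?_
    have h4 : 0 ≤ 1 - ‖f y‖ ^ 2 := by nlinarith [hf y, norm_nonneg (f y)]
    rw [Complex.norm_real, Real.norm_eq_abs, sq_abs, Real.sq_sqrt h4]
    ring
  rw [h3, h.sum_one] at h2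
  linarith

theorem Et_congr {Ω : Type} [Fintype Ω] {μ : Ω → ℝ} {f g : Ω → ℂ} (h : ∀ y, μ y ≠ 0 → f y = g y) :
    Et μ f = Et μ g := by
  refine Finset.sum_congr rfl fun y _ => ?_
  by_cases hy : μ y = 0
  · simp [hy]
  · rw [h y hy]

theorem PD.Dl_eq_zero {n d t : ℕ} {x : Fin n → Bool} {μ : (Fin n → Bool) → ℝ} (h : PD d t x μ)
    {f : (Fin n → Bool) → ℂ}
    (hdep : ∀ y : Fin n → Bool, (∀ j : Fin n, j.val < t → y j = x j) → f y = f x) :
    Dl μ x f = 0 := by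
  rw [Dl, Et_congr (g := fun _ => f x) fun y hy => hdep y (h.supp y hy), Et_const h.sum_one, sub_self]

/-- the bit at `t` is flipped -/
theorem PD.norm_Dl_bit {n d t : ℕ} {x : Fin n → Bool} {μ : (Fin n → Bool) → ℝ} (h : PD d t x μ) :
    ‖Dl μ x (fun y => if yb y t then (1 : ℂ) else 0)‖ = 1 := by
  rw [Dl, Et_congr (g := fun _ => if yb x t then (0 : ℂ) else 1), Et_const h.sum_one]
  · cases yb x t <;> simp
  · intro y hy
    have h1 := h.flip y hy
    simp only [yb, dif_pos h.ht]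
    revert h1
    cases y ⟨t, h.ht⟩ <;> cases x ⟨t, h.ht⟩ <;> simp

/-- a point mass at a different word is a pseudo-distribution (take `t` the first difference) -/
theorem pd_point {n : ℕ} (d : ℕ) {x y : Fin n → Bool} (h : x ≠ y) :
    ∃ t, PD d t x (fun z => if z = y then 1 else 0) := by
  classical
  have hex : ∃ t, ∃ ht : t < n, y ⟨t, ht⟩ ≠ x ⟨t, ht⟩ := by
    by_contra hc
    push Not at hc
    exact h (funext fun j => (hc j.val j.is_lt).symm)
  obtain ⟨ht, h1⟩ := Nat.find_spec hex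
  have hz : ∀ z : Fin n → Bool, (if z = y then (1 : ℝ) else 0) ≠ 0 → z = y := by
    intro z hz
    by_contra e
    exact hz (if_neg e)
  refine ⟨Nat.find hex, ht, by simp, fun z h2 j hj => ?_, fun z h2 => ?_, fun f _ => ?_⟩
  · rw [hz z h2]
    by_contra e
    exact Nat.find_min hex hj ⟨j.is_lt, e⟩
  · rw [hz z h2]
    exact h1
  · refine Finset.sum_nonneg fun z _ => mul_nonneg ?_ (by positivity)
    split_ifs <;> norm_num

end Crest.Agent.R300
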