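import Crest.Agent.R300.DDefs
import Crest.Agent.R300.Jun

/-!
# Row 300: characters on the subcube of words with a given prefix.

* `sum_unif_chi`: `unif * chi` is a product over the coordinates; `Finset.prod_univ_sum`,
  `Fintype.piFinset_univ` (or induction).  A coordinate `i < pre.length` contributes `1` (the mask is `false`
  there), a coordinate `i ≥ pre.length` contributes `0` or `1`.
* `expand`: `Submodule.span_induction`.  For a junta on `S`, `|S| ≤ D`: on the subcube
  `f y = ∑_{z : S → Bool} f(ext z) ∏_{i ∈ S} [y i = z i]`; show by induction on `S` that `∏_{i∈S} φ_i (y i)` lies in the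
  span `W |S|` of the `chi U`, `IsMask n t0 |S| U` with support in `S` (on the subcube): a factor with `i < t0` is constant, a
  factor with `i ≥ t0` is `α + β chi e_i`, and `chi_mul`.  A neat way: define the submodule
  `W D = {f | ∃ c, ∀ y, Agree pre y → f y = ∑ s ∈ range L.length, c s * chi L[s] y}`, or first prove the statement
  with `Submodule.span ℂ {chi U | IsMask n t0 D U}` for the restricted functions on the subtype `{y // Agree pre y}`.
-/

set_option autoImplicit false

namespace Crest.Agent.R300

open Finset

variable {n : ℕ}

theorem Char1_sum_prod (g : Fin n → Bool → ℝ) :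
    ∑ y : Fin n → Bool, ∏ i, g i (y i) = ∏ i, (g i true + g i false) := by
  rw [← Fintype.piFinset_univ, ← Finset.prod_univ_sum]
  simp

theorem Char1_getD_xor {U V : List Bool} (h : U.length = V.length) (i : ℕ) :
    (List.zipWith xor U V).getD i false = xor (U.getD i false) (V.getD i false) := by
  induction U generalizing V i with
  | nil =>
    obtain rfl := List.length_eq_zero_iff.1 h.symm
    simp
  | cons a U ih =>
    cases V with
    | nil => simp at h
    | cons b V =>
      cases i with
      | zero => simp
      | succ i => simpa using ih (by simpa using h) i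

theorem Char1_count_xor (U V : List Bool) :
    (List.zipWith xor U V).count true ≤ U.count true + V.count true := by
  induction U generalizing V with
  | nil => simp
  | cons a U ih =>
    cases V with
    | nil => simp
    | cons b V =>
      have := ih V
      cases a <;> cases b <;> simp <;> omega

theorem Char1_getD_false {U : List Bool} (h : U.count true = 0) (i : ℕ) : U.getD i false = false := by
  induction U generalizing i with
  | nil => simp
  | cons a U ih =>
    cases a
    · cases i with
      | zero => simp
      | succ i => simpa using ih (by simpa using h) i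
    · simp at h

theorem unif_nonneg (pre : List Bool) (y : Fin n → Bool) : 0 ≤ unif pre y := by
  refine prod_nonneg fun i _ => ?_
  split_ifs <;> norm_num

theorem sum_unif (pre : List Bool) : ∑ y : Fin n → Bool, unif pre y = 1 := by
  rw [show (fun y : Fin n → Bool => unif pre y) = _ from rfl]
  refine (Char1_sum_prod fun (i : Fin n) b => if i.val < pre.length then
    (if b = pre.getD i false then (1 : ℝ) else 0) else 1 / 2).trans (prod_eq_one fun i _ => ?_)
  by_cases hi : i.val < pre.length
  · rw [if_pos hi, if_pos hi]
    cases pre.getD i false <;> simp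
  · rw [if_neg hi, if_neg hi]
    norm_num

theorem agree_of_unif_ne {pre : List Bool} {y : Fin n → Bool} (h : unif pre y ≠ 0) :
    Agree pre y := by
  intro i hi
  by_contra h1
  exact h (prod_eq_zero (mem_univ i) (by rw [if_pos hi, if_neg h1]))

theorem abs_chi (U : List Bool) (y : Fin n → Bool) : |chi U y| = 1 := by
  rw [chi, abs_prod]
  refine prod_eq_one fun i _ => ?_
  split_ifs <;> simp

theorem chi_mul {U V : List Bool} (h : U.length = V.length) (y : Fin n → Bool) :
    chi U y * chi V y = chi (List.zipWith xor U V) y := by
  rw [chi, chi, chi, ← prod_mul_distrib]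
  refine prod_congr rfl fun i _ => ?_
  rw [Char1_getD_xor h]
  cases U.getD i false <;> cases V.getD i false <;> cases y i <;> simp

theorem chi_zero {U : List Bool} (h : U.count true = 0) (y : Fin n → Bool) : chi U y = 1 := by
  refine prod_eq_one fun i _ => ?_
  rw [Char1_getD_false h]
  simp

theorem IsMask.xor {t0 a b : ℕ} {U V : List Bool} (hU : IsMask n t0 a U) (hV : IsMask n t0 b V) :
    IsMask n t0 (a + b) (List.zipWith xor U V) := by
  refine ⟨by simp [hU.1, hV.1], fun i hi => ?_, (Char1_count_xor U V).trans (add_le_add hU.2.2 hV.2.2)⟩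
  rw [Char1_getD_xor (hU.1.trans hV.1.symm), hU.2.1 i hi, hV.2.1 i hi]
  rfl

theorem IsMask.mono {t0 a b : ℕ} {U : List Bool} (hU : IsMask n t0 a U) (h : a ≤ b) :
    IsMask n t0 b U := ⟨hU.1, hU.2.1, hU.2.2.trans h⟩

theorem isMask_zero (t0 D : ℕ) : IsMask n t0 D (List.replicate n false) := by
  have h : (List.replicate n false).count true = 0 := by simp [List.count_replicate]
  exact ⟨by simp, fun i _ => Char1_getD_false h i, h.le.trans (Nat.zero_le _)⟩

theorem count_xor_eq_zero {U V : List Bool} (h : U.length = V.length) :
    (List.zipWith xor U V).count true = 0 ↔ U = V := by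
  induction U generalizing V with
  | nil =>
    obtain rfl := List.length_eq_zero_iff.1 h.symm
    simp
  | cons a U ih =>
    cases V with
    | nil => simp at h
    | cons b V =>
      have := ih (V := V) (by simpa using h)
      cases a <;> cases b <;> simp [this]

theorem xor_comm' (U V : List Bool) : List.zipWith xor U V = List.zipWith xor V U := by
  exact List.zipWith_comm_of_comm Bool.xor_comm

theorem sum_unif_chi {pre U : List Bool} {D : ℕ} (hU : IsMask n pre.length D U) :
    ∑ y : Fin n → Bool, unif pre y * chi U y = if U.count true = 0 then 1 else 0 := by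
  simp only [unif, chi, ← prod_mul_distrib]
  rw [Char1_sum_prod fun (i : Fin n) b => (if i.val < pre.length then
    (if b = pre.getD i false then (1 : ℝ) else 0) else 1 / 2) *
      if (U.getD i false && b) = true then -1 else 1]
  split_ifs with h
  · refine prod_eq_one fun i _ => ?_
    rw [Char1_getD_false h]
    by_cases hi : i.val < pre.length
    · rw [if_pos hi, if_pos hi]
      cases pre.getD i false <;> simp
    · rw [if_neg hi, if_neg hi]
      norm_num
  · obtain ⟨i, hi, e⟩ := List.getElem_of_mem (List.count_pos_iff.1 (Nat.pos_of_ne_zero h))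
    have e1 : U.getD i false = true := by rw [List.getD_eq_getElem _ _ hi, e]
    have e2 : ¬ i < pre.length := fun h2 => absurd (e1.symm.trans (hU.2.1 i h2)) (by simp)
    refine prod_eq_zero (mem_univ ⟨i, hU.1 ▸ hi⟩) ?_
    simp only [e1, if_neg e2]
    norm_num

/-- characters and functions vanishing on the subcube -/
def Char1_W (n : ℕ) (pre : List Bool) (D : ℕ) : Submodule ℂ ((Fin n → Bool) → ℂ) :=
  Submodule.span ℂ {f | (∃ U, IsMask n pre.length D U ∧ f = fun y => (chi U y : ℂ)) ∨
    ∀ y, Agree pre y → f y = 0}

theorem Char1_W_mono (pre : List Bool) {a b : ℕ} (h : a ≤ b) : Char1_W n pre a ≤ Char1_W n pre b :=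
  Submodule.span_mono fun _ hf => hf.imp_left fun ⟨U, hU, e⟩ => ⟨U, hU.mono h, e⟩

theorem Char1_W_mul {pre : List Bool} {D : ℕ} {g : (Fin n → Bool) → ℂ} (hg : g ∈ Char1_W n pre D)
    (i : Fin n) : (g * fun y => if y i = true then (-1 : ℂ) else 1) ∈ Char1_W n pre (D + 1) := by
  by_cases hi : i.val < pre.length
  · have h1 : (g * fun y => if y i = true then (-1 : ℂ) else 1) -
        (if pre.getD i false = true then (-1 : ℂ) else 1) • g ∈ Char1_W n pre (D + 1) :=
      Submodule.subset_span (Or.inr fun y hy => by
        simp only [Pi.sub_apply, Pi.mul_apply, Pi.smul_apply, smul_eq_mul, hy i hi]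
        ring)
    exact sub_add_cancel (g * fun y => if y i = true then (-1 : ℂ) else 1) _ ▸
      Submodule.add_mem _ h1 (Submodule.smul_mem _ _ (Char1_W_mono pre (Nat.le_succ D) hg))
  · have h1 : ∀ j : ℕ, ((List.replicate n false).set i true).getD j false = decide (j = i) := by
      intro j
      by_cases hj : j = i
      · simp [hj]
      · simp [List.getD_eq_getElem?_getD, List.getElem?_set_ne (Ne.symm hj), List.getElem?_replicate, hj]
        split_ifs <;> rfl
    have h2 : IsMask n pre.length 1 ((List.replicate n false).set i true) := by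
      refine ⟨by simp, fun j hj => ?_, ?_⟩
      · rw [h1]
        simp only [decide_eq_false_iff_not]
        omega
      · rw [List.count_set (by simp)]
        simp [List.count_replicate]
    have h3 : ∀ y : Fin n → Bool, (chi ((List.replicate n false).set i true) y : ℂ) =
        if y i = true then (-1 : ℂ) else 1 := by
      intro y
      rw [chi, Finset.prod_eq_single i]
      · rw [h1]
        cases y i <;> simp
      · intro j _ hj
        rw [h1]
        simp [Fin.val_ne_of_ne hj]
      · exact fun h => absurd (mem_univ i) h
    unfold Char1_W at hg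
    induction hg using Submodule.span_induction with
    | zero => rw [zero_mul]; exact Submodule.zero_mem _
    | add f f' _ _ h4 h5 => rw [add_mul]; exact Submodule.add_mem _ h4 h5
    | smul c f _ h4 => rw [smul_mul_assoc]; exact Submodule.smul_mem _ c h4
    | mem f hf =>
      refine Submodule.subset_span ?_
      rcases hf with ⟨U, hU, rfl⟩ | hf
      · refine Or.inl ⟨_, hU.xor h2, funext fun y => ?_⟩
        rw [← chi_mul (hU.1.trans h2.1.symm), Complex.ofReal_mul, h3]
        rfl
      · exact Or.inr fun y hy => by rw [Pi.mul_apply, hf y hy, zero_mul]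

theorem Char1_junta (pre : List Bool) (S : Finset (Fin n)) {f : (Fin n → Bool) → ℂ}
    (h : ∀ y y' : Fin n → Bool, (∀ i ∈ S, y i = y' i) → f y = f y') : f ∈ Char1_W n pre S.card := by
  induction S using Finset.induction_on generalizing f with
  | empty =>
    have h1 : f = f (fun _ => false) • fun y => (chi (List.replicate n false) y : ℂ) := by
      funext y
      rw [Pi.smul_apply, chi_zero (by simp [List.count_replicate]), h y (fun _ => false) (by simp)]
      simp
    rw [h1]
    exact Submodule.smul_mem _ _ (Submodule.subset_span (Or.inl ⟨_, isMask_zero _ _, rfl⟩))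
  | insert i S hi ih =>
    have h1 : ∀ b, (fun y => f (Function.update y i b)) ∈ Char1_W n pre S.card := fun b =>
      ih fun y y' hy => h _ _ fun j hj => by
        rcases eq_or_ne j i with rfl | hji
        · simp
        · rw [Function.update_of_ne hji, Function.update_of_ne hji]
          exact hy j ((mem_insert.1 hj).resolve_left hji)
    have h2 : f = (1 / 2 : ℂ) • ((fun y => f (Function.update y i false)) +
        fun y => f (Function.update y i true)) + (1 / 2 : ℂ) • (((fun y => f (Function.update y i false)) -
        fun y => f (Function.update y i true)) * fun y => if y i = true then (-1 : ℂ) else 1) := by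
      funext y
      have h3 : f (Function.update y i (y i)) = f y := by rw [Function.update_eq_self]
      simp only [Pi.add_apply, Pi.smul_apply, Pi.mul_apply, Pi.sub_apply, smul_eq_mul]
      rw [← h3]
      cases y i <;> simp <;> ring
    rw [h2, card_insert_of_notMem hi]
    exact Submodule.add_mem _ (Submodule.smul_mem _ _ (Char1_W_mono pre (Nat.le_succ _)
      (Submodule.add_mem _ (h1 _) (h1 _))))
      (Submodule.smul_mem _ _ (Char1_W_mul (Submodule.sub_mem _ (h1 _) (h1 _)) i))

/-- Fourier expansion on the subcube -/
theorem expand {pre : List Bool} {D : ℕ} {L : List (List Bool)} (hL : Masks n pre.length D L)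
    {f : (Fin n → Bool) → ℂ} (hf : f ∈ Jun n D) :
    ∃ c : ℕ → ℂ, ∀ y, Agree pre y →
      f y = ∑ s ∈ range L.length, c s * (chi (L.getD s []) y : ℂ) := by
  have h1 : f ∈ Char1_W n pre D := by
    refine (Submodule.span_le.2 ?_ : Jun n D ≤ Char1_W n pre D) hf
    rintro g ⟨S, hS, hg⟩
    exact Char1_W_mono pre hS (Char1_junta pre S hg)
  clear hf
  unfold Char1_W at h1
  induction h1 using Submodule.span_induction with
  | zero => exact ⟨0, fun y _ => by simp⟩
  | add f f' _ _ h4 h5 =>
    obtain ⟨c, hc⟩ := h4
    obtain ⟨c', hc'⟩ := h5
    refine ⟨c + c', fun y hy => ?_⟩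
    simp only [Pi.add_apply, hc y hy, hc' y hy, add_mul, sum_add_distrib]
  | smul a f _ h4 =>
    obtain ⟨c, hc⟩ := h4
    refine ⟨a • c, fun y hy => ?_⟩
    simp only [Pi.smul_apply, hc y hy, smul_eq_mul, mul_sum, mul_assoc]
  | mem f hf =>
    rcases hf with ⟨U, hU, rfl⟩ | hf
    · obtain ⟨s, hs, e⟩ := List.getElem_of_mem ((hL.2 U).2 hU)
      refine ⟨fun t => if t = s then 1 else 0, fun y _ => ?_⟩
      simp only [ite_mul, one_mul, zero_mul, sum_ite_eq', mem_range, if_pos hs]
      rw [List.getD_eq_getElem _ _ hs, e]
    · exact ⟨0, fun y hy => by simp [hf y hy]⟩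

end Crest.Agent.R300
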