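import Crest.Agent.R300.UDefs

/-!
# Row 300: the list form `trE` of the trace expectation.

`trE_eq_sum`: induction on `n` (`Fin.cons`, `List.finRange_succ`, `List.ofFn_succ`,
`Fin.consEquiv`/`Fin.sum_univ_succ`-style splitting of `Fin (n+1) → Bool`, `Fin.prod_univ_succ`).
`trE_reverse`: prove `trE_append` first, then induct on `l` (`List.reverse_cons`), commuting the
two expectations (`trE` is linear in `F`).
`PS_mem_Jun`: by `trE_eq_sum`, `PS` is a linear combination over `keep` of
`y ↦ [hit σ r (I.map y)]` with `I : List (Fin n)` fixed; by induction on `σ` (generalising `I`,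
`List.map_drop`) this function depends on at most `σ.length` coordinates.
-/

set_option autoImplicit false

namespace Crest.Agent.R300

open Crest.FinProb Crest.TraceRecon

theorem trE_add (p : ℝ) (l : List Bool) (F H : List Bool → ℝ) :
    trE p l (fun τ => F τ + H τ) = trE p l F + trE p l H := by
  induction l generalizing F H with
  | nil => simp [trE]
  | cons b l ih =>
    simp only [trE]
    rw [ih F H, ih (fun τ => F (b :: τ)) (fun τ => H (b :: τ))]
    ring

theorem trE_const_mul (p c : ℝ) (l : List Bool) (F : List Bool → ℝ) :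
    trE p l (fun τ => c * F τ) = c * trE p l F := by
  induction l generalizing F with
  | nil => simp [trE]
  | cons b l ih =>
    simp only [trE]
    rw [ih F, ih (fun τ => F (b :: τ))]
    ring

theorem trE_const (p c : ℝ) (l : List Bool) : trE p l (fun _ => c) = c := by
  induction l with
  | nil => simp [trE]
  | cons b l ih =>
    simp only [trE]
    rw [ih]
    ring

theorem trE_sum {ι : Type} (p : ℝ) (l : List Bool) (s : Finset ι) (F : ι → List Bool → ℝ) :
    trE p l (fun τ => ∑ i ∈ s, F i τ) = ∑ i ∈ s, trE p l (F i) := by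
  classical
  induction s using Finset.induction_on with
  | empty => simpa using trE_const p 0 l
  | insert a s ha ih =>
    simp only [Finset.sum_insert ha]
    rw [trE_add, ih]

theorem trE_list_sum {ι : Type} (p : ℝ) (l : List Bool) (s : List ι) (F : ι → List Bool → ℝ) :
    trE p l (fun τ => (s.map fun i => F i τ).sum) = (s.map fun i => trE p l (F i)).sum := by
  induction s with
  | nil => simpa using trE_const p 0 l
  | cons a s ih =>
    simp only [List.map_cons, List.sum_cons]
    rw [trE_add, ih]

/-- only strings of length at most `l.length` matter -/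
theorem trE_congr (p : ℝ) (l : List Bool) {F H : List Bool → ℝ}
    (h : ∀ τ, τ.length ≤ l.length → F τ = H τ) : trE p l F = trE p l H := by
  induction l generalizing F H with
  | nil => simpa [trE] using h [] le_rfl
  | cons b l ih =>
    simp only [trE]
    rw [ih (F := F) (H := H) (fun τ hτ => h τ (by simp; omega)),
      ih (F := fun τ => F (b :: τ)) (H := fun τ => H (b :: τ))
        (fun τ hτ => h (b :: τ) (by simp; omega))]

theorem trE_mono {p : ℝ} (hp : 0 ≤ p) (hp1 : p ≤ 1) (l : List Bool) {F H : List Bool → ℝ}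
    (h : ∀ τ, F τ ≤ H τ) : trE p l F ≤ trE p l H := by
  induction l generalizing F H with
  | nil => simpa [trE] using h []
  | cons b l ih =>
    simp only [trE]
    have h1 := ih (F := F) (H := H) h
    have h2 := ih (F := fun τ => F (b :: τ)) (H := fun τ => H (b :: τ)) (fun τ => h (b :: τ))
    have h3 : 0 ≤ 1 - p := by linarith
    exact add_le_add (mul_le_mul_of_nonneg_left h1 h3) (mul_le_mul_of_nonneg_left h2 hp)

theorem trE_append (p : ℝ) (l l' : List Bool) (F : List Bool → ℝ) :
    trE p (l ++ l') F = trE p l fun τ => trE p l' fun τ' => F (τ ++ τ') := by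
  induction l generalizing F with
  | nil => simp [trE]
  | cons b l ih =>
    simp only [List.cons_append, trE]
    rw [ih F, ih (fun τ => F (b :: τ))]

theorem trE_reverse (p : ℝ) (l : List Bool) (F : List Bool → ℝ) :
    trE p l.reverse F = trE p l fun τ => F τ.reverse := by
  induction l generalizing F with
  | nil => simp [trE]
  | cons b l ih =>
    rw [List.reverse_cons, trE_append, ih]
    simp only [trE, List.append_nil, List.reverse_cons]
    rw [trE_add, trE_const_mul, trE_const_mul]

theorem Tr_bw_cons {n : ℕ} (p : ℝ) (b : Bool) (k : Fin n → Bool) :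
    bernoulliWeight p ((Fin.consEquiv fun _ : Fin (n + 1) => Bool) (b, k)) =
      (if b then p else 1 - p) * bernoulliWeight p k := by
  simp [bernoulliWeight, Fin.prod_univ_succ, Fin.consEquiv]

theorem Tr_trace_cons {n : ℕ} (x : Fin (n + 1) → Bool) (b : Bool) (k : Fin n → Bool) :
    traceOf x ((Fin.consEquiv fun _ : Fin (n + 1) => Bool) (b, k)) =
      if b then x 0 :: traceOf (fun i => x i.succ) k else traceOf (fun i => x i.succ) k := by
  unfold traceOf
  rw [List.finRange_succ, List.filter_cons]
  cases b <;> simp [Fin.consEquiv, List.filter_map, List.map_map, Function.comp_def]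

theorem trE_eq_sum {n : ℕ} (p : ℝ) (x : Fin n → Bool) (F : List Bool → ℝ) :
    ∑ keep : Fin n → Bool, bernoulliWeight p keep * F (traceOf x keep) =
      trE p (List.ofFn x) F := by
  induction n generalizing F with
  | zero => simp [trE, bernoulliWeight, traceOf]
  | succ n ih =>
    rw [List.ofFn_succ, trE, ← ih, ← ih, ← (Fin.consEquiv fun _ : Fin (n + 1) => Bool).sum_comp,
      Fintype.sum_prod_type, Fintype.sum_bool, Finset.mul_sum, Finset.mul_sum, add_comm]
    congr 1
    · refine Finset.sum_congr rfl fun k _ => ?_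
      rw [Tr_bw_cons, Tr_trace_cons]
      simp [mul_assoc]
    · refine Finset.sum_congr rfl fun k _ => ?_
      rw [Tr_bw_cons, Tr_trace_cons]
      simp [mul_assoc]

theorem bw_nonneg {n : ℕ} {p : ℝ} (hp : 0 ≤ p) (hp1 : p ≤ 1) (keep : Fin n → Bool) :
    0 ≤ bernoulliWeight p keep := by
  unfold bernoulliWeight
  refine Finset.prod_nonneg fun i _ => ?_
  split_ifs <;> linarith

theorem bw_sum {n : ℕ} (p : ℝ) : ∑ keep : Fin n → Bool, bernoulliWeight p keep = 1 := by
  have h := trE_eq_sum p (fun _ : Fin n => false) (fun _ => 1)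
  rw [trE_const] at h
  simpa using h

theorem PS_nonneg {n : ℕ} {p : ℝ} (hp : 0 ≤ p) (hp1 : p ≤ 1) (y : Fin n → Bool)
    (σ : List (ℕ × Bool)) (r : ℕ) : 0 ≤ PS p y σ r := by
  unfold PS
  refine le_trans (le_of_eq (trE_const p 0 (List.ofFn y)).symm) (trE_mono hp hp1 _ fun τ => ?_)
  split_ifs <;> norm_num

theorem PS_le_one {n : ℕ} {p : ℝ} (hp : 0 ≤ p) (hp1 : p ≤ 1) (y : Fin n → Bool)
    (σ : List (ℕ × Bool)) (r : ℕ) : PS p y σ r ≤ 1 := by
  unfold PS
  refine le_trans (trE_mono hp hp1 _ fun τ => ?_) (le_of_eq (trE_const p 1 (List.ofFn y)))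
  split_ifs <;> norm_num

theorem Tr_hit_junta {n : ℕ} (σ : List (ℕ × Bool)) (r : ℕ) (I : List (Fin n)) :
    ∃ S : Finset (Fin n), S.card ≤ σ.length ∧
      ∀ y y' : Fin n → Bool, (∀ i ∈ S, y i = y' i) → hit σ r (I.map y) = hit σ r (I.map y') := by
  induction σ generalizing I with
  | nil => exact ⟨∅, by simp, fun y y' _ => by simp [hit]⟩
  | cons a σ ih =>
    cases hI : I.drop a.1 with
    | nil =>
      refine ⟨∅, by simp, fun y y' _ => ?_⟩
      simp only [hit, ← List.map_drop, hI, List.map_nil]
    | cons c I' =>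
      obtain ⟨S, hS, h⟩ := ih I'
      refine ⟨insert c S, (Finset.card_insert_le _ _).trans (by simpa using hS), fun y y' hy => ?_⟩
      simp only [hit, ← List.map_drop, hI, List.map_cons]
      rw [hy c (Finset.mem_insert_self _ _),
        h y y' fun i hi => hy i (Finset.mem_insert_of_mem hi)]

theorem PS_mem_Jun (n : ℕ) (p : ℝ) (σ : List (ℕ × Bool)) (r : ℕ) :
    (fun y : Fin n → Bool => (PS p y σ r : ℂ)) ∈ Jun n σ.length := by
  have e : (fun y : Fin n → Bool => (PS p y σ r : ℂ)) =
      ∑ keep : Fin n → Bool, (bernoulliWeight p keep : ℂ) • fun y : Fin n → Bool =>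
        (if hit σ r ((((List.finRange n).filter fun i => keep i).reverse).map y) then (1 : ℂ)
          else 0) := by
    funext y
    rw [PS, ← trE_eq_sum, Finset.sum_apply]
    push_cast
    refine Finset.sum_congr rfl fun keep _ => ?_
    simp only [Pi.smul_apply, smul_eq_mul, traceOf, List.map_reverse]
    split_ifs <;> simp
  rw [e]
  refine Submodule.sum_mem _ fun keep _ => Submodule.smul_mem _ _ (Submodule.subset_span ?_)
  obtain ⟨S, hS, h⟩ := Tr_hit_junta σ r (((List.finRange n).filter fun i => keep i).reverse)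
  exact ⟨S, hS, fun y y' hy => by simp only [h y y' hy]⟩

end Crest.Agent.R300
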