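import Crest.Agent.R300.Char1
import Crest.Agent.R300.Tr

/-!
# Row 300: the semidefinite programme of a prefix.

`LS` lists the masks with `≤ k` ones, `LU` those with `≤ 2k` ones.  For `s, t < LS.length`,
`LU.getD (entN (idxT LS LU) s t) [] = zipWith xor LS[s] LS[t]` (`IsMask.xor`, `List.idxOf_lt_length_iff`,
`List.getElem_idxOf`).  Orthogonality: `∑ y, unif pre y * chi U y * chi V y = [U = V]` (`chi_mul`, `sum_unif_chi`,
`count_xor_eq_zero`).
* `sdp_exact`: `ψ i = chi LU[i] x`, `u s = chi LS[s] x`.  Reproducing property: for `f ∈ Jun n (2k)`,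
  `∑_i (∑ y, unif y * chi LU[i] y * f y) * chi LU[i] x = f x` (`expand`, orthogonality, `Nodup`); apply it to
  `PS p · σ r` (`PS_mem_Jun`, `Jun_mono`, take real parts).  The first constraint: exactly one `U ∈ LU` has no `true`.
* `sdp_sound`: let `i₀` be the index of the zero mask, `Z = ψ i₀ + 2/E ∈ [1, 1 + 4/E]`,
  `μ y = unif pre y * (∑_i ψ i * chi LU[i] y + 2/E) / Z`.  For `f = ∑ c_s chi LS[s]` on the subcube,
  `∑ μ ‖f‖² = (qf(Re c) + qf(Im c) + (2/E)(∑ Re c² + ∑ Im c²)) / Z ≥ 0`.  Statistics: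
  `∑ μ PS = (dotQ + (2/E) ∑ unif PS) / Z`, `|dotQ - PS x| ≤ 3/E`, `0 ≤ PS ≤ 1`, error `≤ 7/E`.
-/

set_option autoImplicit false

namespace Crest.Agent.R300

open Finset

variable {n k E : ℕ} {p : ℝ} {pre : List Bool} {LS LU : List (List Bool)}
  {F : List Bool → List (ℕ × Bool) → ℕ → ℚ} {sg : List (List (ℕ × Bool) × ℕ)}
  {τs : List (List Bool)} {x : Fin n → Bool}

theorem Char2_getD {α : Type} (L : List α) (d : α) {i : ℕ} (hi : i < L.length) :
    L.getD i d = L[i] := by
  simp [List.getD_eq_getElem?_getD, hi]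

theorem Char2_mem (L : List (List Bool)) {i : ℕ} (hi : i < L.length) : L.getD i [] ∈ L := by
  rw [Char2_getD L [] hi]
  exact List.getElem_mem hi

theorem Char2_mask {t0 D : ℕ} {L : List (List Bool)} (hL : Masks n t0 D L) {i : ℕ}
    (hi : i < L.length) : IsMask n t0 D (L.getD i []) := (hL.2 _).1 (Char2_mem L hi)

theorem Char2_inj {L : List (List Bool)} (hL : L.Nodup) {i j : ℕ} (hi : i < L.length)
    (hj : j < L.length) : L.getD i [] = L.getD j [] ↔ i = j := by
  rw [Char2_getD L [] hi, Char2_getD L [] hj]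
  exact hL.getElem_inj_iff

theorem Char2_map {β : Type} (L : List (List Bool)) (g : List Bool → β) (d : β) {i : ℕ}
    (hi : i < L.length) : (L.map g).getD i d = g (L.getD i []) := by
  rw [Char2_getD L [] hi, Char2_getD (L.map g) d (by simpa using hi), List.getElem_map]

theorem Char2_len (LS LU : List (List Bool)) : (idxT LS LU).length = LS.length := by
  simp [idxT]

theorem Char2_ent (LS LU : List (List Bool)) {s t : ℕ} (hs : s < LS.length) (ht : t < LS.length) :
    entN (idxT LS LU) s t = LU.idxOf (List.zipWith xor (LS.getD s []) (LS.getD t [])) := by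
  unfold entN idxT
  rw [Char2_map LS _ [] hs, Char2_map LS _ 0 ht]

theorem Char2_xor_mem {t0 : ℕ} (hS : Masks n t0 k LS) (hU : Masks n t0 (2 * k) LU) {s t : ℕ}
    (hs : s < LS.length) (ht : t < LS.length) :
    List.zipWith xor (LS.getD s []) (LS.getD t []) ∈ LU := by
  rw [hU.2, two_mul]
  exact (Char2_mask hS hs).xor (Char2_mask hS ht)

theorem Char2_ent_lt {t0 : ℕ} (hS : Masks n t0 k LS) (hU : Masks n t0 (2 * k) LU) {s t : ℕ}
    (hs : s < LS.length) (ht : t < LS.length) : entN (idxT LS LU) s t < LU.length := by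
  rw [Char2_ent LS LU hs ht]
  exact List.idxOf_lt_length_iff.2 (Char2_xor_mem hS hU hs ht)

theorem Char2_ent_get {t0 : ℕ} (hS : Masks n t0 k LS) (hU : Masks n t0 (2 * k) LU) {s t : ℕ}
    (hs : s < LS.length) (ht : t < LS.length) :
    LU.getD (entN (idxT LS LU) s t) [] = List.zipWith xor (LS.getD s []) (LS.getD t []) := by
  rw [Char2_ent LS LU hs ht,
    Char2_getD LU [] (List.idxOf_lt_length_iff.2 (Char2_xor_mem hS hU hs ht))]
  exact List.getElem_idxOf _

theorem Char2_orth {D : ℕ} {L : List (List Bool)} (hL : Masks n pre.length D L) {i j : ℕ}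
    (hi : i < L.length) (hj : j < L.length) :
    ∑ y : Fin n → Bool, unif pre y * chi (L.getD i []) y * chi (L.getD j []) y =
      if i = j then 1 else 0 := by
  have h1 := Char2_mask hL hi
  have h2 := Char2_mask hL hj
  have hl : (L.getD i []).length = (L.getD j []).length := h1.1.trans h2.1.symm
  simp only [mul_assoc, chi_mul hl]
  rw [sum_unif_chi (h1.xor h2)]
  simp only [count_xor_eq_zero hl, Char2_inj hL.1 hi hj]

theorem Char2_dotQ (L : List (List Bool)) (g : List Bool → ℚ) (ψ : ℕ → ℝ) :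
    dotQ L.length (L.map g) ψ = ∑ i ∈ range L.length, (g (L.getD i []) : ℝ) * ψ i := by
  unfold dotQ
  exact sum_congr rfl fun i hi => by rw [Char2_map L g 0 (mem_range.1 hi)]

theorem Char2_zero {t0 D : ℕ} {L : List (List Bool)} (hL : Masks n t0 D L) :
    ∃ i₀ < L.length, ∀ i < L.length, (L.getD i []).count true = 0 ↔ i = i₀ := by
  obtain ⟨i₀, hi₀, e⟩ := List.getElem_of_mem ((hL.2 _).2 (isMask_zero t0 D))
  refine ⟨i₀, hi₀, fun i hi => ?_⟩
  rw [← Char2_inj hL.1 hi hi₀, Char2_getD L [] hi₀, e]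
  constructor
  · intro h
    refine List.eq_replicate_iff.2 ⟨(Char2_mask hL hi).1, fun b hb => ?_⟩
    cases b
    · rfl
    · exact absurd hb (List.count_eq_zero.1 h)
  · intro h
    rw [h]
    simp [List.count_replicate]

theorem Char2_first {L : List (List Bool)} {i₀ : ℕ} (h0 : i₀ < L.length)
    (h : ∀ i < L.length, (L.getD i []).count true = 0 ↔ i = i₀) (ψ : ℕ → ℝ) :
    dotQ L.length (L.map fun U => if U.count true = 0 then 1 else 0) ψ = ψ i₀ := by
  rw [Char2_dotQ, sum_eq_single i₀]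
  · rw [if_pos ((h i₀ h0).2 rfl)]
    simp
  · intro i hi hne
    rw [if_neg fun e => hne ((h i (mem_range.1 hi)).1 e)]
    simp
  · intro h'
    exact absurd (mem_range.2 h0) h'

theorem Char2_congr {g g' : (Fin n → Bool) → ℝ} (h : ∀ y, Agree pre y → g y = g' y) :
    ∑ y, unif pre y * g y = ∑ y, unif pre y * g' y := by
  refine sum_congr rfl fun y _ => ?_
  by_cases hy : unif pre y = 0
  · simp [hy]
  · rw [h y (agree_of_unif_ne hy)]

theorem Char2_repro {D : ℕ} {L : List (List Bool)} (hL : Masks n pre.length D L)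
    {g : (Fin n → Bool) → ℝ} (hg : (fun y => (g y : ℂ)) ∈ Jun n D) (hx : Agree pre x) :
    ∑ i ∈ range L.length, (∑ y, unif pre y * chi (L.getD i []) y * g y) * chi (L.getD i []) x =
      g x := by
  obtain ⟨c, hc⟩ := expand hL hg
  have hc' : ∀ y, Agree pre y → g y = ∑ s ∈ range L.length, (c s).re * chi (L.getD s []) y := by
    intro y hy
    have := congrArg Complex.re (hc y hy)
    simpa [Complex.re_sum] using this
  rw [hc' x hx]
  refine sum_congr rfl fun i hi => ?_
  congr 1
  have e : ∑ y, unif pre y * chi (L.getD i []) y * g y = ∑ y : Fin n → Bool, unif pre y *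
      (chi (L.getD i []) y * ∑ s ∈ range L.length, (c s).re * chi (L.getD s []) y) := by
    simp only [mul_assoc]
    exact Char2_congr fun y hy => by rw [hc' y hy]
  have e2 : ∀ s ∈ range L.length, ∑ y : Fin n → Bool, unif pre y *
      (chi (L.getD i []) y * ((c s).re * chi (L.getD s []) y)) =
        if i = s then (c s).re else 0 := by
    intro s hs
    have := Char2_orth hL (mem_range.1 hi) (mem_range.1 hs)
    calc _ = (c s).re * ∑ y : Fin n → Bool,
          unif pre y * chi (L.getD i []) y * chi (L.getD s []) y := by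
          rw [mul_sum]
          exact sum_congr rfl fun y _ => by ring
      _ = _ := by rw [this]; split_ifs <;> simp
  rw [e]
  simp only [mul_sum]
  rw [sum_comm, sum_congr rfl e2, sum_ite_eq, if_pos hi]

theorem Char2_avg (hp : 0 ≤ p) (hp1 : p ≤ 1) (pre : List Bool) (σ : List (ℕ × Bool)) (r : ℕ) :
    0 ≤ ∑ y : Fin n → Bool, unif pre y * PS p y σ r ∧
      ∑ y : Fin n → Bool, unif pre y * PS p y σ r ≤ 1 := by
  refine ⟨sum_nonneg fun y _ => mul_nonneg (unif_nonneg _ _) (PS_nonneg hp hp1 _ _ _), ?_⟩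
  rw [← sum_unif (n := n) pre]
  exact sum_le_sum fun y _ => mul_le_of_le_one_right (unif_nonneg _ _) (PS_le_one hp hp1 _ _ _)

theorem Char2_coef (hp : 0 ≤ p) (hp1 : p ≤ 1) (pre U : List Bool) (σ : List (ℕ × Bool)) (r : ℕ) :
    |coefS n p pre U σ r| ≤ 1 := by
  refine (abs_sum_le_sum_abs _ _).trans (le_trans (le_of_eq ?_) (Char2_avg (n := n) hp hp1 pre σ r).2)
  refine sum_congr rfl fun y _ => ?_
  rw [abs_mul, abs_mul, abs_chi, mul_one, abs_of_nonneg (unif_nonneg _ _),
    abs_of_nonneg (PS_nonneg hp hp1 _ _ _)]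

/-- integration against the pseudo-distribution -/
theorem Char2_int (pre : List Bool) (L : List (List Bool)) (ψ : ℕ → ℝ) (a Z : ℝ)
    (g : (Fin n → Bool) → ℝ) :
    ∑ y, unif pre y * (∑ i ∈ range L.length, ψ i * chi (L.getD i []) y + a) / Z * g y =
      (∑ i ∈ range L.length, (∑ y, unif pre y * chi (L.getD i []) y * g y) * ψ i +
        a * ∑ y, unif pre y * g y) / Z := by
  simp only [sum_mul]
  rw [sum_comm, mul_sum, ← sum_add_distrib, sum_div]
  refine sum_congr rfl fun y _ => ?_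
  have : ∑ i ∈ range L.length, unif pre y * chi (L.getD i []) y * g y * ψ i =
      unif pre y * (∑ i ∈ range L.length, ψ i * chi (L.getD i []) y) * g y := by
    rw [mul_sum, sum_mul]
    exact sum_congr rfl fun i _ => by ring
  rw [this]
  ring

theorem sdp_wf (hp : 0 ≤ p) (hp1 : p ≤ 1) (hS : Masks n pre.length k LS)
    (hU : Masks n pre.length (2 * k) LU)
    (hF : ∀ U ∈ LU, ∀ s ∈ sg, (F U s.1 s.2 : ℝ) = coefS n p pre U s.1 s.2) :
    SdpWF LU.length (idxT LS LU) (consT F LU sg τs) := by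
  refine ⟨fun s hs t ht => ?_, fun s hs t ht => ?_, fun c hc i hi => ?_⟩
  · rw [Char2_len] at hs ht
    rw [Char2_ent LS LU hs ht, Char2_ent LS LU ht hs, xor_comm']
  · rw [Char2_len] at hs ht
    exact Char2_ent_lt hS hU hs ht
  · rcases List.mem_cons.1 hc with rfl | hc
    · rw [Char2_map LU _ 0 hi]
      split_ifs <;> simp
    · obtain ⟨s, hs, rfl⟩ := List.mem_map.1 hc
      rw [Char2_map LU _ 0 hi]
      have h := Char2_coef (n := n) hp hp1 pre (LU.getD i []) s.1 s.2
      rw [← hF _ (Char2_mem LU hi) s hs] at h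
      exact_mod_cast h

theorem sdp_exact (hS : Masks n pre.length k LS) (hU : Masks n pre.length (2 * k) LU)
    (hF : ∀ U ∈ LU, ∀ s ∈ sg, (F U s.1 s.2 : ℝ) = coefS n p pre U s.1 s.2)
    (hsg : ∀ s ∈ sg, ValidSig n k s.1 s.2) (he : EmpOK p k E τs x) (hx : Agree pre x) :
    ∃ ψ, Exact LU.length E (idxT LS LU) (consT F LU sg τs) ψ := by
  refine ⟨fun i => chi (LU.getD i []) x, fun i _ => (abs_chi _ _).le, fun c hc => ?_,
    fun s => chi (LS.getD s []) x, fun s hs t ht => ?_⟩
  · rcases List.mem_cons.1 hc with rfl | hc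
    · obtain ⟨i₀, h0, h⟩ := Char2_zero hU
      rw [Char2_first h0 h, chi_zero ((h i₀ h0).2 rfl)]
      simp
    · obtain ⟨s, hs, rfl⟩ := List.mem_map.1 hc
      have hv := hsg s hs
      have hJ : (fun y : Fin n → Bool => (PS p y s.1 s.2 : ℂ)) ∈ Jun n (2 * k) :=
        Jun_mono (hv.1.trans (by omega)) (PS_mem_Jun n p s.1 s.2)
      have e : ∑ i ∈ range LU.length, (F (LU.getD i []) s.1 s.2 : ℝ) * chi (LU.getD i []) x =
          PS p x s.1 s.2 := by
        rw [← Char2_repro hU hJ hx]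
        exact sum_congr rfl fun i hi => by
          rw [hF _ (Char2_mem LU (mem_range.1 hi)) s hs, coefS]
      rw [Char2_dotQ, e, abs_sub_comm]
      exact he s.1 s.2 hv
  · rw [Char2_len] at hs ht
    rw [Char2_ent_get hS hU hs ht,
      chi_mul ((Char2_mask hS hs).1.trans (Char2_mask hS ht).1.symm)]

theorem sdp_sound (hp : 0 ≤ p) (hp1 : p ≤ 1) (hE : 1 ≤ E) (hS : Masks n pre.length k LS)
    (hU : Masks n pre.length (2 * k) LU)
    (hF : ∀ U ∈ LU, ∀ s ∈ sg, (F U s.1 s.2 : ℝ) = coefS n p pre U s.1 s.2)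
    (hsg : ∀ σ r, ValidSig n k σ r → (σ, r) ∈ sg) (he : EmpOK p k E τs x) {ψ : ℕ → ℝ}
    (h : Approx LU.length E (idxT LS LU) (consT F LU sg τs) ψ) :
    ∃ μ, Fake p k (9 / (E : ℝ)) pre x μ := by
  obtain ⟨i₀, h0, hz⟩ := Char2_zero hU
  obtain ⟨a, ha⟩ : ∃ a : ℝ, a = 2 / (E : ℝ) := ⟨_, rfl⟩
  have hE' : (0 : ℝ) < E := by exact_mod_cast hE
  have ha0 : 0 < a := by rw [ha]; positivity
  have h1 := h.lin _ List.mem_cons_self
  rw [Char2_first h0 hz, ← ha] at h1
  simp only [Rat.cast_one] at h1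
  obtain ⟨h1a, h1b⟩ := abs_le.1 h1
  obtain ⟨Z, hZ⟩ : ∃ Z : ℝ, Z = ψ i₀ + a := ⟨_, rfl⟩
  have hZ1 : 1 ≤ Z := by linarith
  have hZ2 : Z ≤ 1 + 2 * a := by linarith
  have hZ0 : 0 < Z := by linarith
  obtain ⟨μ, hμ⟩ : ∃ μ : (Fin n → Bool) → ℝ, μ = fun y =>
      unif pre y * (∑ i ∈ range LU.length, ψ i * chi (LU.getD i []) y + a) / Z := ⟨_, rfl⟩
  have hint : ∀ g : (Fin n → Bool) → ℝ, ∑ y, μ y * g y =
      (∑ i ∈ range LU.length, (∑ y, unif pre y * chi (LU.getD i []) y * g y) * ψ i +
        a * ∑ y, unif pre y * g y) / Z := fun g => by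
    rw [hμ]
    exact Char2_int pre LU ψ a Z g
  have hsupp : ∀ y, μ y ≠ 0 → Agree pre y := fun y hy =>
    agree_of_unif_ne fun e => hy (by rw [hμ]; simp [e])
  have hchi : ∀ j < LU.length, ∑ y, μ y * chi (LU.getD j []) y =
      (ψ j + a * if (LU.getD j []).count true = 0 then 1 else 0) / Z := by
    intro j hj
    rw [hint, sum_unif_chi (Char2_mask hU hj), sum_eq_single j]
    · rw [Char2_orth hU hj hj, if_pos rfl, one_mul]
    · intro i hi hne
      rw [Char2_orth hU (mem_range.1 hi) hj, if_neg hne, zero_mul]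
    · intro h'
      exact absurd (mem_range.2 hj) h'
  have hsq : ∀ u : ℕ → ℝ,
      0 ≤ ∑ y, μ y * (∑ s ∈ range LS.length, u s * chi (LS.getD s []) y) ^ 2 := by
    intro u
    have e1 : ∀ y : Fin n → Bool, μ y * (∑ s ∈ range LS.length, u s * chi (LS.getD s []) y) ^ 2 =
        ∑ s ∈ range LS.length, ∑ t ∈ range LS.length,
          u s * u t * (μ y * chi (LU.getD (entN (idxT LS LU) s t) []) y) := by
      intro y
      rw [sq, sum_mul_sum, mul_sum]
      refine sum_congr rfl fun s hs => ?_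
      rw [mul_sum]
      refine sum_congr rfl fun t ht => ?_
      have hs' := mem_range.1 hs
      have ht' := mem_range.1 ht
      rw [Char2_ent_get hS hU hs' ht',
        ← chi_mul ((Char2_mask hS hs').1.trans (Char2_mask hS ht').1.symm)]
      ring
    have e2 : ∀ s ∈ range LS.length, ∑ y : Fin n → Bool, ∑ t ∈ range LS.length,
        u s * u t * (μ y * chi (LU.getD (entN (idxT LS LU) s t) []) y) =
          (∑ t ∈ range LS.length, u s * u t * ψ (entN (idxT LS LU) s t) + a * u s ^ 2) / Z := by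
      intro s hs
      have hs' := mem_range.1 hs
      have e3 : ∀ t ∈ range LS.length, ∑ y : Fin n → Bool,
          u s * u t * (μ y * chi (LU.getD (entN (idxT LS LU) s t) []) y) =
            (u s * u t * ψ (entN (idxT LS LU) s t) + if s = t then a * u s ^ 2 else 0) / Z := by
        intro t ht
        have ht' := mem_range.1 ht
        rw [← mul_sum, hchi _ (Char2_ent_lt hS hU hs' ht'), Char2_ent_get hS hU hs' ht']
        simp only [count_xor_eq_zero ((Char2_mask hS hs').1.trans (Char2_mask hS ht').1.symm),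
          Char2_inj hS.1 hs' ht']
        split_ifs with hst
        · subst hst
          ring
        · ring
      rw [sum_comm, sum_congr rfl e3, ← sum_div, sum_add_distrib, sum_ite_eq, if_pos hs]
    rw [sum_congr rfl fun y _ => e1 y, sum_comm, sum_congr rfl e2, ← sum_div, sum_add_distrib,
      ← mul_sum]
    have h2 := h.psd u
    rw [Char2_len, ← ha, qf] at h2
    exact div_nonneg (by linarith) hZ0.le
  refine ⟨μ, ?_, hsupp, fun f hf => ?_, fun σ r hv => ?_⟩
  · have := hchi i₀ h0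
    simp only [chi_zero ((hz i₀ h0).2 rfl), mul_one, if_pos ((hz i₀ h0).2 rfl)] at this
    rw [this, ← hZ, div_self hZ0.ne']
  · obtain ⟨c, hc⟩ := expand hS hf
    have e : ∀ y : Fin n → Bool, μ y * ‖f y‖ ^ 2 =
        μ y * (∑ s ∈ range LS.length, (c s).re * chi (LS.getD s []) y) ^ 2 +
          μ y * (∑ s ∈ range LS.length, (c s).im * chi (LS.getD s []) y) ^ 2 := by
      intro y
      by_cases hy : μ y = 0
      · simp [hy]
      · rw [hc y (hsupp y hy), ← mul_add, Complex.sq_norm, Complex.normSq_apply, Complex.re_sum,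
          Complex.im_sum]
        simp [sq]
    rw [sum_congr rfl fun y _ => e y, sum_add_distrib]
    exact add_nonneg (hsq _) (hsq _)
  · have hmem := hsg σ r hv
    have h2 := h.lin (LU.map fun U => F U σ r, emp τs σ r)
      (List.mem_cons_of_mem _ (List.mem_map.2 ⟨(σ, r), hmem, rfl⟩))
    have e : dotQ LU.length (LU.map fun U => F U σ r) ψ = ∑ i ∈ range LU.length,
        (∑ y : Fin n → Bool, unif pre y * chi (LU.getD i []) y * PS p y σ r) * ψ i := by
      rw [Char2_dotQ]
      exact sum_congr rfl fun i hi => by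
        rw [hF _ (Char2_mem LU (mem_range.1 hi)) (σ, r) hmem, coefS]
    have h3 := he σ r hv
    have ea : 1 / (E : ℝ) = a / 2 := by rw [ha]; ring
    have eb : 9 / (E : ℝ) = 9 * a / 2 := by rw [ha]; ring
    obtain ⟨m0, m1⟩ := Char2_avg (n := n) hp hp1 pre σ r
    have p0 := PS_nonneg hp hp1 x σ r
    have p1 := PS_le_one hp hp1 x σ r
    rw [hint, ← e, eb]
    rw [← ha] at h2
    rw [ea] at h3
    simp only at h2
    generalize dotQ LU.length (LU.map fun U => F U σ r) ψ = d at h2
    generalize ∑ y : Fin n → Bool, unif pre y * PS p y σ r = m at m0 m1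
    generalize PS p x σ r = P at h3 p0 p1
    obtain ⟨h2a, h2b⟩ := abs_le.1 h2
    obtain ⟨h3a, h3b⟩ := abs_le.1 h3
    have e4 : (d + a * m) / Z - P = (d + a * m - Z * P) / Z := by field_simp
    have b1 : 0 ≤ a * m := mul_nonneg ha0.le m0
    have b2 : a * m ≤ a := mul_le_of_le_one_right ha0.le m1
    have b3 : 0 ≤ (Z - 1) * P := mul_nonneg (by linarith) p0
    have b4 : (Z - 1) * P ≤ Z - 1 := mul_le_of_le_one_right (by linarith) p1
    have b5 : |d + a * m - Z * P| ≤ 9 * a / 2 := abs_le.2 ⟨by linarith, by linarith⟩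
    rw [e4, abs_div, abs_of_pos hZ0]
    exact (div_le_self (abs_nonneg _) hZ1).trans b5

end Crest.Agent.R300
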