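import Crest.Agent.R300.CoefM

/-!
# Row 300: the Fourier coefficients of the statistics are computable in polynomial time.

`pt_dp`: tabulate over the suffixes of `π`: `row cs = π.tails.map (dp a u cs)`; `row (c :: cs)` is computed
from `row cs` by a `zipWith`-like map (entry `i` uses the entries `i`, `i+1` of the old row and the letter
`π[i]`; simplest: `(List.range (π.length+1)).map fun i => …getD…`), `PT.of_list_rec` on the list of pairs.  Size:
`|dp a u cs π'| ≤ ∏_{c ∈ cs} (|a|+|u|)(|c.1|+|c.2|)`, or directly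
`esize (dp a u cs π') ≤ cs.length * (poly)` via `natAbs_lt_two_pow_esize`, `esize_nat_le_of_le_two_pow`.
`exists_statcoef`: with `n = U.length` use the capped pattern `pat (σ.map fun a => (min a.1 n, a.2)) (min r n)`
(`pat` as a `flatMap` followed by a `replicate`), then `coefS_eq`.
-/

set_option autoImplicit false

namespace Crest.Agent.R300

open Crest.Agent.Lib.PolyTime

/-- the values of `dp` on all suffixes of the pattern -/
def coefRow (a u : ℤ) (π : List (Option Bool)) (cs : List (ℤ × ℤ)) : List ℤ :=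
  (List.range (π.length + 1)).map fun i => dp a u cs (π.drop i)

/-- one step of the tabulation -/
def coefStep (a u : ℤ) (π : List (Option Bool)) (c : ℤ × ℤ) (old : List ℤ) : List ℤ :=
  (List.range (π.length + 1)).map fun i => a * (c.1 + c.2) * old.getD i 0 +
    u * ((if (π.getD i none).getD false = false then c.1 else 0) +
      (if (π.getD i none).getD true = true then c.2 else 0)) * old.getD (i + 1) 0

theorem coefRow_getD (a u : ℤ) (π : List (Option Bool)) (cs : List (ℤ × ℤ)) (i : ℕ) :
    (coefRow a u π cs).getD i 0 = if i ≤ π.length then dp a u cs (π.drop i) else 0 := by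
  unfold coefRow
  split_ifs with h
  · rw [List.getD_eq_getElem _ _ (by simpa using Nat.lt_succ_of_le h)]
    simp
  · rw [List.getD_eq_default _ _ (by simpa using h)]

theorem coefRow_cons (a u : ℤ) (π : List (Option Bool)) (c : ℤ × ℤ) (cs : List (ℤ × ℤ)) :
    coefRow a u π (c :: cs) = coefStep a u π c (coefRow a u π cs) := by
  unfold coefStep
  simp only [coefRow_getD]
  unfold coefRow
  refine List.map_congr_left fun i hi => ?_
  have hi' : i ≤ π.length := Nat.le_of_lt_succ (List.mem_range.1 hi)
  rw [if_pos hi']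
  rcases hi'.eq_or_lt with h | h
  · subst h
    simp [dp]
  · rw [if_pos (Nat.succ_le_of_lt h), List.drop_eq_getElem_cons h, dp, List.getD_eq_getElem _ _ h]
    rcases π[i] with _ | _ | _ <;> simp [okL]

theorem coef_dp_le (a u : ℤ) (E : ℕ) (ha : a.natAbs ≤ 2 ^ E) (hu : u.natAbs ≤ 2 ^ E)
    (cs : List (ℤ × ℤ)) (hc : ∀ c ∈ cs, c.1.natAbs ≤ 2 ^ E ∧ c.2.natAbs ≤ 2 ^ E)
    (π : List (Option Bool)) : (dp a u cs π).natAbs ≤ 2 ^ ((2 * E + 2) * cs.length) := by
  induction cs generalizing π with
  | nil => unfold dp; split_ifs <;> simp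
  | cons c cs ih =>
    have ih' := ih fun c' hc' => hc c' (List.mem_cons_of_mem _ hc')
    obtain ⟨h1, h2⟩ := hc c List.mem_cons_self
    have key : ∀ (x y z : ℤ), x.natAbs ≤ 2 ^ E → y.natAbs ≤ 2 * 2 ^ E →
        z.natAbs ≤ 2 ^ ((2 * E + 2) * cs.length) →
        2 * (x * y * z).natAbs ≤ 2 ^ ((2 * E + 2) * (c :: cs).length) := by
      intro x y z hx hy hz
      rw [Int.natAbs_mul, Int.natAbs_mul]
      calc 2 * (x.natAbs * y.natAbs * z.natAbs) ≤
            2 * (2 ^ E * (2 * 2 ^ E) * 2 ^ ((2 * E + 2) * cs.length)) := by gcongr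
        _ = _ := by rw [List.length_cons]; ring
    have h3 : (c.1 + c.2).natAbs ≤ 2 * 2 ^ E := by omega
    cases π with
    | nil =>
      have := key a _ _ ha h3 (ih' [])
      rw [dp]; omega
    | cons o π =>
      have h4 : ((if okL o false then c.1 else 0) + (if okL o true then c.2 else 0)).natAbs ≤
          2 * 2 ^ E := by split_ifs <;> omega
      have h5 := key a _ _ ha h3 (ih' (o :: π))
      have h6 := key u _ _ hu h4 (ih' π)
      rw [dp]
      refine (Int.natAbs_add_le _ _).trans ?_
      omega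

theorem pt_dp : PT fun x : (ℤ × ℤ) × List (ℤ × ℤ) × List (Option Bool) =>
    dp x.1.1 x.1.2 x.2.1 x.2.2 := by
  have h : PT fun x : (ℤ × ℤ) × List (ℤ × ℤ) × List (Option Bool) =>
      coefRow x.1.1 x.1.2 x.2.2 x.2.1 := by
    refine PT.of_list_rec (l := fun x : (ℤ × ℤ) × List (ℤ × ℤ) × List (Option Bool) => x.2.1)
      (F := fun x cs => coefRow x.1.1 x.1.2 x.2.2 cs)
      (g := fun x c _ old => coefStep x.1.1 x.1.2 x.2.2 c old)
      (fun x => (x.2.2.length + 1) * (6 * ((2 * esize x + 2) * esize x) + 13 + 1) + 1)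
      (by fun_prop) ?_ ?_ (fun x c m => coefRow_cons _ _ _ _ _) ?_ ?_
    · simp only [coefRow, dp]
      pt
    · simp only [coefStep]
      pt
    · have := PB.esize_id (α := (ℤ × ℤ) × List (ℤ × ℤ) × List (Option Bool))
      fun_prop
    · rintro ⟨⟨a, u⟩, cs, π⟩ m hm
      set E := esize ((a, u), cs, π) with hE
      have hE' : E = esize a + esize u + 1 + (esize cs + esize π + 1) + 1 := rfl
      have hm1 : esize m ≤ esize cs := esize_sublist hm.sublist
      have hm2 := length_lt_esize m
      have hb : ∀ z ∈ coefRow a u π m, esize z ≤ 6 * ((2 * E + 2) * E) + 13 := by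
        intro z hz
        obtain ⟨i, -, rfl⟩ := List.mem_map.1 hz
        have h1 := coef_dp_le a u E
          ((natAbs_lt_two_pow_esize a).le.trans (Nat.pow_le_pow_right two_pos (by omega)))
          ((natAbs_lt_two_pow_esize u).le.trans (Nat.pow_le_pow_right two_pos (by omega))) m
          (fun c hc => by
            have h2 := esize_lt_of_mem hc
            rw [esize_prod] at h2
            exact ⟨(natAbs_lt_two_pow_esize c.1).le.trans (Nat.pow_le_pow_right two_pos (by omega)),
              (natAbs_lt_two_pow_esize c.2).le.trans (Nat.pow_le_pow_right two_pos (by omega))⟩)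
          (π.drop i)
        have h3 := esize_nat_le_of_le_two_pow h1
        have h4 : (2 * E + 2) * m.length ≤ (2 * E + 2) * E := Nat.mul_le_mul_left _ (by omega)
        rw [esize_int]
        omega
      have h5 := esize_list_le hb
      simpa [coefRow] using h5
  exact (h.headD (PT.const 0)).of_eq fun x => by simp [coefRow, List.range_succ_eq_map]

theorem coef_pat_eq (σ : List (ℕ × Bool)) (r : ℕ) : pat σ r =
    (σ.flatMap fun a => List.replicate a.1 none ++ [some a.2]) ++ List.replicate r none := by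
  induction σ with
  | nil => simp [pat]
  | cons a σ ih => simp [pat, ih]

/-- the capped reversed pattern -/
def coefPat (n : ℕ) (σ : List (ℕ × Bool)) (r : ℕ) : List (Option Bool) :=
  ((σ.flatMap fun a : ℕ × Bool => List.replicate (min a.1 n) none ++ [some a.2]) ++
    List.replicate (min r n) none).reverse

/-- the list of weights -/
def coefW (pre U : List Bool) : List (ℤ × ℤ) :=
  (List.range U.length).map fun i => (cw pre U i false, cw pre U i true)

theorem pt_coefPat : PT fun x : List Bool × List (ℕ × Bool) × ℕ =>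
    coefPat x.1.length x.2.1 x.2.2 := by
  unfold coefPat
  fun_prop

theorem pt_coefW : PT fun x : List Bool × List Bool => coefW x.1 x.2 := by
  unfold coefW cw
  fun_prop

theorem coefPat_eq (n : ℕ) (σ : List (ℕ × Bool)) (r : ℕ) (hσ : ∀ a ∈ σ, a.1 < n) (hr : r ≤ n) :
    coefPat n σ r = (pat σ r).reverse := by
  rw [coef_pat_eq, coefPat, min_eq_left hr,
    List.flatMap_congr fun a ha => by rw [min_eq_left (hσ a ha).le]]

theorem exists_statcoef : ∃ F : ℚ × List Bool × List Bool × List (ℕ × Bool) × ℕ → ℚ, PT F ∧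
    ∀ (p : ℚ) (pre U : List Bool) (σ : List (ℕ × Bool)) (r : ℕ), (∀ a ∈ σ, a.1 < U.length) →
      r ≤ U.length → (F (p, pre, U, σ, r) : ℝ) = coefS U.length p pre U σ r := by
  refine ⟨fun x => (dp ((x.1.den : ℤ) - x.1.num) x.1.num (coefW x.2.1 x.2.2.1)
      (coefPat x.2.2.1.length x.2.2.2.1 x.2.2.2.2) : ℚ) / (2 * (x.1.den : ℚ)) ^ x.2.2.1.length,
    ?_, ?_⟩
  · refine PT.rat_div (PT.rat_intCast ?_) (by fun_prop)
    have h1 : PT fun x : ℚ × List Bool × List Bool × List (ℕ × Bool) × ℕ => coefW x.2.1 x.2.2.1 :=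
      pt_coefW.comp (g := fun x : ℚ × List Bool × List Bool × List (ℕ × Bool) × ℕ =>
        (x.2.1, x.2.2.1)) (by fun_prop)
    have h2 : PT fun x : ℚ × List Bool × List Bool × List (ℕ × Bool) × ℕ =>
        coefPat x.2.2.1.length x.2.2.2.1 x.2.2.2.2 :=
      pt_coefPat.comp (g := fun x : ℚ × List Bool × List Bool × List (ℕ × Bool) × ℕ => x.2.2)
        (by fun_prop)
    have h3 : PT fun x : ℚ × List Bool × List Bool × List (ℕ × Bool) × ℕ =>
        ((x.1.den : ℤ) - x.1.num, x.1.num) := by fun_prop
    have h4 := pt_dp.comp (h3.prodMk (h1.prodMk h2))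
    dsimp only at h4
    exact h4
  · intro p pre U σ r hσ hr
    rw [coefS_eq, ← coefPat_eq _ σ r hσ hr]
    push_cast
    rfl

end Crest.Agent.R300
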