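import Crest.Agent.R300.DDefs
import Crest.Agent.R300.Tr

/-!
# Row 300: the dynamic programme for the Fourier coefficients of the statistics (mathematics).

`hit σ r l` says that `l` matches the pattern `pat σ r` letter by letter (`none` is a wildcard) and has the
same length (`hit_eq`, induction on `σ` generalising `l`, inner induction on the gap).  Matching is invariant
under reversing both lists (`mat_reverse`; prove `mat π l = true ↔ List.Forall₂ …` and use
`List.forall₂_reverse_iff`).  `unif pre y * chi U y = ∏ i, cw pre U i (y i) / 2`.
`dp_spec`: induction on `n` generalising `c` and `π` (split `y = Fin.cons b y'`, `List.ofFn_succ`, the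
definition of `trE`, `Fin.prod_univ_succ`, `trE_const`/`trE_const_mul`), `dp` is the value of the recursion.
-/

set_option autoImplicit false

namespace Crest.Agent.R300

/-- the pattern of a statistic -/
def pat : List (ℕ × Bool) → ℕ → List (Option Bool)
  | [], r => List.replicate r none
  | a :: σ, r => List.replicate a.1 none ++ some a.2 :: pat σ r

/-- letter test -/
def okL (o : Option Bool) (b : Bool) : Bool := o.all fun c => c == b

/-- match of a pattern -/
def mat : List (Option Bool) → List Bool → Bool
  | [], [] => true
  | o :: π, b :: l => okL o b && mat π l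
  | _, _ => false

/-- twice the signed weight of the bit `b` at position `i` -/
def cw (pre U : List Bool) (i : ℕ) (b : Bool) : ℤ :=
  (if i < pre.length then (if b = pre.getD i false then 2 else 0) else 1) *
    (if (U.getD i false && b) = true then -1 else 1)

/-- integer form of the recursion; `a = den - num` (delete), `u = num` (keep);
the list contains the pairs `(c false, c true)` -/
def dp (a u : ℤ) : List (ℤ × ℤ) → List (Option Bool) → ℤ
  | [], π => if π = [] then 1 else 0
  | c :: cs, [] => a * (c.1 + c.2) * dp a u cs []
  | c :: cs, o :: π => a * (c.1 + c.2) * dp a u cs (o :: π) +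
      u * ((if okL o false then c.1 else 0) + (if okL o true then c.2 else 0)) * dp a u cs π

theorem CoefM_mat_rep (r : ℕ) (l : List Bool) :
    mat (List.replicate r none) l = decide (l.length = r) := by
  induction r generalizing l with
  | zero => cases l <;> simp [mat]
  | succ r ih => cases l <;> simp [List.replicate_succ, mat, okL, ih]

theorem CoefM_mat_gap (g : ℕ) (b : Bool) (π : List (Option Bool)) (l : List Bool) :
    mat (List.replicate g none ++ some b :: π) l =
      match l.drop g with
      | [] => false
      | c :: l' => (c == b) && mat π l' := by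
  induction g generalizing l with
  | zero =>
    cases l with
    | nil => simp [mat]
    | cons c l => cases b <;> cases c <;> simp [mat, okL]
  | succ g ih =>
    cases l with
    | nil => simp [List.replicate_succ, mat]
    | cons c l => simp [List.replicate_succ, mat, okL, ih]

theorem hit_eq (σ : List (ℕ × Bool)) (r : ℕ) (l : List Bool) : hit σ r l = mat (pat σ r) l := by
  induction σ generalizing l with
  | nil => simp [hit, pat, CoefM_mat_rep]
  | cons a σ ih =>
    rw [hit, pat, CoefM_mat_gap]
    cases l.drop a.1 with
    | nil => rfl
    | cons c l' => simp [ih]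

theorem CoefM_mat_iff (π : List (Option Bool)) (l : List Bool) :
    mat π l = true ↔ List.Forall₂ (fun o b => okL o b = true) π l := by
  induction π generalizing l with
  | nil => cases l <;> simp [mat]
  | cons o π ih => cases l <;> simp [mat, ih]

theorem mat_reverse (π : List (Option Bool)) (l : List Bool) :
    mat π l.reverse = mat π.reverse l := by
  rw [Bool.eq_iff_iff, CoefM_mat_iff, CoefM_mat_iff, ← List.forall₂_reverse_iff,
    List.reverse_reverse]

theorem dp_spec (a u : ℤ) (d : ℝ) (hd : d ≠ 0) (had : (a : ℝ) + u = d) (n : ℕ) (c : ℕ → Bool → ℤ)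
    (π : List (Option Bool)) :
    ∑ y : Fin n → Bool, (∏ i : Fin n, (c i (y i) : ℝ)) *
        trE (u / d) (List.ofFn y) (fun τ => if mat π τ then 1 else 0) =
      (dp a u ((List.range n).map fun i => (c i false, c i true)) π : ℝ) / d ^ n := by
  induction n generalizing c π with
  | zero => cases π <;> simp [trE, mat, dp]
  | succ n ih =>
    have h1 : 1 - (u : ℝ) / d = a / d := by
      rw [← had] at hd ⊢
      field_simp
      ring
    rw [← (Fin.consEquiv fun _ : Fin (n + 1) => Bool).sum_comp, Fintype.sum_prod_type,
      Fintype.sum_bool, List.range_succ_eq_map, List.map_cons, List.map_map]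
    simp only [Fin.consEquiv_apply, Fin.prod_univ_succ, Fin.cons_zero, Fin.cons_succ,
      List.ofFn_succ, trE, Fin.val_zero, Fin.val_succ, h1]
    have ih' := ih fun i => c (i + 1)
    have key : ∀ (b : Bool) (F G : List Bool → ℝ), ∑ y : Fin n → Bool,
        (c 0 b : ℝ) * (∏ i : Fin n, (c (i + 1) (y i) : ℝ)) *
          (a / d * trE (u / d) (List.ofFn y) F + u / d * trE (u / d) (List.ofFn y) G) =
        c 0 b * (a / d * ∑ y : Fin n → Bool,
          (∏ i : Fin n, (c (i + 1) (y i) : ℝ)) * trE (u / d) (List.ofFn y) F +
          u / d * ∑ y : Fin n → Bool,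
          (∏ i : Fin n, (c (i + 1) (y i) : ℝ)) * trE (u / d) (List.ofFn y) G) := by
      intro b F G
      simp only [Finset.mul_sum, ← Finset.sum_add_distrib]
      exact Finset.sum_congr rfl fun y _ => by ring
    rw [key, key, ih' π]
    cases π with
    | nil =>
      simp only [mat, Bool.false_eq_true, if_false, trE_const, mul_zero, Finset.sum_const_zero, dp,
        Function.comp_def, Nat.succ_eq_add_one]
      push_cast
      field_simp
      ring
    | cons o π =>
      have e : ∀ b : Bool, ∑ y : Fin n → Bool, (∏ i : Fin n, (c (i + 1) (y i) : ℝ)) *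
          trE (u / d) (List.ofFn y) (fun τ => if mat (o :: π) (b :: τ) then 1 else 0) =
          (if okL o b then 1 else 0) *
            ((dp a u ((List.range n).map fun i => (c (i + 1) false, c (i + 1) true)) π : ℝ) /
              d ^ n) := by
        intro b
        cases h : okL o b
        · simp [mat, h, trE_const]
        · simp only [mat, h, Bool.true_and, if_true, one_mul]
          exact ih' π
      rw [e, e]
      simp only [dp, Function.comp_def, Nat.succ_eq_add_one]
      push_cast
      split_ifs <;> field_simp <;> ring

theorem coefS_eq (n : ℕ) (p : ℚ) (pre U : List Bool) (σ : List (ℕ × Bool)) (r : ℕ) :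
    coefS n p pre U σ r =
      (dp ((p.den : ℤ) - p.num) p.num
        ((List.range n).map fun i => (cw pre U i false, cw pre U i true)) (pat σ r).reverse : ℝ) /
        (2 * (p.den : ℝ)) ^ n := by
  have hd : (p.den : ℝ) ≠ 0 := by exact_mod_cast p.den_ne_zero
  have h := dp_spec ((p.den : ℤ) - p.num) p.num (p.den : ℝ) hd (by push_cast; ring) n (cw pre U)
    (pat σ r).reverse
  rw [mul_pow, mul_comm ((2 : ℝ) ^ n), ← div_div, ← h, coefS, Finset.sum_div]
  refine Finset.sum_congr rfl fun y _ => ?_
  have h1 : unif pre y * chi U y = (∏ i : Fin n, (cw pre U i (y i) : ℝ)) / 2 ^ n := by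
    rw [unif, chi, ← Finset.prod_mul_distrib,
      show (2 : ℝ) ^ n = ∏ _i : Fin n, (2 : ℝ) by simp, ← Finset.prod_div_distrib]
    refine Finset.prod_congr rfl fun i _ => ?_
    unfold cw
    split_ifs <;> norm_num
  rw [h1, PS, Rat.cast_def]
  simp only [hit_eq, mat_reverse]
  ring

end Crest.Agent.R300
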