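import Crest.Agent.R300.UDefs
import Crest.Agent.Lib.PolyTime.More

/-!
# Row 300: definitions for the sampling step and the decoder.  FROZEN (helper25).

The decoder finds the bits of `x` from left to right.  For a candidate prefix `pre` it tests whether
there is a pseudo-distribution `μ = unif pre · ∑ ψ(U) χ_U` (masks `U` with at most `2k` ones, all
outside the prefix) whose statistics are close to the empirical ones.  This is a semidefinite
feasibility problem in the unknowns `ψ(U)`; it is solved by a perceptron with accuracy `1/E` in time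
polynomial in `E` and the number of masks (both are at most the number of traces).
All algorithms are hidden behind existential interfaces `∃ F, PT F ∧ spec`.
-/

set_option autoImplicit false

namespace Crest.Agent.R300

open Finset

/-- empirical frequency of a pattern -/
def emp (τs : List (List Bool)) (σ : List (ℕ × Bool)) (r : ℕ) : ℚ :=
  ((τs.countP fun τ => hit σ r τ.reverse : ℕ) : ℚ) / ((τs.length : ℕ) : ℚ)

/-- all empirical frequencies are accurate -/
def EmpOK {n : ℕ} (p : ℝ) (k E : ℕ) (τs : List (List Bool)) (x : Fin n → Bool) : Prop :=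
  ∀ σ r, ValidSig n k σ r → |(emp τs σ r : ℝ) - PS p x σ r| ≤ 1 / (E : ℝ)

def entZ (M : List (List ℤ)) (s t : ℕ) : ℤ := (M.getD s []).getD t 0

def entN (M : List (List ℕ)) (s t : ℕ) : ℕ := (M.getD s []).getD t 0

/-- quadratic form -/
noncomputable def qf (n : ℕ) (M : ℕ → ℕ → ℝ) (u : ℕ → ℝ) : ℝ :=
  ∑ s ∈ range n, ∑ t ∈ range n, u s * u t * M s t

noncomputable def dotQ (N : ℕ) (c : List ℚ) (ψ : ℕ → ℝ) : ℝ :=
  ∑ i ∈ range N, ((c.getD i 0 : ℚ) : ℝ) * ψ i

/-- well-formed instance: `N` unknowns, the matrix `ψ (idx s t)`, linear constraints `cs` -/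
structure SdpWF (N : ℕ) (idx : List (List ℕ)) (cs : List (List ℚ × ℚ)) : Prop where
  symm : ∀ s < idx.length, ∀ t < idx.length, entN idx s t = entN idx t s
  lt : ∀ s < idx.length, ∀ t < idx.length, entN idx s t < N
  coef : ∀ c ∈ cs, ∀ i < N, |c.1.getD i 0| ≤ 1

/-- a rank-one solution with tolerance `1/E` -/
structure Exact (N E : ℕ) (idx : List (List ℕ)) (cs : List (List ℚ × ℚ)) (ψ : ℕ → ℝ) : Prop where
  box : ∀ i < N, |ψ i| ≤ 1
  lin : ∀ c ∈ cs, |dotQ N c.1 ψ - (c.2 : ℝ)| ≤ 1 / (E : ℝ)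
  rk1 : ∃ u : ℕ → ℝ, ∀ s < idx.length, ∀ t < idx.length, ψ (entN idx s t) = u s * u t

/-- an approximate solution with tolerance `2/E` -/
structure Approx (N E : ℕ) (idx : List (List ℕ)) (cs : List (List ℚ × ℚ)) (ψ : ℕ → ℝ) : Prop where
  lin : ∀ c ∈ cs, |dotQ N c.1 ψ - (c.2 : ℝ)| ≤ 2 / (E : ℝ)
  psd : ∀ u : ℕ → ℝ, -(2 / (E : ℝ)) * ∑ s ∈ range idx.length, u s ^ 2 ≤
    qf idx.length (fun s t => ψ (entN idx s t)) u

/-- input of the solver: `N` and `E` in unary, `idx`, `cs` -/
abbrev SdpIn : Type := (List Unit × List Unit) × List (List ℕ) × List (List ℚ × ℚ)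

def IsMask (n t0 D : ℕ) (U : List Bool) : Prop :=
  U.length = n ∧ (∀ i < t0, U.getD i false = false) ∧ U.count true ≤ D

/-- `L` lists the masks -/
def Masks (n t0 D : ℕ) (L : List (List Bool)) : Prop := L.Nodup ∧ ∀ U, U ∈ L ↔ IsMask n t0 D U

def Agree {n : ℕ} (pre : List Bool) (y : Fin n → Bool) : Prop :=
  ∀ i : Fin n, i.val < pre.length → y i = pre.getD i false

/-- uniform distribution on the words with prefix `pre` -/
noncomputable def unif {n : ℕ} (pre : List Bool) (y : Fin n → Bool) : ℝ :=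
  ∏ i : Fin n, if i.val < pre.length then (if y i = pre.getD i false then 1 else 0) else 1 / 2

/-- the character of a mask -/
noncomputable def chi {n : ℕ} (U : List Bool) (y : Fin n → Bool) : ℝ :=
  ∏ i : Fin n, if (U.getD i false && y i) = true then -1 else 1

/-- Fourier coefficient of a statistic -/
noncomputable def coefS (n : ℕ) (p : ℝ) (pre U : List Bool) (σ : List (ℕ × Bool)) (r : ℕ) : ℝ :=
  ∑ y : Fin n → Bool, unif pre y * chi U y * PS p y σ r

def idxT (LS LU : List (List Bool)) : List (List ℕ) :=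
  LS.map fun S => LS.map fun T => LU.idxOf (List.zipWith xor S T)

def consT (F : List Bool → List (ℕ × Bool) → ℕ → ℚ) (LU : List (List Bool))
    (sg : List (List (ℕ × Bool) × ℕ)) (τs : List (List Bool)) : List (List ℚ × ℚ) :=
  (LU.map fun U => if U.count true = 0 then 1 else 0, 1) ::
    sg.map fun s => (LU.map fun U => F U s.1 s.2, emp τs s.1 s.2)

/-- a pseudo-distribution on the words with prefix `pre` that matches the statistics of `x` -/
structure Fake {n : ℕ} (p : ℝ) (k : ℕ) (ε : ℝ) (pre : List Bool) (x : Fin n → Bool)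
    (μ : (Fin n → Bool) → ℝ) : Prop where
  sum_one : ∑ y, μ y = 1
  supp : ∀ y, μ y ≠ 0 → Agree pre y
  psd : ∀ f ∈ Jun n k, 0 ≤ ∑ y, μ y * ‖f y‖ ^ 2
  close : StatClose μ x p k ε

/-- input of the decoder: `p`, `n` (unary), `k`, `E` (unary), a padding, the traces -/
abbrev DIn : Type := ℚ × List Unit × ℕ × List Unit × List Unit × List (List Bool)

/-- the promise on the input of the decoder -/
structure DOK {n : ℕ} (a : DIn) (x : Fin n → Bool) : Prop where
  hp0 : 0 ≤ a.1
  hp1 : a.1 ≤ 1
  hn : a.2.1.length = n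
  hE : 1 ≤ a.2.2.2.1.length
  pad : (2 * n + 2) ^ (2 * a.2.2.1 + 1) ≤ a.2.2.2.2.1.length
  emp : EmpOK (a.1 : ℝ) a.2.2.1 a.2.2.2.1.length a.2.2.2.2.2 x

/-- degree used by the decoder with `m` traces -/
def kP (n m : ℕ) : ℕ := Nat.log2 m / (16 * (Nat.log2 n + 2))

/-- inverse accuracy used by the decoder with `m` traces -/
def EP (m : ℕ) : ℕ := 2 ^ (Nat.log2 m / 8)

end Crest.Agent.R300
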