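import Crest.Agent.R300.DDefs
import Crest.Prelude.Def_TraceDecoder

/-!
# Row 300: the parameters of the decoder.

Let `X = XX n p ≥ 1`, `W = p⁻¹ log n X^2 (1 + log X)^6 ≥ Bud n p`, `W ≥ log n X^2 ≥ log 2 > 0.69`, `m ≥ exp (C W)`,
`ℓ = log2 m` (`2^ℓ ≤ m < 2^(ℓ+1)`, so `ℓ log 2 ≥ C W - log 2` and `ℓ ≥ C W - 1`), `L = log2 n`
(`L + 2 ≤ 3 log n / log 2 ≤ 4.4 log n`, `2 n + 2 ≤ 2^(L+2)`), `k = kP n m ≥ ℓ / (16 (L+2)) - 1 ≥ C X^2 / 71 - 2`,
`16 (L+2) k ≤ ℓ`.  Take `C = 100 (C₀ + 3)`.  Then `k ≥ 1`, `(L+2)(2k+1) ≤ 3 (L+2) k ≤ ℓ`,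
`(L+2)(k+2) + 2 (ℓ/8) + 2 ≤ ℓ` (as `ℓ ≥ 48`), and `(ℓ/8) log 2 ≥ (C W - 1)/8 - 1 ≥ C₀ W + log 9`.
-/

set_option autoImplicit false

namespace Crest.Agent.R300

open Crest.TraceRecon

theorem dpar_one_le_XX {n : ℕ} {p : ℝ} (hp : 0 < p) (hp1 : p < 1) : 1 ≤ XX n p := by
  have h1 : 0 ≤ Real.log (1 / (1 - p)) :=
    Real.log_nonneg (by rw [le_div_iff₀ (by linarith)]; linarith)
  have h2 : 0 ≤ Real.log n := Real.log_natCast_nonneg n
  have : 0 ≤ Real.log n / (1 + Real.log (1 / (1 - p))) := by positivity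
  unfold XX
  linarith

theorem dpar_W {n : ℕ} {p : ℝ} (hp : 0 < p) (hp1 : p < 1) :
    Real.log n * XX n p ^ 2 ≤ p⁻¹ * Real.log n * XX n p ^ 2 * (1 + Real.log (XX n p)) ^ 6 ∧
      Bud n p ≤ p⁻¹ * Real.log n * XX n p ^ 2 * (1 + Real.log (XX n p)) ^ 6 := by
  have hX := dpar_one_le_XX (n := n) hp hp1
  have h1 : 1 ≤ 1 + Real.log (XX n p) := by linarith [Real.log_nonneg hX]
  have h2 : 0 ≤ Real.log n := Real.log_natCast_nonneg n
  have h3 : 1 ≤ p⁻¹ := (one_le_inv₀ hp).2 hp1.le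
  have h4 : 0 ≤ Real.log n * XX n p ^ 2 := by positivity
  have h5 : 1 ≤ (1 + Real.log (XX n p)) ^ 6 := one_le_pow₀ h1
  have h6 : 1 + Real.log (XX n p) ≤ (1 + Real.log (XX n p)) ^ 6 := le_self_pow₀ h1 (by norm_num)
  constructor
  · have : Real.log n * XX n p ^ 2 ≤ p⁻¹ * Real.log n * XX n p ^ 2 := by
      rw [mul_assoc]; exact le_mul_of_one_le_left h4 h3
    exact this.trans (le_mul_of_one_le_right (h4.trans this) h5)
  · exact mul_le_mul_of_nonneg_left h6 (by positivity)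

theorem exists_par (C₀ : ℝ) (hC : 1 ≤ C₀) : ∃ C : ℝ, 1 ≤ C ∧ ∀ n : ℕ, 2 ≤ n → ∀ p : ℝ, 0 < p → p < 1 →
    ∀ m, m = traceBudget C n p →
      n ≤ m ∧ (2 * n + 2) ^ (2 * kP n m + 1) ≤ m ∧
      3 * (2 * n + 2) ^ (kP n m + 2) * EP m ^ 2 ≤ m ∧ C₀ * XX n p ^ 2 ≤ kP n m ∧
      9 / (EP m : ℝ) ≤ Real.exp (-(C₀ * Bud n p)) := by
  refine ⟨100 * (C₀ + 3), by linarith, fun n hn p hp hp1 m hm => ?_⟩
  have hX := dpar_one_le_XX (n := n) hp hp1
  obtain ⟨hW1, hW2⟩ := dpar_W (n := n) hp hp1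
  set W := p⁻¹ * Real.log n * XX n p ^ 2 * (1 + Real.log (XX n p)) ^ 6 with hW
  set X := XX n p
  set C := 100 * (C₀ + 3) with hCd
  have hm1 : Real.exp (C * W) ≤ m := by
    rw [hm]
    exact Nat.le_ceil _
  have hm0 : m ≠ 0 := by
    rintro rfl
    have := Real.exp_pos (C * W)
    simp at hm1
    linarith
  have hl2 : (0.69 : ℝ) < Real.log 2 := by linarith [Real.log_two_gt_d9]
  have hl2' : Real.log 2 < 0.7 := by linarith [Real.log_two_lt_d9]
  have hΛ : Real.log 2 ≤ Real.log n := Real.log_le_log (by norm_num) (by exact_mod_cast hn)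
  have hX2 : 1 ≤ X ^ 2 := one_le_pow₀ hX
  have hWl : 0.69 ≤ W := by nlinarith
  set l := Nat.log2 m with hl
  set L := Nat.log2 n with hL
  have a1 : 2 ^ l ≤ m := Nat.log2_self_le hm0
  have a2 : m < 2 ^ (l + 1) := Nat.lt_log2_self
  have b1 : 2 ^ L ≤ n := Nat.log2_self_le (by omega)
  have b2 : n < 2 ^ (L + 1) := Nat.lt_log2_self
  have b3 : 1 ≤ L := by
    by_contra h
    have : L = 0 := by omega
    rw [this] at b2
    omega
  have b4 : 2 * n + 2 ≤ 2 ^ (L + 2) := by rw [pow_succ]; omega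
  have c1 : C * W ≤ (l + 1) * Real.log 2 := by
    have h1 : (m : ℝ) ≤ 2 ^ (l + 1) := by exact_mod_cast a2.le
    have h2 := Real.log_le_log (Real.exp_pos _) (hm1.trans h1)
    rw [Real.log_exp, Real.log_pow] at h2
    exact_mod_cast h2
  have c2 : (L : ℝ) * Real.log 2 ≤ Real.log n := by
    have h1 : (2 : ℝ) ^ L ≤ n := by exact_mod_cast b1
    have h2 := Real.log_le_log (by positivity) h1
    rwa [Real.log_pow] at h2
  have hk : kP n m = l / (16 * (L + 2)) := rfl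
  set k := kP n m
  have d1 : k * (16 * (L + 2)) ≤ l := by rw [hk]; exact Nat.div_mul_le_self _ _
  have d2 : l + 1 ≤ (k + 1) * (16 * (L + 2)) := by
    rw [hk, mul_comm]
    exact Nat.lt_mul_div_succ l (by omega)
  have d3 : C₀ * X ^ 2 + 1 ≤ k := by
    have h1 : (l : ℝ) + 1 ≤ (k + 1) * (16 * (L + 2)) := by exact_mod_cast d2
    have h2 : (1 : ℝ) ≤ L := by exact_mod_cast b3
    have h3 : ((l : ℝ) + 1) * Real.log 2 ≤ (k + 1) * (48 * Real.log n) := by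
      have h4 : ((l : ℝ) + 1) * Real.log 2 ≤ (k + 1) * (16 * (L + 2)) * Real.log 2 :=
        mul_le_mul_of_nonneg_right h1 (by linarith)
      have h5 : 16 * ((L : ℝ) + 2) * Real.log 2 ≤ 48 * Real.log n := by nlinarith
      have h6 := mul_le_mul_of_nonneg_left h5 (by positivity : (0 : ℝ) ≤ k + 1)
      linarith
    have h4 : C * (Real.log n * X ^ 2) ≤ C * W := mul_le_mul_of_nonneg_left hW1 (by linarith)
    have h5 : Real.log n * (C * X ^ 2) ≤ Real.log n * (48 * (k + 1)) := by linarith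
    have h6 := le_of_mul_le_mul_left h5 (by linarith)
    rw [hCd] at h6
    nlinarith
  have d4 : 1 ≤ k := by
    have : (1 : ℝ) ≤ k := by nlinarith
    exact_mod_cast this
  obtain ⟨A, hA⟩ : ∃ A, A = (L + 2) * k := ⟨_, rfl⟩
  have e1 : 16 * A ≤ l := by rw [hA]; linarith
  have e2 : L + 2 ≤ A := by rw [hA]; exact Nat.le_mul_of_pos_right _ d4
  refine ⟨?_, ?_, ?_, by linarith, ?_⟩
  · exact b2.le.trans ((Nat.pow_le_pow_right (by norm_num) (by omega)).trans a1)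
  · refine (Nat.pow_le_pow_left b4 _).trans (le_trans ?_ a1)
    rw [← pow_mul]
    refine Nat.pow_le_pow_right (by norm_num) ?_
    have : (L + 2) * (2 * k + 1) = 2 * A + (L + 2) := by rw [hA]; ring
    omega
  · have h1 : (2 * n + 2) ^ (k + 2) ≤ 2 ^ (A + 2 * (L + 2)) := by
      refine (Nat.pow_le_pow_left b4 _).trans (le_of_eq ?_)
      rw [← pow_mul, hA]
      congr 1
      ring
    have h2 : EP m ^ 2 = 2 ^ (l / 8 * 2) := by rw [pow_mul]; rfl
    rw [h2]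
    calc 3 * (2 * n + 2) ^ (k + 2) * 2 ^ (l / 8 * 2)
        ≤ 2 ^ 2 * 2 ^ (A + 2 * (L + 2)) * 2 ^ (l / 8 * 2) :=
          Nat.mul_le_mul_right _ (Nat.mul_le_mul (by norm_num) h1)
      _ = 2 ^ (2 + (A + 2 * (L + 2)) + l / 8 * 2) := by rw [← pow_add, ← pow_add]
      _ ≤ 2 ^ l := Nat.pow_le_pow_right (by norm_num) (by omega)
      _ ≤ m := a1
  · have h2 : (EP m : ℝ) = Real.exp ((l / 8 : ℕ) * Real.log 2) := by
      rw [Real.exp_nat_mul, Real.exp_log (by norm_num)]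
      simp only [EP, ← hl]
      push_cast
      rfl
    have h3 : (l : ℝ) + 1 ≤ 8 * ((l / 8 : ℕ) + 1) := by
      have : l + 1 ≤ 8 * (l / 8 + 1) := by omega
      exact_mod_cast this
    have h4 : C₀ * W + 8 ≤ (l / 8 : ℕ) * Real.log 2 := by
      have h5 : ((l : ℝ) + 1) * Real.log 2 ≤ 8 * ((l / 8 : ℕ) + 1) * Real.log 2 :=
        mul_le_mul_of_nonneg_right h3 (by linarith)
      rw [hCd] at c1
      nlinarith
    rw [h2, div_le_iff₀ (Real.exp_pos _), ← Real.exp_add]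
    have h5 : C₀ * Bud n p ≤ C₀ * W := mul_le_mul_of_nonneg_left hW2 (by linarith)
    have h6 : Real.exp 8 ≤ Real.exp (-(C₀ * Bud n p) + (l / 8 : ℕ) * Real.log 2) :=
      Real.exp_le_exp.2 (by linarith)
    linarith [Real.add_one_le_exp 8]

theorem budget_le {C : ℝ} (hC : 1 ≤ C) {n : ℕ} (hn : 2 ≤ n) {p : ℝ} (hp : 0 < p) (hp1 : p < 1) :
    (traceBudget C n p : ℝ) ≤ Real.exp ((C + 1) * p⁻¹ * Real.log n *
      (1 + Real.log n / (1 + Real.log (1 / (1 - p)))) ^ 2 *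
      (1 + Real.log (1 + Real.log n / (1 + Real.log (1 / (1 - p))))) ^ 6) := by
  have hX := dpar_one_le_XX (n := n) hp hp1
  obtain ⟨hW1, -⟩ := dpar_W (n := n) hp hp1
  have hΛ : Real.log 2 ≤ Real.log n := Real.log_le_log (by norm_num) (by exact_mod_cast hn)
  have hl2 : (0.69 : ℝ) < Real.log 2 := by linarith [Real.log_two_gt_d9]
  have hX2 : 1 ≤ XX n p ^ 2 := one_le_pow₀ hX
  unfold XX at hW1 hX2
  unfold traceBudget
  set W := p⁻¹ * Real.log n * (1 + Real.log n / (1 + Real.log (1 / (1 - p)))) ^ 2 *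
    (1 + Real.log (1 + Real.log n / (1 + Real.log (1 / (1 - p))))) ^ 6 with hW
  have e : (C + 1) * p⁻¹ * Real.log n * (1 + Real.log n / (1 + Real.log (1 / (1 - p)))) ^ 2 *
      (1 + Real.log (1 + Real.log n / (1 + Real.log (1 / (1 - p))))) ^ 6 = C * W + W := by
    rw [hW]; ring
  rw [e, Real.exp_add]
  have h1 : Real.log 2 ≤ W := by nlinarith
  have h2 : 2 ≤ Real.exp W := by
    have := Real.exp_le_exp.2 h1
    rwa [Real.exp_log (by norm_num)] at this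
  have h3 : 1 ≤ Real.exp (C * W) := Real.one_le_exp (by nlinarith)
  have h4 := (Nat.ceil_lt_add_one (Real.exp_pos (C * W)).le).le
  nlinarith

end Crest.Agent.R300
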