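import Mathlib

/-!
# Row 300: Chebyshev and union bound for `m` independent samples.

Recipe.  For one `i` put `g = f i - ∑ w f i` (mean zero, `|g| ≤ 1`).  Second moment:
`∑_ω ∏ w(ω k) (∑_k g(ω k))^2 ≤ m` (induction on `m` with `Fin.consEquiv`/`Fin.insertNthEquiv`, carrying
also `∑_ω ∏ w = 1` and the vanishing first moment; or expand the square and use
`Finset.prod_univ_sum`/`Fintype.piFinset`).  Then `1[ε < |avg g|] ≤ (∑_k g)^2 / (m ε)^2`, and
`1[∃ i ∈ s, …] ≤ ∑_{i ∈ s} 1[…]`.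
-/

set_option autoImplicit false

namespace Crest.Agent.R300

open Finset

theorem sum_prod_w {Ω : Type} [Fintype Ω] (w : Ω → ℝ) (hw1 : ∑ a, w a = 1) (m : ℕ) :
    ∑ ω : Fin m → Ω, ∏ k, w (ω k) = 1 := by
  rw [← Fintype.prod_sum fun _ : Fin m => w]
  simp [hw1]

theorem sum_fin_succ {Ω : Type} [Fintype Ω] (m : ℕ) (F : (Fin (m + 1) → Ω) → ℝ) :
    ∑ ω, F ω = ∑ a, ∑ ω : Fin m → Ω, F (Fin.cons a ω) := by
  rw [← (Fin.consEquiv fun _ : Fin (m + 1) => Ω).sum_comp, Fintype.sum_prod_type]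
  rfl

theorem moments {Ω : Type} [Fintype Ω] (w : Ω → ℝ) (hw : ∀ a, 0 ≤ w a) (hw1 : ∑ a, w a = 1) (g : Ω → ℝ)
    (hg0 : ∑ a, w a * g a = 0) (hg : ∀ a, |g a| ≤ 1) (m : ℕ) :
    ∑ ω : Fin m → Ω, (∏ k, w (ω k)) * ∑ k, g (ω k) = 0 ∧
      ∑ ω : Fin m → Ω, (∏ k, w (ω k)) * (∑ k, g (ω k)) ^ 2 ≤ m := by
  have h2 : ∑ a, w a * g a ^ 2 ≤ 1 := by
    rw [← hw1]
    refine sum_le_sum fun a _ => mul_le_of_le_one_right (hw a) ?_
    rw [← sq_abs]
    exact pow_le_one₀ (abs_nonneg _) (hg a)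
  induction m with
  | zero => simp
  | succ m ih =>
    obtain ⟨i1, i2⟩ := ih
    have h1 := sum_prod_w w hw1 m
    constructor
    · rw [sum_fin_succ]
      simp only [Fin.prod_univ_succ, Fin.sum_univ_succ, Fin.cons_zero, Fin.cons_succ]
      have e : ∀ a, ∑ ω : Fin m → Ω, (w a * ∏ k, w (ω k)) * (g a + ∑ k, g (ω k)) = w a * g a := by
        intro a
        rw [sum_congr rfl fun (ω : Fin m → Ω) _ => show (w a * ∏ k, w (ω k)) * (g a + ∑ k, g (ω k)) =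
          w a * g a * ∏ k, w (ω k) + w a * ((∏ k, w (ω k)) * ∑ k, g (ω k)) by ring, sum_add_distrib,
          ← mul_sum, ← mul_sum, h1, i1]
        ring
      rw [sum_congr rfl fun a _ => e a, hg0]
    · rw [sum_fin_succ]
      simp only [Fin.prod_univ_succ, Fin.sum_univ_succ, Fin.cons_zero, Fin.cons_succ]
      have e : ∀ a, ∑ ω : Fin m → Ω, (w a * ∏ k, w (ω k)) * (g a + ∑ k, g (ω k)) ^ 2 =
          w a * g a ^ 2 + w a * ∑ ω : Fin m → Ω, (∏ k, w (ω k)) * (∑ k, g (ω k)) ^ 2 := by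
        intro a
        rw [sum_congr rfl fun (ω : Fin m → Ω) _ => show (w a * ∏ k, w (ω k)) * (g a + ∑ k, g (ω k)) ^ 2 =
          w a * g a ^ 2 * ∏ k, w (ω k) + 2 * w a * g a * ((∏ k, w (ω k)) * ∑ k, g (ω k)) +
            w a * ((∏ k, w (ω k)) * (∑ k, g (ω k)) ^ 2) by ring, sum_add_distrib, sum_add_distrib,
          ← mul_sum, ← mul_sum, ← mul_sum, h1, i1]
        ring
      rw [sum_congr rfl fun a _ => e a, sum_add_distrib, ← sum_mul, hw1]
      push_cast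
      linarith

open Classical in
theorem cheb_union {Ω ι : Type} [Fintype Ω] (w : Ω → ℝ) (hw : ∀ a, 0 ≤ w a) (hw1 : ∑ a, w a = 1)
    (s : Finset ι) (f : ι → Ω → ℝ) (hf : ∀ i ∈ s, ∀ a, 0 ≤ f i a ∧ f i a ≤ 1) {m : ℕ} (hm : 1 ≤ m)
    {ε : ℝ} (hε : 0 < ε) :
    ∑ ω : Fin m → Ω, (∏ k, w (ω k)) *
        (if ∃ i ∈ s, ε < |(∑ k, f i (ω k)) / m - ∑ a, w a * f i a| then 1 else 0) ≤
      s.card / (m * ε ^ 2) := by
  have hm0 : (0 : ℝ) < m := by exact_mod_cast hm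
  set μ : ι → ℝ := fun i => ∑ a, w a * f i a with hμ
  have hW : ∀ ω : Fin m → Ω, 0 ≤ ∏ k, w (ω k) := fun ω => prod_nonneg fun k _ => hw _
  have key : ∀ i ∈ s, ∑ ω : Fin m → Ω, (∏ k, w (ω k)) * ((∑ k, (f i (ω k) - μ i)) ^ 2 / (m * ε) ^ 2) ≤
      1 / (m * ε ^ 2) := by
    intro i hi
    have h0 : 0 ≤ μ i := sum_nonneg fun a _ => mul_nonneg (hw a) (hf i hi a).1
    have h1 : μ i ≤ 1 := by
      rw [← hw1]
      exact sum_le_sum fun a _ => mul_le_of_le_one_right (hw a) (hf i hi a).2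
    have h := (moments w hw hw1 (fun a => f i a - μ i) (by
      simp only [mul_sub, sum_sub_distrib, ← sum_mul, hw1, hμ]; ring) (fun a => abs_le.2
        ⟨by linarith [(hf i hi a).1], by linarith [(hf i hi a).2]⟩) m).2
    simp only [← mul_div_assoc]
    rw [← sum_div, div_le_div_iff₀ (by positivity) (by positivity)]
    calc _ ≤ (m : ℝ) * (m * ε ^ 2) := by gcongr
      _ = _ := by ring
  calc _ ≤ ∑ ω : Fin m → Ω, (∏ k, w (ω k)) * ∑ i ∈ s, (∑ k, (f i (ω k) - μ i)) ^ 2 / (m * ε) ^ 2 := by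
        refine sum_le_sum fun ω _ => mul_le_mul_of_nonneg_left ?_ (hW ω)
        split_ifs with h
        · obtain ⟨i, hi, h⟩ := h
          refine le_trans ?_ (single_le_sum (f := fun i => (∑ k, (f i (ω k) - μ i)) ^ 2 / (m * ε) ^ 2)
            (fun i _ => by positivity) hi)
          have e : ∑ k, (f i (ω k) - μ i) = m * ((∑ k, f i (ω k)) / m - μ i) := by
            rw [sum_sub_distrib, sum_const, card_univ, Fintype.card_fin, nsmul_eq_mul]
            field_simp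
          rw [e, le_div_iff₀ (by positivity), one_mul, mul_pow, mul_pow, ← sq_abs (_ - _)]
          gcongr
        · positivity
    _ = ∑ i ∈ s, ∑ ω : Fin m → Ω, (∏ k, w (ω k)) * ((∑ k, (f i (ω k) - μ i)) ^ 2 / (m * ε) ^ 2) := by
        rw [sum_comm]
        exact sum_congr rfl fun ω _ => mul_sum _ _ _
    _ ≤ _ := by
        refine (sum_le_card_nsmul _ _ _ key).trans ?_
        rw [nsmul_eq_mul, mul_one_div]

end Crest.Agent.R300
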