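import Crest.Agent.R300.Sigs
import Crest.Agent.R300.Sample
import Crest.Agent.R300.Tr

/-!
# Row 300: empirical frequencies.

`pt_hit`: `hit σ r l` is a `foldl` over `σ` with state `Option (List Bool)` (the unread part of `l`,
`none` after a mismatch; the state is a sublist of `l`, `PT.foldl_inv`), followed by a length test.
`good_prob`: apply `cheb_union` with `Ω = Fin n → Bool` (retention patterns), `w = bernoulliWeight p`,
index set `𝒳 ×ˢ s` (`exists_sigset`), `f (x, σ, r) keep = if hit σ r (traceOf x keep).reverse then 1 else 0`,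
`ε = 1/E`; the mean is `PS p x σ r` by `trE_eq_sum`; `emp (List.ofFn τ) σ r = (∑ k, if … then 1 else 0) / m`
(`List.countP` of `List.ofFn`, induction on `m` or `List.countP_eq_length_filter`/`List.sum_ofFn`);
finally `1[good] = 1 - 1[bad]` and `sum_prod_w`, `bw_sum`.
-/

set_option autoImplicit false

namespace Crest.Agent.R300

open Crest.Agent.Lib.PolyTime Crest.FinProb Crest.TraceRecon

def Emp_step (c : Option (List Bool)) (a : ℕ × Bool) : Option (List Bool) :=
  c.bind fun l => if (l.drop a.1).head? = some a.2 then some (l.drop a.1).tail else none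

theorem Emp_foldl_none (σ : List (ℕ × Bool)) : σ.foldl Emp_step none = none := by
  induction σ with
  | nil => rfl
  | cons a σ ih => exact ih

theorem Emp_hit_eq (σ : List (ℕ × Bool)) (r : ℕ) (l : List Bool) :
    hit σ r l = (σ.foldl Emp_step (some l)).elim false fun l' => decide (l'.length = r) := by
  induction σ generalizing l with
  | nil => rfl
  | cons a σ ih =>
    rw [List.foldl_cons, hit]
    have hs : Emp_step (some l) a =
        if (l.drop a.1).head? = some a.2 then some (l.drop a.1).tail else none := rfl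
    rw [hs]
    cases h : l.drop a.1 with
    | nil => simp [Emp_foldl_none]
    | cons c l' =>
      by_cases hc : c = a.2
      · simp [hc, ih]
      · simp [hc, Emp_foldl_none]

theorem pt_hit : PT fun a : List (ℕ × Bool) × ℕ × List Bool => hit a.1 a.2.1 a.2.2 := by
  have h : PT fun a : List (ℕ × Bool) × ℕ × List Bool =>
      a.1.foldl Emp_step (some a.2.2) := by
    refine PT.foldl_inv (f := fun _ => Emp_step) (fun a => esize a.2.2 + 2)
      (fun a c => ∀ l ∈ c, l.Sublist a.2.2) (by fun_prop) (by fun_prop) ?_ (by fun_prop) ?_ ?_ ?_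
    · unfold Emp_step
      fun_prop
    · intro a l hl
      obtain rfl : a.2.2 = l := by simpa using hl
      exact List.Sublist.refl _
    · intro a c x _ hc l hl
      cases c with
      | none => simp [Emp_step] at hl
      | some l0 =>
        have h0 := hc l0 rfl
        have hs : Emp_step (some l0) x =
          if (l0.drop x.1).head? = some x.2 then some (l0.drop x.1).tail else none := rfl
        rw [hs] at hl
        split_ifs at hl
        · obtain rfl : (l0.drop x.1).tail = l := by simpa using hl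
          exact ((List.tail_sublist _).trans (List.drop_sublist _ _)).trans h0
        · simp at hl
    · intro a c hc
      cases c with
      | none => simp
      | some l0 =>
        have := esize_sublist (hc l0 rfl)
        simp only [esize_some]
        omega
  refine PT.of_eq ?_ fun a => (Emp_hit_eq a.1 a.2.1 a.2.2).symm
  exact PT.option_elim (f := fun _ => false)
    (g := fun (a : List (ℕ × Bool) × ℕ × List Bool) (l' : List Bool) => decide (l'.length = a.2.1))
    h (by fun_prop) (by fun_prop)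

theorem pt_emp : PT fun a : List (List Bool) × List (ℕ × Bool) × ℕ => emp a.1 a.2.1 a.2.2 := by
  unfold emp
  have h : PT fun q : (List (List Bool) × List (ℕ × Bool) × ℕ) × List Bool =>
      hit q.1.2.1 q.1.2.2 q.2.reverse :=
    pt_hit.comp (g := fun q : (List (List Bool) × List (ℕ × Bool) × ℕ) × List Bool =>
      (q.1.2.1, q.1.2.2, q.2.reverse)) (by fun_prop)
  have h2 : PT fun a : List (List Bool) × List (ℕ × Bool) × ℕ =>
      (a.1.filter fun τ => hit a.2.1 a.2.2 τ.reverse).length :=
    (PT.filter (l := fun a : List (List Bool) × List (ℕ × Bool) × ℕ => a.1)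
      (f := fun a τ => hit a.2.1 a.2.2 τ.reverse) (by fun_prop) h).length
  have h3 : PT fun a : List (List Bool) × List (ℕ × Bool) × ℕ =>
      a.1.countP fun τ => hit a.2.1 a.2.2 τ.reverse :=
    h2.of_eq fun a => List.countP_eq_length_filter.symm
  exact h3.rat_natCast.rat_div (by fun_prop)

theorem Emp_countP_ofFn {α : Type} {m : ℕ} (τ : Fin m → α) (q : α → Bool) :
    (((List.ofFn τ).countP q : ℕ) : ℝ) = ∑ j, if q (τ j) then (1 : ℝ) else 0 := by
  induction m with
  | zero => simp
  | succ m ih =>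
    rw [List.ofFn_succ, List.countP_cons, Fin.sum_univ_succ, Nat.cast_add, ih, add_comm]
    split_ifs <;> simp

theorem Emp_emp_ofFn {m : ℕ} (τ : Fin m → List Bool) (σ : List (ℕ × Bool)) (r : ℕ) :
    (emp (List.ofFn τ) σ r : ℝ) = (∑ j, if hit σ r (τ j).reverse then (1 : ℝ) else 0) / m := by
  unfold emp
  rw [← Emp_countP_ofFn τ fun t => hit σ r t.reverse, List.length_ofFn]
  push_cast
  rfl

open Classical in
theorem good_prob {n : ℕ} {p : ℝ} (hp : 0 ≤ p) (hp1 : p ≤ 1) (k : ℕ) {E m : ℕ} (hE : 1 ≤ E)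
    (hm : 1 ≤ m) (𝒳 : Finset (Fin n → Bool)) :
    1 - (𝒳.card : ℝ) * ((2 * n + 2) ^ (k + 1) : ℕ) * (E : ℝ) ^ 2 / m ≤
      ∑ keeps : Fin m → Fin n → Bool, (∏ j, bernoulliWeight p (keeps j)) *
        (if ∀ x ∈ 𝒳, EmpOK p k E (List.ofFn fun j => traceOf x (keeps j)) x then 1 else 0) := by
  obtain ⟨s, hs, hs'⟩ := exists_sigset n k
  have hE0 : (0 : ℝ) < E := by exact_mod_cast hE
  have hm0 : (0 : ℝ) < m := by exact_mod_cast hm
  have h := cheb_union (bernoulliWeight p : (Fin n → Bool) → ℝ) (bw_nonneg hp hp1) (bw_sum p)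
    (𝒳 ×ˢ s) (fun i keep => if hit i.2.1 i.2.2 (traceOf i.1 keep).reverse then 1 else 0)
    (fun i _ a => by split_ifs <;> norm_num) hm (ε := 1 / (E : ℝ)) (by positivity)
  have hb : (((𝒳 ×ˢ s).card : ℕ) : ℝ) / (m * (1 / (E : ℝ)) ^ 2) ≤
      (𝒳.card : ℝ) * ((2 * n + 2) ^ (k + 1) : ℕ) * (E : ℝ) ^ 2 / m := by
    have h1 : (((𝒳 ×ˢ s).card : ℕ) : ℝ) ≤ (𝒳.card : ℝ) * ((2 * n + 2) ^ (k + 1) : ℕ) := by
      rw [Finset.card_product]
      exact_mod_cast Nat.mul_le_mul_left _ hs
    have h2 : (((𝒳 ×ˢ s).card : ℕ) : ℝ) / (m * (1 / (E : ℝ)) ^ 2) =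
        (((𝒳 ×ˢ s).card : ℕ) : ℝ) * (E : ℝ) ^ 2 / m := by
      field_simp
    rw [h2]
    gcongr
  have h1 := sum_prod_w (bernoulliWeight p : (Fin n → Bool) → ℝ) (bw_sum p) m
  refine le_trans (sub_le_sub_left (h.trans hb) 1) ?_
  rw [sub_le_iff_le_add, ← Finset.sum_add_distrib]
  refine le_trans h1.ge (Finset.sum_le_sum fun keeps _ => ?_)
  have hw : 0 ≤ ∏ j, bernoulliWeight p (keeps j) :=
    Finset.prod_nonneg fun j _ => bw_nonneg hp hp1 _
  split_ifs with hg hb1 hb1
  · linarith
  · linarith
  · linarith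
  · exfalso
    apply hg
    intro x hx σ r hv
    by_contra hc
    apply hb1
    refine ⟨(x, σ, r), Finset.mem_product.2 ⟨hx, (hs' σ r).2 hv⟩, ?_⟩
    rw [Emp_emp_ofFn, PS, ← trE_eq_sum] at hc
    exact not_le.1 hc

end Crest.Agent.R300
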