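import Crest.Agent.R300.DDefs

/-!
# Row 300: the list of masks.

Recipe.  Build the masks from the right end: `L 0 = [[]]`, and with `i = n - 1 - j` the position added in
round `j`: `L (j+1) = (L j).map (false :: ·) ++ (if t0 ≤ i then ((L j).filter (count true < D)).map (true :: ·) else [])`.
`L j` lists without repetition the lists `U` of length `j` with at most `D` ones and `U.getD l false = false`
whenever `n - j + l < t0`.  Its length is at most `(j+1)^D` (induct on `j` for all `D` with the version without
the constraint `t0`: `a(j+1, D) ≤ a(j, D) + a(j, D-1)` and `(j+1)^D + (j+1)^(D-1) ≤ (j+2)^D`; or map to subsets).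
For `PT` apply `take pad.length` after every round (inactive under the hypothesis), `PT.of_nat_rec` or
`PT.foldl_inv` over `List.range n`; invariant: at most `pad.length + 1` elements of length `≤ n`.
-/

set_option autoImplicit false

namespace Crest.Agent.R300

open Crest.Agent.Lib.PolyTime

/-- one round -/
def mkStep (D : ℕ) (L : List (List Bool)) : List (List Bool) :=
  L.map (fun U => false :: U) ++ (L.filter fun U => decide (U.count true < D)).map fun U => true :: U

/-- all lists of length `j` with at most `D` ones -/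
def mkAll (D : ℕ) : ℕ → List (List Bool)
  | 0 => [[]]
  | j + 1 => mkStep D (mkAll D j)

/-- the same with truncation -/
def mkCut (D p : ℕ) : ℕ → List (List Bool)
  | 0 => [[]]
  | j + 1 => (mkStep D (mkCut D p j)).take p

theorem mem_mkAll (D : ℕ) : ∀ (j : ℕ) (U : List Bool), U ∈ mkAll D j ↔ U.length = j ∧ U.count true ≤ D
  | 0, U => by
    simp only [mkAll, List.mem_singleton, List.length_eq_zero_iff]
    exact ⟨fun h => by simp [h], fun h => h.1⟩
  | j + 1, U => by
    simp only [mkAll, mkStep, List.mem_append, List.mem_map, List.mem_filter, mem_mkAll D j, decide_eq_true_eq]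
    constructor
    · rintro (⟨V, ⟨h1, h2⟩, rfl⟩ | ⟨V, ⟨⟨h1, h2⟩, h3⟩, rfl⟩)
      · simpa [h1] using h2
      · simpa [h1] using h3
    · rintro ⟨h1, h2⟩
      rcases U with _ | ⟨_ | _, V⟩
      · simp at h1
      · exact Or.inl ⟨V, ⟨by simpa using h1, by simpa using h2⟩, rfl⟩
      · have h3 : V.count true < D := by simpa using h2
        exact Or.inr ⟨V, ⟨⟨by simpa using h1, h3.le⟩, h3⟩, rfl⟩

theorem nodup_mkAll (D : ℕ) : ∀ j : ℕ, (mkAll D j).Nodup
  | 0 => List.nodup_singleton _
  | j + 1 => by
    refine List.Nodup.append ((nodup_mkAll D j).map fun _ _ h => by simpa using h)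
      (((nodup_mkAll D j).filter _).map fun _ _ h => by simpa using h) fun U h1 h2 => ?_
    obtain ⟨V, -, rfl⟩ := List.mem_map.1 h1
    obtain ⟨W, -, h3⟩ := List.mem_map.1 h2
    simp at h3

theorem length_mkAll : ∀ j D : ℕ, (mkAll D j).length ≤ (j + 1) ^ D
  | 0, D => by simp [mkAll]
  | j + 1, 0 => by simpa [mkAll, mkStep] using length_mkAll j 0
  | j + 1, D + 1 => by
    have h1 : ((mkAll (D + 1) j).filter fun U => decide (U.count true < D + 1)).Perm (mkAll D j) := by
      refine (List.perm_ext_iff_of_nodup ((nodup_mkAll _ _).filter _) (nodup_mkAll _ _)).2 fun U => ?_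
      simp only [List.mem_filter, mem_mkAll, decide_eq_true_eq]
      omega
    have h2 := length_mkAll j (D + 1)
    have h3 := length_mkAll j D
    have h4 : (j + 1) ^ D ≤ (j + 1 + 1) ^ D := Nat.pow_le_pow_left (by omega) D
    simp only [mkAll, mkStep, List.length_append, List.length_map, h1.length_eq]
    rw [pow_succ] at h2 ⊢
    nlinarith

theorem mkCut_eq {D p n : ℕ} (h : (n + 1) ^ D ≤ p) : ∀ j ≤ n, mkCut D p j = mkAll D j
  | 0, _ => rfl
  | j + 1, hj => by
    rw [mkCut, mkCut_eq h j (by omega)]
    exact List.take_of_length_le ((length_mkAll (j + 1) D).trans ((Nat.pow_le_pow_left (by omega) D).trans h))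

theorem mkCut_length (D p : ℕ) : ∀ j, (mkCut D p j).length ≤ p + 1
  | 0 => by simp [mkCut]
  | j + 1 => (List.length_take_le _ _).trans (Nat.le_succ p)

theorem mkCut_mem (D p : ℕ) : ∀ j, ∀ U ∈ mkCut D p j, U.length = j
  | 0, U, h => by simpa [mkCut] using h
  | j + 1, U, h => by
    have h1 := List.mem_of_mem_take h
    simp only [mkStep, List.mem_append, List.mem_map, List.mem_filter] at h1
    rcases h1 with ⟨V, h1, rfl⟩ | ⟨V, ⟨h1, -⟩, rfl⟩ <;> simp [mkCut_mem D p j V h1]

theorem pt_mkCut : PT fun a : List Unit × ℕ × ℕ × List Unit => mkCut a.2.2.1 a.2.2.2.length a.1.length := by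
  refine PT.of_nat_rec (F := fun a : List Unit × ℕ × ℕ × List Unit => mkCut a.2.2.1 a.2.2.2.length)
    (g := fun a _ L => (mkStep a.2.2.1 L).take a.2.2.2.length)
    (fun a => (a.2.2.2.length + 1) * (4 * a.1.length + 1 + 1) + 1) (by fun_prop) (by fun_prop)
    (PT.const _) (by unfold mkStep; fun_prop) (fun _ _ => rfl) (by fun_prop) fun a i hi => ?_
  refine (esize_list_le (B := 4 * a.1.length + 1) fun U hU => ?_).trans ?_
  · have h1 := esize_boolList_le U
    have h2 := mkCut_mem _ _ _ U hU
    omega
  · have := mkCut_length a.2.2.1 a.2.2.2.length i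
    gcongr

theorem exists_masks : ∃ Mk : List Unit × ℕ × ℕ × List Unit → List (List Bool), PT Mk ∧
    ∀ (nu : List Unit) (t0 D : ℕ) (pad : List Unit), (nu.length + 1) ^ D ≤ pad.length →
      Masks nu.length t0 D (Mk (nu, t0, D, pad)) := by
  refine ⟨fun a => (mkCut a.2.2.1 a.2.2.2.length a.1.length).filter fun U => !(U.take a.2.1).contains true,
    pt_mkCut.filter (by fun_prop), fun nu t0 D pad h => ?_⟩
  simp only [mkCut_eq h _ le_rfl]
  refine ⟨(nodup_mkAll _ _).filter _, fun U => ?_⟩
  have key : true ∉ U.take t0 ↔ ∀ i < t0, U.getD i false = false := by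
    rw [List.mem_take_iff_getElem]
    constructor
    · intro h1 i hi
      by_contra h2
      by_cases h3 : i < U.length
      · rw [List.getD_eq_getElem _ _ h3] at h2
        exact h1 ⟨i, lt_min hi h3, by simpa using h2⟩
      · exact h2 (List.getD_eq_default _ _ (not_lt.1 h3))
    · rintro h1 ⟨i, hi, h2⟩
      have h3 := h1 i (lt_min_iff.1 hi).1
      rw [List.getD_eq_getElem _ _ (lt_min_iff.1 hi).2, h2] at h3
      exact absurd h3 (by simp)
  simp only [List.mem_filter, mem_mkAll, IsMask, ← key, Bool.not_eq_eq_eq_not, Bool.not_true,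
    List.contains_eq_mem, decide_eq_false_iff_not]
  tauto

end Crest.Agent.R300
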