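import Crest.Agent.R300.Sdp
import Crest.Agent.R300.Char2
import Crest.Agent.R300.Coef
import Crest.Agent.R300.Masks
import Crest.Agent.R300.Emp

/-!
# Row 300: the test of a prefix, and the decoder.

`exists_test`: with `Mk`, `Sg`, `Fc`, `Sol` from `exists_masks`, `exists_sigs`, `exists_statcoef`, `exists_sdp` put
`LS = Mk (n, pre.length, k, pad)`, `LU = Mk (n, pre.length, 2k, pad)`, `sg = Sg (n, k, pad)`,
`F U σ r = Fc (p, pre, U, σ, r)` and return
`Sol ((LU.map fun _ => (), E), idxT LS LU, consT F LU sg τs)`; `PT` by unfolding `idxT`, `consT` (`PT.map`,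
`PT.idxOf`, `PT.zipWith`, `PT.count`, `pt_emp`); correctness by `sdp_wf`, `sdp_exact`, `sdp_sound`
(`(n+1)^k, (n+1)^(2k), (2n+2)^(k+1) ≤ (2n+2)^(2k+1)`).
`exists_decode`: iterate `pre ↦ pre ++ [!Ts (a, pre ++ [false])]` `n` times from `[]` (`PT.iterate_grow`).
Induction: after `t ≤ n` steps the state is `(List.ofFn x).take t`.  If `x t = false` the test accepts
(`Agree (pre ++ [false]) x`); if `x t = true` and the test accepted, the `Fake` measure is a `PD k t x μ`.
-/

set_option autoImplicit false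

namespace Crest.Agent.R300

open Crest.Agent.Lib.PolyTime

theorem test_pt_idxT {α : Type} [Enc α] {LS LU : α → List (List Bool)} (hS : PT LS) (hU : PT LU) :
    PT fun a => idxT (LS a) (LU a) := by
  unfold idxT
  fun_prop

theorem test_pt_consT {α : Type} [Enc α] {F : α → List Bool → List (ℕ × Bool) → ℕ → ℚ}
    {LU : α → List (List Bool)} {sg : α → List (List (ℕ × Bool) × ℕ)} {τs : α → List (List Bool)}
    (hF : PT fun p : (α × List (ℕ × Bool) × ℕ) × List Bool => F p.1.1 p.2 p.1.2.1 p.1.2.2)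
    (hU : PT LU) (hsg : PT sg) (hτ : PT τs) : PT fun a => consT (F a) (LU a) (sg a) (τs a) := by
  have h1 : PT fun a => (LU a).map fun U => if U.count true = 0 then (1 : ℚ) else 0 := by fun_prop
  have h2 : PT fun p : α × List (ℕ × Bool) × ℕ => (LU p.1).map fun U => F p.1 U p.2.1 p.2.2 :=
    PT.map (hU.comp PT.fst') hF
  have h3 : PT fun p : α × List (ℕ × Bool) × ℕ => emp (τs p.1) p.2.1 p.2.2 :=
    pt_emp.comp (g := fun p : α × List (ℕ × Bool) × ℕ => (τs p.1, p.2))
      ((hτ.comp PT.fst').prodMk PT.snd')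
  exact (h1.prodMk (PT.const 1)).cons (PT.map hsg (h2.prodMk h3))

/-- the test, in terms of the subroutines -/
def testF (Mk : List Unit × ℕ × ℕ × List Unit → List (List Bool))
    (Sg : List Unit × ℕ × List Unit → List (List (ℕ × Bool) × ℕ))
    (Fc : ℚ × List Bool × List Bool × List (ℕ × Bool) × ℕ → ℚ) (Sol : SdpIn → Bool)
    (q : DIn × List Bool) : Bool :=
  Sol (((Mk (q.1.2.1, q.2.length, 2 * q.1.2.2.1, q.1.2.2.2.2.1)).map fun _ => (), q.1.2.2.2.1),
    idxT (Mk (q.1.2.1, q.2.length, q.1.2.2.1, q.1.2.2.2.2.1))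
      (Mk (q.1.2.1, q.2.length, 2 * q.1.2.2.1, q.1.2.2.2.2.1)),
    consT (fun U σ r => Fc (q.1.1, q.2, U, σ, r))
      (Mk (q.1.2.1, q.2.length, 2 * q.1.2.2.1, q.1.2.2.2.2.1))
      (Sg (q.1.2.1, q.1.2.2.1, q.1.2.2.2.2.1)) q.1.2.2.2.2.2)

theorem testF_pt {Mk : List Unit × ℕ × ℕ × List Unit → List (List Bool)}
    {Sg : List Unit × ℕ × List Unit → List (List (ℕ × Bool) × ℕ)}
    {Fc : ℚ × List Bool × List Bool × List (ℕ × Bool) × ℕ → ℚ} {Sol : SdpIn → Bool}
    (hMk : PT Mk) (hSg : PT Sg) (hFc : PT Fc) (hSol : PT Sol) : PT (testF Mk Sg Fc Sol) := by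
  have hS : PT fun q : DIn × List Bool => Mk (q.1.2.1, q.2.length, q.1.2.2.1, q.1.2.2.2.2.1) :=
    hMk.comp (by fun_prop)
  have hU : PT fun q : DIn × List Bool => Mk (q.1.2.1, q.2.length, 2 * q.1.2.2.1, q.1.2.2.2.2.1) :=
    hMk.comp (by fun_prop)
  have hsg : PT fun q : DIn × List Bool => Sg (q.1.2.1, q.1.2.2.1, q.1.2.2.2.2.1) :=
    hSg.comp (by fun_prop)
  have hF : PT fun p : ((DIn × List Bool) × List (ℕ × Bool) × ℕ) × List Bool =>
      Fc (p.1.1.1.1, p.1.1.2, p.2, p.1.2.1, p.1.2.2) := hFc.comp (by fun_prop)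
  have hτ : PT fun q : DIn × List Bool => q.1.2.2.2.2.2 := by fun_prop
  have hE : PT fun q : DIn × List Bool => q.1.2.2.2.1 := by fun_prop
  have hN : PT fun q : DIn × List Bool =>
      (Mk (q.1.2.1, q.2.length, 2 * q.1.2.2.1, q.1.2.2.2.2.1)).map fun _ => () :=
    PT.map (f := fun _ _ => ()) hU (PT.const ())
  have hI := test_pt_idxT hS hU
  have hC := test_pt_consT (F := fun (q : DIn × List Bool) U σ r => Fc (q.1.1, q.2, U, σ, r))
    hF hU hsg hτ
  exact hSol.comp ((hN.prodMk hE).prodMk (hI.prodMk hC))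

theorem exists_test : ∃ Ts : DIn × List Bool → Bool, PT Ts ∧
    ∀ (n : ℕ) (a : DIn) (x : Fin n → Bool) (pre : List Bool), DOK a x →
      (Agree pre x → Ts (a, pre) = true) ∧
      (Ts (a, pre) = true →
        ∃ μ, Fake (a.1 : ℝ) a.2.2.1 (9 / (a.2.2.2.1.length : ℝ)) pre x μ) := by
  obtain ⟨Mk, hMk, hMk'⟩ := exists_masks
  obtain ⟨Sg, hSg, hSg'⟩ := exists_sigs
  obtain ⟨Fc, hFc, hFc'⟩ := exists_statcoef
  obtain ⟨Sol, hSol, hSol'⟩ := exists_sdp
  refine ⟨testF Mk Sg Fc Sol, testF_pt hMk hSg hFc hSol, ?_⟩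
  rintro n ⟨p, nu, k, E, pad, τs⟩ x pre ⟨hp0, hp1, rfl, hE, hpad, he⟩
  dsimp only [testF] at *
  have h0 : ∀ D ≤ 2 * k + 1, (2 * nu.length + 2) ^ D ≤ pad.length := fun D hD =>
    (Nat.pow_le_pow_right (by omega) hD).trans hpad
  have h1 := hMk' nu pre.length k pad ((Nat.pow_le_pow_left (by omega) k).trans (h0 k (by omega)))
  have h2 := hMk' nu pre.length (2 * k) pad
    ((Nat.pow_le_pow_left (by omega) (2 * k)).trans (h0 (2 * k) (by omega)))
  have h3 := hSg' nu k pad (h0 (k + 1) (by omega))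
  generalize Mk (nu, pre.length, k, pad) = LS at *
  generalize Mk (nu, pre.length, 2 * k, pad) = LU at *
  generalize Sg (nu, k, pad) = sg at *
  have h4 : ∀ U ∈ LU, ∀ s ∈ sg,
      (Fc (p, pre, U, s.1, s.2) : ℝ) = coefS nu.length p pre U s.1 s.2 := fun U hU s hs => by
    have a1 := ((h2.2 U).1 hU).1
    have a2 := (h3 s.1 s.2).1 hs
    rw [← a1] at a2 ⊢
    exact hFc' p pre U s.1 s.2 a2.2.1 a2.2.2
  have hp0' : (0 : ℝ) ≤ p := by exact_mod_cast hp0
  have hp1' : (p : ℝ) ≤ 1 := by exact_mod_cast hp1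
  have h5 := hSol' (LU.map fun _ => ()) E (idxT LS LU)
    (consT (fun U σ r => Fc (p, pre, U, σ, r)) LU sg τs) hE
    (by rw [List.length_map]; exact sdp_wf hp0' hp1' h1 h2 h4)
  rw [List.length_map] at h5
  refine ⟨fun hx => h5.1 (sdp_exact h1 h2 h4 (fun s hs => (h3 s.1 s.2).1 hs) he hx), fun h => ?_⟩
  obtain ⟨ψ, hψ⟩ := h5.2 h
  exact sdp_sound hp0' hp1' hE h1 h2 h4 (fun σ r hs => (h3 σ r).2 hs) he hψ

theorem exists_decode : ∃ Dc : DIn → List Bool, PT Dc ∧
    ∀ (n : ℕ) (a : DIn) (x : Fin n → Bool), DOK a x →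
      (∀ t μ, PD a.2.2.1 t x μ →
        StatClose μ x (a.1 : ℝ) a.2.2.1 (9 / (a.2.2.2.1.length : ℝ)) → False) →
      Dc a = List.ofFn x := by
  obtain ⟨Ts, hTs, h⟩ := exists_test
  have h1 : PT fun q : DIn × List Bool => q.2 ++ [!Ts (q.1, q.2 ++ [false])] := by
    have h2 : PT fun q : DIn × List Bool => Ts (q.1, q.2 ++ [false]) := hTs.comp (by fun_prop)
    fun_prop
  refine ⟨fun a => (fun pre => pre ++ [!Ts (a, pre ++ [false])])^[a.2.1.length] [],
    PT.iterate_grow (f := fun a pre => pre ++ [!Ts (a, pre ++ [false])]) (fun _ => 4) (by fun_prop)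
      (PB.length (by fun_prop)) (PT.const []) h1 (PB.const 4) fun a c => ?_, fun n a x ha hno => ?_⟩
  · have := esize_bool_le (!Ts (a, c ++ [false]))
    simp only [esize_list, List.map_append, List.sum_append, List.map_cons, List.map_nil,
      List.sum_cons, List.sum_nil]
    omega
  · have key : ∀ t ≤ n, (fun pre => pre ++ [!Ts (a, pre ++ [false])])^[t] [] =
        (List.ofFn x).take t := by
      intro t ht
      induction t with
      | zero => simp
      | succ t ih =>
        have hl : ((List.ofFn x).take t).length = t := by simp; omega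
        have hg : ∀ j : Fin n, j.val < t → ((List.ofFn x).take t ++ [false]).getD j false = x j := by
          intro j hj
          rw [List.getD_append _ _ _ _ (by omega), List.getD_eq_getElem _ _ (by omega)]
          simp
        have hg' : ((List.ofFn x).take t ++ [false]).getD t false = false := by
          rw [List.getD_append_right _ _ _ _ hl.le, hl]
          simp
        obtain ⟨h2, h3⟩ := h n a x ((List.ofFn x).take t ++ [false]) ha
        rw [Function.iterate_succ_apply', ih (by omega),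
          List.take_succ_eq_append_getElem (by simpa using ht), List.getElem_ofFn]
        congr 2
        cases hx : x ⟨t, ht⟩
        · rw [h2 fun i hi => ?_, Bool.not_true]
          rw [List.length_append, hl, List.length_singleton] at hi
          rcases Nat.lt_succ_iff_lt_or_eq.1 hi with hi | hi
          · exact (hg i hi).symm
          · rw [hi, hg', ← hx]
            exact congrArg x (Fin.ext hi)
        · rw [Bool.not_eq_true', ← Bool.not_eq_true]
          intro hT
          obtain ⟨μ, hμ⟩ := h3 hT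
          refine hno t μ ⟨ht, hμ.sum_one, fun y hy j hj => ?_, fun y hy => ?_, hμ.psd⟩ hμ.close
          · rw [hμ.supp y hy j (by rw [List.length_append, hl]; omega), hg j hj]
          · rw [hμ.supp y hy ⟨t, ht⟩ (by rw [List.length_append, hl]; simp), hg', hx]
            simp
    beta_reduce
    rw [ha.hn, key n le_rfl, List.take_of_length_le (by simp)]

end Crest.Agent.R300
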