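import Crest.Agent.R300.Sym
import Crest.Agent.R300.Test

/-! # Row 300: the decoder on coded inputs. -/

set_option autoImplicit false

namespace Crest.Agent.R300

open Crest.FinProb Crest.TraceRecon Crest.Agent.Lib.PolyTime Crest.Enc

theorem exists_parse : ∃ dec : List Bool → ℕ × ℚ × List (List Bool), PT dec ∧
    ∀ (n : ℕ) (p : ℚ) (l : List (List Bool)),
      dec (natCode n ++ ratCode p ++ traceListCode l) = (n, p, l) := by
  have h0 : Parses (fun (_ : (Unit × ℕ) × ℚ) (q : ℕ × List Bool) => natCode q.1 ++ q.2)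
      (fun _ q => True ∧ q.2.length = q.1) :=
    Parses.seq Parses.nat (Parses.bits (k := fun i : ((Unit × ℕ) × ℚ) × ℕ => i.2) (by fun_prop))
  have h1 := Parses.seq (Parses.nat (ι := Unit)) (Parses.seq Parses.rat (Parses.list h0))
  obtain ⟨dec, hdec, hspec⟩ := h1.exists_decoder
  refine ⟨fun s => ((dec s).1, (dec s).2.1, (dec s).2.2.map fun q => q.2), by fun_prop,
    fun n p l => ?_⟩
  have := hspec (n, p, l.map fun w => (w.length, w)) ⟨trivial, trivial, by
    intro a ha
    obtain ⟨w, -, rfl⟩ := List.mem_map.1 ha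
    exact ⟨⟨trivial, rfl⟩, by simp [natCode_ne_nil]⟩⟩
  have e : natCode n ++ ratCode p ++ traceListCode l =
      natCode n ++ (ratCode p ++ (natCode (l.map fun w => (w.length, w)).length ++
        ((l.map fun w => (w.length, w)).map fun q : ℕ × List Bool => natCode q.1 ++ q.2).flatten)) := by
    simp [traceListCode, List.map_map, Function.comp_def]
  dsimp only at this ⊢
  rw [e, this]
  simp [List.map_map, Function.comp_def]

/-- the input of the decoder -/
def mkIn (a : ℕ × ℚ × List (List Bool)) : DIn :=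
  (a.2.1, List.replicate (min a.1 a.2.2.length) (), kP a.1 a.2.2.length,
    List.replicate (EP a.2.2.length) (), List.replicate a.2.2.length (), a.2.2)

theorem EP_le (m : ℕ) : EP m ≤ m + 1 := by
  unfold EP
  rcases Nat.eq_zero_or_pos m with rfl | hm
  · simp
  · have h1 : 2 ^ Nat.log2 m ≤ m := Nat.log2_self_le hm.ne'
    have h2 : 2 ^ (Nat.log2 m / 8) ≤ 2 ^ Nat.log2 m :=
      Nat.pow_le_pow_right (by norm_num) (Nat.div_le_self _ _)
    omega

theorem pt_mkIn : PT mkIn := by
  have hl : PT fun a : ℕ × ℚ × List (List Bool) => a.2.2.length := by fun_prop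
  have hl' : PB fun a : ℕ × ℚ × List (List Bool) => a.2.2.length := by fun_prop
  have hE : PT fun a : ℕ × ℚ × List (List Bool) => EP a.2.2.length :=
    PT.nat_pow (PT.const 2) (PT.nat_div (PT.log2 hl) (PT.const 8)) (PB.div (PB.log2 hl))
  have hE' : PB fun a : ℕ × ℚ × List (List Bool) => EP a.2.2.length :=
    (hl'.add (PB.const 1)).mono fun a => EP_le _
  have hk : PT fun a : ℕ × ℚ × List (List Bool) => kP a.1 a.2.2.length :=
    PT.nat_div (PT.log2 hl) (PT.nat_mul (PT.const 16) (PT.nat_add (PT.log2 (by fun_prop)) (PT.const 2)))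
  unfold mkIn
  exact PT.prodMk (by fun_prop) (PT.prodMk
    (PT.replicate (PT.nat_min (by fun_prop) hl) (PB.min_right hl') (PT.const ()))
    (PT.prodMk hk (PT.prodMk (PT.replicate hE hE' (PT.const ()))
      (PT.prodMk (PT.replicate hl hl' (PT.const ())) (by fun_prop)))))

theorem readWord_ofFn {n : ℕ} (x : Fin n → Bool) : readWord n (List.ofFn x) = x := by
  funext i
  simp [readWord]

theorem exists_alg : ∃ A : List Bool × List Bool → List Bool, PT A ∧
    ∀ (n m : ℕ) (p : ℚ) (x : Fin n → Bool), 0 ≤ p → p ≤ 1 → n ≤ m →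
      (2 * n + 2) ^ (2 * kP n m + 1) ≤ m → 3 * (2 * n + 2) ^ (kP n m + 2) * EP m ^ 2 ≤ m →
      (∀ t μ, PD (kP n m) t x μ → StatClose μ x (p : ℝ) (kP n m) (9 / (EP m : ℝ)) → False) →
      2 / 3 ≤ decoderSuccessProb m p A 0 x := by
  classical
  obtain ⟨dec, hdec, hspec⟩ := exists_parse
  obtain ⟨Dc, hDc, hD⟩ := exists_decode
  refine ⟨fun a => Dc (mkIn (dec a.1)), hDc.comp (pt_mkIn.comp (hdec.comp (by fun_prop))), ?_⟩
  intro n m p x hp hp1 h1 h2 h3 hno
  have hp' : (0 : ℝ) ≤ p := by exact_mod_cast hp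
  have hp1' : (p : ℝ) ≤ 1 := by exact_mod_cast hp1
  refine (good_two_thirds hp' hp1' (EP_pos m) h3 {x} (by simp)).trans ?_
  unfold decoderSuccessProb
  refine Finset.sum_le_sum fun keeps _ => mul_le_mul_of_nonneg_left ?_
    (Finset.prod_nonneg fun j _ => bw_nonneg hp' hp1' _)
  split_ifs with h
  · have hx := h x (Finset.mem_singleton_self x)
    have hout : Dc (mkIn (dec (decoderInput n p fun k => traceOf x (keeps k)))) = List.ofFn x := by
      unfold decoderInput
      rw [hspec]
      refine hD n _ x ⟨hp, hp1, ?_, ?_, ?_, ?_⟩ ?_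
      · simp [mkIn, h1]
      · simpa [mkIn] using EP_pos m
      · simpa [mkIn] using h2
      · simpa [mkIn] using hx
      · simpa [mkIn] using hno
    simp only [hout, readWord_ofFn]
    unfold uniformProb
    simp
  · unfold uniformProb
    positivity

end Crest.Agent.R300
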