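import Crest.Agent.R300.Jun

/-!
# Row 300: basic facts on the generating functions `G`.

All by induction on the list `L` (generalising `j`, and `h`, `S` in `PD.Et_G_le`: multiply `h` by
`a.2 (yb y i)`, insert `i` into `S` when `i < n`); geometric sums
`∑_{i<j} ‖v‖^(j-1-i) ≤ 1/(1-‖v‖)`.
`InZ.mul`: `√(Aγ) + √(Aγ') ≤ √(2A(γ+γ'))`.
-/

set_option autoImplicit false

namespace Crest.Agent.R300

open Complex ComplexConjugate

theorem G_cons_zero (z0 : ℂ) (a : Atom) (L : List Atom) (y : ℕ → Bool) :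
    G z0 (a :: L) y 0 = 0 := by
  simp [G]

theorem G_succ (z0 : ℂ) (a : Atom) (L : List Atom) (y : ℕ → Bool) (j : ℕ) :
    G z0 (a :: L) y (j + 1) = a.1 * G z0 (a :: L) y j + a.2 (y j) * G z0 L y j := by
  simp only [G]
  rw [Finset.sum_range_succ, Finset.mul_sum]
  congr 1
  · refine Finset.sum_congr rfl fun i hi => ?_
    have hi' := Finset.mem_range.1 hi
    rw [show j + 1 - 1 - i = (j - 1 - i) + 1 by omega, pow_succ]
    ring
  · simp

theorem G_congr (z0 : ℂ) (L : List Atom) {y y' : ℕ → Bool} {j : ℕ} (h : ∀ i < j, y i = y' i) :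
    G z0 L y j = G z0 L y' j := by
  induction L generalizing j with
  | nil => rfl
  | cons a L ih =>
    simp only [G]
    refine Finset.sum_congr rfl fun i hi => ?_
    have hi' := Finset.mem_range.1 hi
    rw [h i hi', ih fun k hk => h k (hk.trans hi')]

theorem G_scale (ζ : ℂ) (L : List Atom) (y : ℕ → Bool) (j : ℕ) :
    ζ ^ j * G 1 L y j = G ζ (L.map fun a => (a.1 * ζ, fun b => ζ * a.2 b)) y j := by
  induction L generalizing j with
  | nil => simp [G]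
  | cons a L ih =>
    simp only [G, List.map_cons]
    rw [Finset.mul_sum]
    refine Finset.sum_congr rfl fun i hi => ?_
    have hi' := Finset.mem_range.1 hi
    rw [← ih i]
    conv_lhs => rw [show ζ ^ j = ζ ^ (j - 1 - i) * ζ * ζ ^ i by
      rw [← pow_succ, ← pow_add]; congr 1; omega]
    rw [mul_pow]
    ring

theorem G_conj (z0 : ℂ) (L : List Atom) (y : ℕ → Bool) (j : ℕ) :
    conj (G z0 L y j) = G (conj z0) (L.map fun a => (conj a.1, fun b => conj (a.2 b))) y j := by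
  induction L generalizing j with
  | nil => simp [G]
  | cons a L ih =>
    simp only [G, List.map_cons, map_sum, map_mul, map_pow, ih]

theorem nu_nil : nu [] = 1 := by
  simp [nu]

theorem nu_cons (a : Atom) (L : List Atom) : nu (a :: L) = (1 - ‖a.1‖) * nu L := by
  simp [nu]

theorem nu_pos {L : List Atom} (h : ∀ a ∈ L, ‖a.1‖ < 1) : 0 < nu L := by
  induction L with
  | nil => simp [nu]
  | cons a L ih =>
    rw [nu_cons]
    exact mul_pos (sub_pos.2 (h a (by simp))) (ih fun b hb => h b (by simp [hb]))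

theorem nu_le_one {L : List Atom} (h : ∀ a ∈ L, ‖a.1‖ < 1) : nu L ≤ 1 := by
  induction L with
  | nil => simp [nu]
  | cons a L ih =>
    rw [nu_cons]
    have h1 := nu_pos (L := L) fun b hb => h b (by simp [hb])
    have h2 := ih fun b hb => h b (by simp [hb])
    nlinarith [norm_nonneg a.1]

theorem geom_back_le {r : ℝ} (h0 : 0 ≤ r) (h1 : r < 1) (j : ℕ) :
    ∑ i ∈ Finset.range j, r ^ (j - 1 - i) ≤ 1 / (1 - r) := by
  rw [Finset.sum_range_reflect (fun i => r ^ i) j, one_div, ← tsum_geometric_of_lt_one h0 h1]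
  exact (summable_geometric_of_lt_one h0 h1).sum_le_tsum _ fun _ _ => pow_nonneg h0 _

theorem GBasic_step {a : Atom} {L : List Atom} (ha : ‖a.1‖ < 1) (hL : 0 < nu L) {j : ℕ}
    {T : ℕ → ℂ} (hT : ∀ i, ‖T i‖ ≤ 1 / nu L) :
    ‖∑ i ∈ Finset.range j, a.1 ^ (j - 1 - i) * T i‖ ≤ 1 / nu (a :: L) := by
  refine (norm_sum_le _ _).trans ?_
  calc ∑ i ∈ Finset.range j, ‖a.1 ^ (j - 1 - i) * T i‖
      ≤ ∑ i ∈ Finset.range j, ‖a.1‖ ^ (j - 1 - i) * (1 / nu L) := by
        refine Finset.sum_le_sum fun i _ => ?_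
        rw [norm_mul, norm_pow]
        exact mul_le_mul_of_nonneg_left (hT i) (by positivity)
    _ ≤ 1 / (1 - ‖a.1‖) * (1 / nu L) := by
        rw [← Finset.sum_mul]
        exact mul_le_mul_of_nonneg_right (geom_back_le (norm_nonneg _) ha j) (by positivity)
    _ = _ := by rw [nu_cons, one_div_mul_one_div]

theorem norm_G_le {z0 : ℂ} (hz : ‖z0‖ ≤ 1) {L : List Atom}
    (hL : ∀ a ∈ L, ‖a.1‖ < 1 ∧ ∀ b, ‖a.2 b‖ ≤ 1) (y : ℕ → Bool) (j : ℕ) :
    ‖G z0 L y j‖ ≤ 1 / nu L := by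
  induction L generalizing j with
  | nil =>
    simp only [G, nu_nil, norm_pow, div_one]
    exact pow_le_one₀ (norm_nonneg _) hz
  | cons a L ih =>
    have hL' : ∀ b ∈ L, ‖b.1‖ < 1 ∧ ∀ c, ‖b.2 c‖ ≤ 1 := fun b hb => hL b (by simp [hb])
    simp only [G, mul_assoc]
    refine GBasic_step (hL a (by simp)).1 (nu_pos fun b hb => (hL' b hb).1) fun i => ?_
    rw [norm_mul]
    exact (mul_le_of_le_one_left (norm_nonneg _) ((hL a (by simp)).2 _)).trans (ih hL' i)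

theorem G_mem_Jun (n : ℕ) (z0 : ℂ) (L : List Atom) (j : ℕ) :
    (fun y : Fin n → Bool => G z0 L (yb y) j) ∈ Jun n L.length := by
  induction L generalizing j with
  | nil => exact const_mem_Jun n _ _
  | cons a L ih =>
    simp only [G, List.length_cons]
    refine Jun_sum _ fun i _ => ?_
    rw [add_comm]
    exact Jun_mul (bit_mem_Jun n i fun b => a.1 ^ (j - 1 - i) * a.2 b) (ih i)

theorem PD.Et_G_le {n d t : ℕ} {x : Fin n → Bool} {μ : (Fin n → Bool) → ℝ} (h : PD d t x μ)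
    {z0 : ℂ} (hz : ‖z0‖ ≤ 1) {L : List Atom} (hL : ∀ a ∈ L, ‖a.1‖ < 1 ∧ ∀ b, ‖a.2 b‖ ≤ 1)
    {f : (Fin n → Bool) → ℂ} (S : Finset (Fin n)) (hS : S.card + L.length ≤ d)
    (hdep : ∀ y y' : Fin n → Bool, (∀ i ∈ S, y i = y' i) → f y = f y') (hf : ∀ y, ‖f y‖ ≤ 1)
    (j : ℕ) : ‖Et μ (fun y => f y * G z0 L (yb y) j)‖ ≤ 1 / nu L := by
  induction L generalizing f S j with
  | nil =>
    simp only [G, nu_nil, div_one]
    refine h.junta_bound S (by simpa using hS) (fun y y' hy => by rw [hdep y y' hy]) fun y => ?_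
    rw [norm_mul, norm_pow]
    exact mul_le_one₀ (hf y) (by positivity) (pow_le_one₀ (norm_nonneg _) hz)
  | cons a L ih =>
    have hL' : ∀ b ∈ L, ‖b.1‖ < 1 ∧ ∀ c, ‖b.2 c‖ ≤ 1 := fun b hb => hL b (by simp [hb])
    have h1 : (fun y => f y * G z0 (a :: L) (yb y) j) = fun y => ∑ i ∈ Finset.range j,
        a.1 ^ (j - 1 - i) * (f y * a.2 (yb y i) * G z0 L (yb y) i) := by
      funext y
      simp only [G, Finset.mul_sum]
      exact Finset.sum_congr rfl fun i _ => by ring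
    rw [h1, Et_sum]
    simp only [Et_mul_left]
    refine GBasic_step (hL a (by simp)).1 (nu_pos fun b hb => (hL' b hb).1) fun i => ?_
    have hb : ∀ y, ‖f y * a.2 (yb y i)‖ ≤ 1 := fun y => by
      rw [norm_mul]
      exact mul_le_one₀ (hf y) (norm_nonneg _) ((hL a (by simp)).2 _)
    rw [List.length_cons] at hS
    by_cases hi : i < n
    · refine ih hL' (insert ⟨i, hi⟩ S) ?_ (fun y y' hy => ?_) hb i
      · have := Finset.card_insert_le (⟨i, hi⟩ : Fin n) S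
        omega
      · rw [hdep y y' fun k hk => hy k (Finset.mem_insert_of_mem hk)]
        simp only [yb, hi, dif_pos, hy _ (Finset.mem_insert_self _ _)]
    · refine ih hL' S (by omega) (fun y y' hy => ?_) hb i
      rw [hdep y y' hy]
      simp only [yb, hi, dif_neg, not_false_eq_true]

theorem InZ.norm_le {B γ0 A : ℝ} {v : ℂ} (h : InZ B γ0 A v) : ‖v‖ ≤ Real.exp (-γ0) := by
  obtain ⟨θ, γ, rfl, hγ, -⟩ := h
  rw [Complex.norm_exp]
  apply Real.exp_le_exp.2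
  simp
  exact hγ

theorem InZ.norm_lt {B γ0 A : ℝ} {v : ℂ} (h : InZ B γ0 A v) (h0 : 0 < γ0) : ‖v‖ < 1 := by
  exact h.norm_le.trans_lt (Real.exp_lt_one_iff.2 (by linarith))

theorem InZ.mono {B γ0 A A' : ℝ} {v : ℂ} (h : InZ B γ0 A v) (h0 : 0 ≤ γ0) (hA : A ≤ A') :
    InZ B γ0 A' v := by
  obtain ⟨θ, γ, hv, hγ, hθ⟩ := h
  refine ⟨θ, γ, hv, hγ, hθ.trans ?_⟩
  have := Real.sqrt_le_sqrt (mul_le_mul_of_nonneg_right hA (h0.trans hγ))
  linarith

theorem InZ.mul {B γ0 A : ℝ} {v v' : ℂ} (h : InZ B γ0 A v) (h' : InZ B γ0 A v') (h0 : 0 ≤ γ0)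
    (hA : 0 ≤ A) : InZ B γ0 (2 * A) (v * v') := by
  obtain ⟨θ, γ, rfl, hγ, hθ⟩ := h
  obtain ⟨θ', γ', rfl, hγ', hθ'⟩ := h'
  refine ⟨θ + θ', γ + γ', ?_, by linarith, ?_⟩
  · rw [← Complex.exp_add]
    congr 1
    push_cast
    ring
  · have h1 : 0 ≤ A * γ := mul_nonneg hA (h0.trans hγ)
    have h2 : 0 ≤ A * γ' := mul_nonneg hA (h0.trans hγ')
    have h3 : √(A * γ) + √(A * γ') ≤ √(2 * A * (γ + γ')) := by
      apply Real.le_sqrt_of_sq_le
      nlinarith [Real.sq_sqrt h1, Real.sq_sqrt h2, sq_nonneg (√(A * γ) - √(A * γ'))]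
    linarith [abs_add_le θ θ']

theorem InZ.conj {B γ0 A : ℝ} {v : ℂ} (h : InZ B γ0 A v) : InZ B γ0 A (conj v) := by
  obtain ⟨θ, γ, rfl, hγ, hθ⟩ := h
  refine ⟨-θ, γ, ?_, hγ, by rwa [abs_neg]⟩
  rw [← Complex.exp_conj]
  congr 1
  simp

/-- multiplying by a point of the sector -/
theorem InZ.mul_sector {B γ0 A θ η : ℝ} {v : ℂ} (h : InZ B γ0 A v) (hA : 0 ≤ A) (hη : 0 ≤ η)
    (hθ : |θ| ≤ B * η) : InZ B γ0 A (v * cexp (θ * I - η)) := by
  obtain ⟨θ', γ, rfl, hγ, hθ'⟩ := h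
  refine ⟨θ' + θ, γ + η, ?_, by linarith, ?_⟩
  · rw [← Complex.exp_add]
    congr 1
    push_cast
    ring
  · have h3 : √(A * γ) ≤ √(A * (γ + η)) :=
      Real.sqrt_le_sqrt (mul_le_mul_of_nonneg_left (by linarith) hA)
    linarith [abs_add_le θ' θ]

theorem Ok.mono {B γ0 A A' : ℝ} {L : List Atom} (h : Ok B γ0 A L) (h0 : 0 ≤ γ0) (hA : A ≤ A') :
    Ok B γ0 A' L := by
  exact fun a ha => ⟨(h a ha).1.mono h0 hA, (h a ha).2⟩

theorem Ok.small {B γ0 A : ℝ} {L : List Atom} (h : Ok B γ0 A L) (h0 : 0 < γ0) :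
    ∀ a ∈ L, ‖a.1‖ < 1 ∧ ∀ b, ‖a.2 b‖ ≤ 1 := by
  exact fun a ha => ⟨(h a ha).1.norm_lt h0, (h a ha).2⟩

end Crest.Agent.R300
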