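import Crest.Agent.R300.UDefs

/-!
# Row 300: Gaussian windows as averages of exponentials (horizontal contours).

`gw_eq_integral`: `integral_cexp_quadratic` (or `integral_cexp_neg_mul_add_const`,
`fourierIntegral_gaussian`).  `gauss_line`: insert it, swap the finite sum with the integral,
`norm_integral_le_of_norm_le`, `‖exp(-(τ - iγ)²/(2ρ))‖ = exp(-(τ²-γ²)/(2ρ))`,
`integral_gaussian`.  `gauss3`: three applications of `gauss_line`.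
`sum_gw_le`: `gw ρ u ≤ ∫_{u-1}^{u} gw` for `u ≥ 1` (`AntitoneOn.sum_le_integral`) and
`integral_gaussian_Ioi`; `√(π/2) ≤ 4/3`.
-/

set_option autoImplicit false

namespace Crest.Agent.R300

open Complex MeasureTheory

theorem gw_pos (ρ v : ℝ) : 0 < gw ρ v := by
  exact Real.exp_pos _

theorem gw_le_one {ρ : ℝ} (hρ : 0 ≤ ρ) (v : ℝ) : gw ρ v ≤ 1 := by
  unfold gw
  rw [Real.exp_le_one_iff]
  have : 0 ≤ ρ * v ^ 2 / 2 := by positivity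
  linarith

theorem gw_zero (ρ : ℝ) : gw ρ 0 = 1 := by
  simp [gw]

theorem gauss_integrand {ρ : ℝ} (hρ : 0 < ρ) (v : ℝ) (w : ℂ) (τ : ℝ) :
    cexp (-((τ + w) ^ 2 / (2 * ρ))) * cexp ((τ + w) * I * v) =
      cexp ((-(1 / (2 * ρ)) : ℂ) * τ ^ 2 + (-(w / ρ) + I * v) * τ + (-(w ^ 2 / (2 * ρ)) + w * I * v)) := by
  rw [← Complex.exp_add]
  congr 1
  have : (ρ : ℂ) ≠ 0 := by exact_mod_cast hρ.ne'
  field_simp
  ring

theorem gauss_b_re {ρ : ℝ} (hρ : 0 < ρ) : (-(1 / (2 * ρ)) : ℂ).re < 0 := by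
  have : (-(1 / (2 * ρ)) : ℂ) = ((-(1 / (2 * ρ)) : ℝ) : ℂ) := by push_cast; ring
  rw [this, ofReal_re]
  have : 0 < 1 / (2 * ρ) := by positivity
  linarith

theorem gauss_integrable {ρ : ℝ} (hρ : 0 < ρ) (v : ℝ) (w : ℂ) :
    Integrable fun τ : ℝ => ((√(2 * Real.pi * ρ) : ℝ) : ℂ)⁻¹ *
      cexp (-((τ + w) ^ 2 / (2 * ρ))) * cexp ((τ + w) * I * v) := by
  simp only [mul_assoc ((√(2 * Real.pi * ρ) : ℝ) : ℂ)⁻¹, gauss_integrand hρ]
  exact (integrable_cexp_quadratic' (gauss_b_re hρ) _ _).const_mul _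

/-- `w` is an arbitrary complex shift of the contour -/
theorem gw_eq_integral {ρ : ℝ} (hρ : 0 < ρ) (v : ℝ) (w : ℂ) :
    (gw ρ v : ℂ) = ∫ τ : ℝ, ((√(2 * Real.pi * ρ) : ℝ) : ℂ)⁻¹ *
      cexp (-((τ + w) ^ 2 / (2 * ρ))) * cexp ((τ + w) * I * v) := by
  simp only [mul_assoc ((√(2 * Real.pi * ρ) : ℝ) : ℂ)⁻¹, gauss_integrand hρ]
  rw [integral_const_mul, integral_cexp_quadratic (gauss_b_re hρ)]
  have hρ' : (ρ : ℂ) ≠ 0 := by exact_mod_cast hρ.ne'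
  have hpos : 0 < 2 * Real.pi * ρ := by have := Real.pi_pos; positivity
  have h1 : ((Real.pi : ℂ) / -(-(1 / (2 * ρ)) : ℂ)) ^ (1 / 2 : ℂ) = ((√(2 * Real.pi * ρ) : ℝ) : ℂ) := by
    have e1 : ((Real.pi : ℂ) / -(-(1 / (2 * ρ)) : ℂ)) = ((2 * Real.pi * ρ : ℝ) : ℂ) := by
      push_cast; field_simp
    rw [e1, Real.sqrt_eq_rpow, Complex.ofReal_cpow hpos.le]
    norm_num
  have h2 : ((√(2 * Real.pi * ρ) : ℝ) : ℂ) ≠ 0 := by
    exact_mod_cast (Real.sqrt_pos.2 hpos).ne'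
  rw [h1, ← mul_assoc, inv_mul_cancel₀ h2, one_mul]
  unfold gw
  rw [Complex.ofReal_exp]
  congr 1
  push_cast
  field_simp
  ring_nf
  rw [I_sq]
  ring

theorem gauss_line {ι : Type} (s : Finset ι) (c : ι → ℂ) (v : ι → ℝ) {ρ lam M : ℝ} (γ : ℝ)
    (hρ : 0 < ρ) (hl : lam < 1) (hM : 0 ≤ M)
    (h : ∀ τ : ℝ, ‖∑ i ∈ s, c i * cexp ((τ * I + γ) * v i)‖ ≤
      M * Real.exp (lam * τ ^ 2 / (2 * ρ))) :
    ‖∑ i ∈ s, c i * (gw ρ (v i) : ℂ)‖ ≤ M * Real.exp (γ ^ 2 / (2 * ρ)) / √(1 - lam) := by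
  have hpos : 0 < 2 * Real.pi * ρ := by have := Real.pi_pos; positivity
  have hK : 0 < √(2 * Real.pi * ρ) := Real.sqrt_pos.2 hpos
  have hw : ∀ (τ : ℝ) (x : ℝ), ((τ : ℂ) + (-(I * γ))) * I * x = (τ * I + γ) * x := by
    intro τ x
    have : ((τ : ℂ) + (-(I * γ))) * I = τ * I + γ := by
      linear_combination (-(γ : ℂ)) * I_mul_I
    rw [this]
  have h1 : ∑ i ∈ s, c i * (gw ρ (v i) : ℂ) = ∫ τ : ℝ, ((√(2 * Real.pi * ρ) : ℝ) : ℂ)⁻¹ *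
      cexp (-((τ + (-(I * γ))) ^ 2 / (2 * ρ))) * ∑ i ∈ s, c i * cexp ((τ * I + γ) * v i) := by
    have : ∀ τ : ℝ, ((√(2 * Real.pi * ρ) : ℝ) : ℂ)⁻¹ *
        cexp (-((τ + (-(I * γ))) ^ 2 / (2 * ρ))) * ∑ i ∈ s, c i * cexp ((τ * I + γ) * v i) =
        ∑ i ∈ s, c i * (((√(2 * Real.pi * ρ) : ℝ) : ℂ)⁻¹ *
        cexp (-((τ + (-(I * γ))) ^ 2 / (2 * ρ))) * cexp ((τ + (-(I * γ))) * I * v i)) := by
      intro τ
      rw [Finset.mul_sum]
      refine Finset.sum_congr rfl fun i _ => ?_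
      rw [hw]; ring
    simp only [this]
    rw [integral_finsetSum _ fun i _ => (gauss_integrable hρ (v i) _).const_mul _]
    refine Finset.sum_congr rfl fun i _ => ?_
    rw [integral_const_mul, ← gw_eq_integral hρ]
  rw [h1]
  have hb : 0 < (1 - lam) / (2 * ρ) := div_pos (by linarith) (by positivity)
  have hnorm : ∀ τ : ℝ, ‖cexp (-((τ + (-(I * γ))) ^ 2 / (2 * ρ)))‖ =
      Real.exp (-((τ ^ 2 - γ ^ 2) / (2 * ρ))) := by
    intro τ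
    rw [Complex.norm_exp]
    congr 1
    have e : (-(((τ : ℂ) + (-(I * γ))) ^ 2 / (2 * ρ))) =
        ((-((τ ^ 2 - γ ^ 2) / (2 * ρ)) : ℝ) : ℂ) + ((τ * γ / ρ : ℝ) : ℂ) * I := by
      have hρ' : (ρ : ℂ) ≠ 0 := by exact_mod_cast hρ.ne'
      push_cast
      field_simp
      ring_nf
      rw [I_sq]
      ring
    rw [e, add_re, ofReal_re, re_ofReal_mul, I_re, mul_zero, add_zero]
  have hbd : ∀ τ : ℝ, ‖((√(2 * Real.pi * ρ) : ℝ) : ℂ)⁻¹ *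
      cexp (-((τ + (-(I * γ))) ^ 2 / (2 * ρ))) * ∑ i ∈ s, c i * cexp ((τ * I + γ) * v i)‖ ≤
      ((√(2 * Real.pi * ρ))⁻¹ * (M * Real.exp (γ ^ 2 / (2 * ρ)))) *
        Real.exp (-((1 - lam) / (2 * ρ)) * τ ^ 2) := by
    intro τ
    rw [norm_mul, norm_mul, norm_inv, Complex.norm_real, Real.norm_of_nonneg hK.le, hnorm]
    calc (√(2 * Real.pi * ρ))⁻¹ * Real.exp (-((τ ^ 2 - γ ^ 2) / (2 * ρ))) *
          ‖∑ i ∈ s, c i * cexp ((τ * I + γ) * v i)‖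
        ≤ (√(2 * Real.pi * ρ))⁻¹ * Real.exp (-((τ ^ 2 - γ ^ 2) / (2 * ρ))) *
          (M * Real.exp (lam * τ ^ 2 / (2 * ρ))) :=
          mul_le_mul_of_nonneg_left (h τ) (by positivity)
      _ = (√(2 * Real.pi * ρ))⁻¹ * M * (Real.exp (-((τ ^ 2 - γ ^ 2) / (2 * ρ))) *
          Real.exp (lam * τ ^ 2 / (2 * ρ))) := by ring
      _ = (√(2 * Real.pi * ρ))⁻¹ * M * (Real.exp (γ ^ 2 / (2 * ρ)) *
          Real.exp (-((1 - lam) / (2 * ρ)) * τ ^ 2)) := by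
          rw [← Real.exp_add, ← Real.exp_add]
          congr 2
          field_simp
          ring
      _ = _ := by ring
  refine (norm_integral_le_of_norm_le
    ((integrable_exp_neg_mul_sq hb).const_mul _) (Filter.Eventually.of_forall hbd)).trans (le_of_eq ?_)
  rw [integral_const_mul, integral_gaussian]
  have hl' : 0 < 1 - lam := by linarith
  have e : Real.pi / ((1 - lam) / (2 * ρ)) = (2 * Real.pi * ρ) / (1 - lam) := by
    field_simp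
  rw [e, Real.sqrt_div hpos.le]
  have : 0 < √(1 - lam) := Real.sqrt_pos.2 hl'
  field_simp

theorem gauss3 {ι : Type} (s : Finset ι) (c : ι → ℂ) (v₁ v₂ v₃ : ι → ℝ) {ρ lam M : ℝ} (γ : ℝ)
    (hρ : 0 < ρ) (hl : lam < 1) (hM : 0 ≤ M)
    (h : ∀ τ₁ τ₂ τ₃ : ℝ, ‖∑ i ∈ s, c i * (cexp ((τ₁ * I + γ) * v₁ i) *
        cexp ((τ₂ * I + γ) * v₂ i) * cexp ((τ₃ * I + γ) * v₃ i))‖ ≤
      M * Real.exp (lam * (τ₁ ^ 2 + τ₂ ^ 2 + τ₃ ^ 2) / (2 * ρ))) :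
    ‖∑ i ∈ s, c i * ((gw ρ (v₁ i) : ℂ) * gw ρ (v₂ i) * gw ρ (v₃ i))‖ ≤
      M * Real.exp (3 * γ ^ 2 / (2 * ρ)) / √(1 - lam) ^ 3 := by
  have hs : 0 < √(1 - lam) := Real.sqrt_pos.2 (by linarith)
  set E := Real.exp (γ ^ 2 / (2 * ρ)) / √(1 - lam) with hE
  have hE0 : 0 ≤ E := by positivity
  have h3 : ∀ τ₁ τ₂ : ℝ, ‖∑ i ∈ s, (c i * cexp ((τ₁ * I + γ) * v₁ i) * cexp ((τ₂ * I + γ) * v₂ i)) *
      (gw ρ (v₃ i) : ℂ)‖ ≤ M * E * Real.exp (lam * τ₁ ^ 2 / (2 * ρ)) * Real.exp (lam * τ₂ ^ 2 / (2 * ρ)) := by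
    intro τ₁ τ₂
    refine (gauss_line s _ v₃ (M := M * Real.exp (lam * τ₁ ^ 2 / (2 * ρ)) * Real.exp (lam * τ₂ ^ 2 / (2 * ρ)))
      γ hρ hl (by positivity) fun τ₃ => ?_).trans (le_of_eq (by rw [hE]; ring))
    have := h τ₁ τ₂ τ₃
    rw [show lam * (τ₁ ^ 2 + τ₂ ^ 2 + τ₃ ^ 2) / (2 * ρ) = lam * τ₁ ^ 2 / (2 * ρ) + lam * τ₂ ^ 2 / (2 * ρ)
      + lam * τ₃ ^ 2 / (2 * ρ) by ring, Real.exp_add, Real.exp_add, ← mul_assoc, ← mul_assoc] at this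
    convert this using 2
    exact Finset.sum_congr rfl fun i _ => by ring
  have h2 : ∀ τ₁ : ℝ, ‖∑ i ∈ s, (c i * cexp ((τ₁ * I + γ) * v₁ i) * (gw ρ (v₃ i) : ℂ)) *
      (gw ρ (v₂ i) : ℂ)‖ ≤ M * E * E * Real.exp (lam * τ₁ ^ 2 / (2 * ρ)) := by
    intro τ₁
    refine (gauss_line s _ v₂ (M := M * E * Real.exp (lam * τ₁ ^ 2 / (2 * ρ)))
      γ hρ hl (by positivity) fun τ₂ => ?_).trans (le_of_eq (by rw [hE]; ring))
    have := h3 τ₁ τ₂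
    convert this using 2
    exact Finset.sum_congr rfl fun i _ => by ring
  have h1 : ‖∑ i ∈ s, (c i * (gw ρ (v₂ i) : ℂ) * (gw ρ (v₃ i) : ℂ)) * (gw ρ (v₁ i) : ℂ)‖ ≤
      M * E * E * Real.exp (γ ^ 2 / (2 * ρ)) / √(1 - lam) := by
    refine gauss_line s _ v₁ (M := M * E * E) γ hρ hl (by positivity) fun τ₁ => ?_
    have := h2 τ₁
    convert this using 2
    exact Finset.sum_congr rfl fun i _ => by ring
  have e : M * Real.exp (3 * γ ^ 2 / (2 * ρ)) / √(1 - lam) ^ 3 =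
      M * E * E * Real.exp (γ ^ 2 / (2 * ρ)) / √(1 - lam) := by
    rw [show 3 * γ ^ 2 / (2 * ρ) = γ ^ 2 / (2 * ρ) + γ ^ 2 / (2 * ρ) + γ ^ 2 / (2 * ρ) by ring,
      Real.exp_add, Real.exp_add, hE]
    field_simp
  rw [e]
  convert h1 using 2
  exact Finset.sum_congr rfl fun i _ => by ring

theorem gw_neg (ρ v : ℝ) : gw ρ (-v) = gw ρ v := by
  simp [gw]

theorem sum_gw_succ_le {ρ : ℝ} (hρ : 0 < ρ) (N : ℕ) :
    ∑ u ∈ Finset.range N, gw ρ ((u + 1 : ℕ) : ℝ) ≤ 4 / 3 / √ρ := by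
  have hanti : AntitoneOn (gw ρ) (Set.Icc (0 : ℝ) (0 + N)) := by
    intro a ha b _ hab
    unfold gw
    refine Real.exp_le_exp.2 ?_
    have : a ^ 2 ≤ b ^ 2 := pow_le_pow_left₀ ha.1 hab 2
    nlinarith
  have h1 := hanti.sum_le_integral
  simp only [zero_add] at h1
  refine h1.trans ?_
  have hg : gw ρ = fun x => Real.exp (-(ρ / 2) * x ^ 2) := by
    funext x; unfold gw; congr 1; ring
  have hint : Integrable fun x : ℝ => Real.exp (-(ρ / 2) * x ^ 2) :=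
    integrable_exp_neg_mul_sq (by positivity)
  rw [hg, intervalIntegral.integral_of_le (Nat.cast_nonneg N)]
  refine (setIntegral_mono_set (t := Set.Ioi (0 : ℝ)) hint.integrableOn
    (Filter.Eventually.of_forall fun x => (Real.exp_pos _).le)
    (Filter.Eventually.of_forall Set.Ioc_subset_Ioi_self)).trans ?_
  rw [integral_gaussian_Ioi]
  have hs : 0 < √ρ := Real.sqrt_pos.2 hρ
  have e : Real.pi / (ρ / 2) = (2 * Real.pi) / ρ := by field_simp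
  rw [e, Real.sqrt_div (by have := Real.pi_pos; positivity)]
  have h2 : √(2 * Real.pi) ≤ 8 / 3 := by
    rw [Real.sqrt_le_iff]
    have := Real.pi_lt_d2
    constructor <;> nlinarith
  rw [div_right_comm]
  exact div_le_div_of_nonneg_right (by linarith) hs.le

theorem sum_gw_le {ρ : ℝ} (hρ : 0 < ρ) (N : ℕ) :
    ∑ u ∈ Finset.range N, gw ρ u ≤ 1 + 4 / 3 / √ρ := by
  have hs : 0 ≤ 4 / 3 / √ρ := by positivity
  rcases N with _ | N
  · simp only [Finset.range_zero, Finset.sum_empty]; linarith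
  · rw [Finset.sum_range_succ']
    have := sum_gw_succ_le hρ N
    rw [Nat.cast_zero, gw_zero]
    linarith

theorem sum_gw_two_split (ρ : ℝ) (t m : ℕ) :
    ∑ j ∈ Finset.range (t + m), gw ρ ((j : ℝ) - t) =
      ∑ u ∈ Finset.range t, gw ρ ((u + 1 : ℕ) : ℝ) + ∑ u ∈ Finset.range m, gw ρ u := by
  rw [Finset.sum_range_add]
  congr 1
  · rw [← Finset.sum_range_reflect]
    refine Finset.sum_congr rfl fun u hu => ?_
    have hu' := Finset.mem_range.1 hu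
    rw [← gw_neg]
    congr 1
    rw [Nat.sub_sub, Nat.cast_sub (by omega)]
    push_cast
    ring
  · refine Finset.sum_congr rfl fun u _ => ?_
    congr 1
    push_cast
    ring

theorem sum_gw_two_le {ρ : ℝ} (hρ : 0 < ρ) (n t : ℕ) :
    ∑ j ∈ Finset.range n, gw ρ ((j : ℝ) - t) ≤ 2 + 8 / 3 / √ρ := by
  have h1 : ∑ j ∈ Finset.range n, gw ρ ((j : ℝ) - t) ≤ ∑ j ∈ Finset.range (t + n), gw ρ ((j : ℝ) - t) :=
    Finset.sum_le_sum_of_subset_of_nonneg (Finset.range_mono (by omega)) fun j _ _ => (gw_pos _ _).le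
  rw [sum_gw_two_split] at h1
  have h2 := sum_gw_succ_le hρ t
  have h3 := sum_gw_le hρ n
  have e : 8 / 3 / √ρ = 4 / 3 / √ρ + 4 / 3 / √ρ := by ring
  linarith

theorem one_le_sum_gw_two (ρ : ℝ) {n t : ℕ} (ht : t < n) :
    1 ≤ ∑ j ∈ Finset.range n, gw ρ ((j : ℝ) - t) := by
  have h := Finset.single_le_sum (f := fun j : ℕ => gw ρ ((j : ℝ) - t))
    (fun j _ => (gw_pos _ _).le) (Finset.mem_range.2 ht)
  simpa [gw_zero] using h

theorem sum_gw_le_two (ρ : ℝ) (n t : ℕ) :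
    ∑ u ∈ Finset.range (n - t), gw ρ u ≤ ∑ j ∈ Finset.range n, gw ρ ((j : ℝ) - t) := by
  rcases le_total n t with h | h
  · rw [Nat.sub_eq_zero_of_le h, Finset.range_zero, Finset.sum_empty]
    exact Finset.sum_nonneg fun j _ => (gw_pos _ _).le
  · obtain ⟨m, rfl⟩ := Nat.exists_eq_add_of_le h
    rw [sum_gw_two_split, Nat.add_sub_cancel_left]
    have : 0 ≤ ∑ u ∈ Finset.range t, gw ρ ((u + 1 : ℕ) : ℝ) :=
      Finset.sum_nonneg fun j _ => (gw_pos _ _).le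
    linarith

end Crest.Agent.R300
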