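import Mathlib

/-!
# Row 300: Poisson–Jensen inequality for polynomials.

`jensen_disc`: if `F w = 0` trivial.  Otherwise let `P = ∑ monomial u (d u) ≠ 0`, factor it over
`ℂ` (`Polynomial.eq_prod_roots_of_splits_id`/`IsAlgClosed.splits`).  For each root `ρ`,
`log ‖w - ρ‖ ≤ circleAverage (kernel * log ‖· - ρ‖)`: `‖ρ‖ = 1`:
`circleAverage_re_herglotzRieszKernel_mul_log`; `‖ρ‖ > 1`: harmonic
(`HarmonicOnNhd.circleAverage_poissonKernel_smul`, `AnalyticAt.harmonicAt_log_norm`);
`‖ρ‖ < 1`: on the circle `‖z - ρ‖ = ‖1 - conj ρ z‖`, harmonic, and `‖w - ρ‖ ≤ ‖1 - conj ρ w‖`.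
The kernel averages to `1`; `log‖F‖ = log‖c‖ + ∑ log‖· - ρ‖ ≤ g` off finitely many angles
(`intervalIntegral.integral_mono_ae`/`circleIntegrable_log_norm_sub_const`); move the interval
`[0,2π]` to `[-π,π]` by periodicity (`Function.Periodic.intervalIntegral_add_eq`) for the
`log`-side *before* comparing with `g`.
`kernel_ge`: `(1-r²)/‖e^{iθ} - w‖² = sinh η/(cosh η - cos(θ-θ₀)) ≥ 2η/(η² + (θ-θ₀)²)` since
`1 - cos s ≤ s²/2`, `η ≤ sinh η`, `2(cosh η - 1) ≤ η sinh η`.
-/

set_option autoImplicit false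

namespace Crest.Agent.R300

open Complex

open Metric InnerProductSpace Polynomial

theorem jn_avg_analytic {f : ℂ → ℂ} {w : ℂ} (hw : ‖w‖ < 1)
    (hf : ∀ z ∈ closedBall (0 : ℂ) 1, AnalyticAt ℂ f z) (h0 : ∀ z ∈ closedBall (0 : ℂ) 1, f z ≠ 0) :
    Real.circleAverage (poissonKernel 0 w • fun z => Real.log ‖f z‖) 0 1 = Real.log ‖f w‖ := by
  have hw' : w ∈ ball (0 : ℂ) 1 := by simpa using hw
  have hh : HarmonicOnNhd (fun z => Real.log ‖f z‖) (closedBall (0 : ℂ) 1) :=
    fun z hz => (hf z hz).harmonicAt_log_norm (h0 z hz)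
  exact hh.circleAverage_poissonKernel_smul hw'

theorem jn_norm_sq_diff (w ρ : ℂ) :
    ‖1 - (starRingEnd ℂ) ρ * w‖ ^ 2 - ‖w - ρ‖ ^ 2 = (1 - ‖ρ‖ ^ 2) * (1 - ‖w‖ ^ 2) := by
  simp only [← Complex.normSq_eq_norm_sq, Complex.normSq_apply, sub_re, sub_im, mul_re, mul_im,
    one_re, one_im, conj_re, conj_im]
  ring

theorem jn_root_le {w ρ : ℂ} (hw : ‖w‖ < 1) (hne : w ≠ ρ) :
    Real.log ‖w - ρ‖ ≤
      Real.circleAverage (poissonKernel 0 w • fun z => Real.log ‖z - ρ‖) 0 1 := by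
  have hw' : w ∈ ball (0 : ℂ) 1 := by simpa using hw
  rcases lt_trichotomy ‖ρ‖ 1 with h | h | h
  · have e1 : Real.circleAverage (poissonKernel 0 w • fun z => Real.log ‖z - ρ‖) 0 1 =
        Real.circleAverage (poissonKernel 0 w • fun z =>
          Real.log ‖1 - (starRingEnd ℂ) ρ * z‖) 0 1 := by
      apply Real.circleAverage_congr_sphere
      intro z hz
      have hz1 : ‖z‖ = 1 := by simpa using hz
      have h2 := jn_norm_sq_diff z ρ
      rw [hz1] at h2
      have h3 : ‖1 - (starRingEnd ℂ) ρ * z‖ = ‖z - ρ‖ := by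
        have : ‖1 - (starRingEnd ℂ) ρ * z‖ ^ 2 = ‖z - ρ‖ ^ 2 := by linarith
        exact (pow_left_inj₀ (norm_nonneg _) (norm_nonneg _) two_ne_zero).1 this
      simp only [Pi.smul_apply', h3]
    rw [e1, jn_avg_analytic (f := fun z => 1 - (starRingEnd ℂ) ρ * z) hw]
    · apply Real.log_le_log (norm_pos_iff.2 (sub_ne_zero.2 hne))
      have h2 := jn_norm_sq_diff w ρ
      have h3 : 0 ≤ (1 - ‖ρ‖ ^ 2) * (1 - ‖w‖ ^ 2) := by
        apply mul_nonneg
        · nlinarith [norm_nonneg ρ]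
        · nlinarith [norm_nonneg w]
      exact (pow_le_pow_iff_left₀ (norm_nonneg _) (norm_nonneg _) two_ne_zero).1 (by linarith)
    · intro z _; fun_prop
    · intro z hz h0
      have hz1 : ‖z‖ ≤ 1 := by simpa using hz
      have : (starRingEnd ℂ) ρ * z = 1 := by linear_combination -h0
      have h4 := congrArg (‖·‖) this
      simp only [norm_mul, Complex.norm_conj, norm_one] at h4
      nlinarith [norm_nonneg ρ, norm_nonneg z]
  · have hρ : ρ ∈ sphere (0 : ℂ) 1 := by simpa using h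
    have := circleAverage_re_herglotzRieszKernel_mul_log hρ hw'
    rw [← poissonKernel_eq_re_herglotzRieszKernel] at this
    exact this.symm.le
  · rw [jn_avg_analytic (f := fun z => z - ρ) hw]
    · intro z _; fun_prop
    · intro z hz h0
      have hz1 : ‖z‖ ≤ 1 := by simpa using hz
      have : z = ρ := sub_eq_zero.1 h0
      rw [this] at hz1
      linarith

theorem jn_kernel_cont {w : ℂ} (hw : ‖w‖ < 1) :
    ContinuousOn (poissonKernel 0 w) (sphere (0 : ℂ) |1|) := by
  have hw' : w ∈ ball (0 : ℂ) 1 := by simpa using hw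
  rw [poissonKernel_eq_re_herglotzRieszKernel]
  exact Complex.continuous_re.comp_continuousOn (continuousOn_herglotzRieszKernel_sphere hw')

theorem jn_poly_int (P : ℂ[X]) : CircleIntegrable (fun z => Real.log ‖P.eval z‖) 0 1 := by
  apply MeromorphicOn.circleIntegrable_log_norm (f := fun z => P.eval z)
  intro z _
  exact (P.differentiable.analyticAt z).meromorphicAt

theorem jn_poly_le {w : ℂ} (hw : ‖w‖ < 1) (n : ℕ) : ∀ P : ℂ[X], P.natDegree = n → P.eval w ≠ 0 →
    Real.log ‖P.eval w‖ ≤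
      Real.circleAverage (poissonKernel 0 w • fun z => Real.log ‖P.eval z‖) 0 1 := by
  induction n with
  | zero =>
    intro P hP h0
    rw [jn_avg_analytic (f := fun z => P.eval z) hw]
    · intro z _; exact P.differentiable.analyticAt z
    · intro z _
      rw [Polynomial.eq_C_of_natDegree_eq_zero hP] at h0 ⊢
      simpa using h0
  | succ n ih =>
    intro P hP h0
    have hP0 : P ≠ 0 := by rintro rfl; simp at h0
    have hdeg : P.degree ≠ 0 := by
      rw [Polynomial.degree_eq_natDegree hP0, hP]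
      exact_mod_cast Nat.succ_ne_zero n
    obtain ⟨ρ, hρ⟩ := IsAlgClosed.exists_root P hdeg
    obtain ⟨Q, hQ⟩ := Polynomial.dvd_iff_isRoot.2 hρ
    have hQ0 : Q ≠ 0 := by rintro rfl; simp at hQ; exact hP0 hQ
    have hQd : Q.natDegree = n := by
      have := congrArg Polynomial.natDegree hQ
      rw [Polynomial.natDegree_mul (Polynomial.X_sub_C_ne_zero ρ) hQ0,
        Polynomial.natDegree_X_sub_C, hP] at this
      omega
    have hev : ∀ z, P.eval z = (z - ρ) * Q.eval z := by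
      intro z; rw [hQ]; simp
    have hw1 : w - ρ ≠ 0 := by
      intro h; rw [hev, h, zero_mul] at h0; exact h0 rfl
    have hw2 : Q.eval w ≠ 0 := by
      intro h; rw [hev, h, mul_zero] at h0; exact h0 rfl
    have e1 : Real.circleAverage (poissonKernel 0 w • fun z => Real.log ‖P.eval z‖) 0 1 =
        Real.circleAverage ((poissonKernel 0 w • fun z => Real.log ‖z - ρ‖) +
          (poissonKernel 0 w • fun z => Real.log ‖Q.eval z‖)) 0 1 := by
      apply Real.circleAverage_congr_codiscreteWithin _ one_ne_zero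
      have hfin : {z : ℂ | P.IsRoot z}.Finite := Polynomial.finite_setOfPred_isRoot hP0
      filter_upwards [compl_finite_mem_codiscreteWithin (s := sphere (0 : ℂ) |1|) hfin] with z hz
      have hz0 : P.eval z ≠ 0 := hz
      rw [hev] at hz0
      have a1 : z - ρ ≠ 0 := left_ne_zero_of_mul hz0
      have a2 : Q.eval z ≠ 0 := right_ne_zero_of_mul hz0
      simp only [Pi.smul_apply', Pi.add_apply, Pi.mul_apply, smul_eq_mul, hev, norm_mul]
      rw [Real.log_mul (norm_ne_zero_iff.2 a1) (norm_ne_zero_iff.2 a2)]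
      ring
    rw [e1, Real.circleAverage_add
      ((circleIntegrable_log_norm_sub_const 1).continuousOn_smul (jn_kernel_cont hw))
      ((jn_poly_int Q).continuousOn_smul (jn_kernel_cont hw)), hev, norm_mul,
      Real.log_mul (norm_ne_zero_iff.2 hw1) (norm_ne_zero_iff.2 hw2)]
    exact add_le_add (jn_root_le hw (sub_ne_zero.1 hw1)) (ih Q hQd hw2)

theorem jn_circleMap (θ : ℝ) : circleMap 0 1 θ = cexp (θ * I) := by
  simp [circleMap]

theorem jn_periodic (f : ℂ → ℝ) :
    Function.Periodic (fun θ : ℝ => f (circleMap 0 1 θ)) (2 * Real.pi) :=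
  fun x => by simp only [periodic_circleMap 0 1 x]

theorem jn_avg_eq (f : ℂ → ℝ) : Real.circleAverage f 0 1 =
    (2 * Real.pi)⁻¹ * ∫ θ in (-Real.pi)..Real.pi, f (circleMap 0 1 θ) := by
  rw [Real.circleAverage_def, smul_eq_mul]
  congr 1
  have := (jn_periodic f).intervalIntegral_add_eq 0 (-Real.pi)
  rw [zero_add, show -Real.pi + 2 * Real.pi = Real.pi by ring] at this
  exact this

theorem jn_int_shift {f : ℂ → ℝ} (hf : CircleIntegrable f 0 1) :
    IntervalIntegrable (fun θ : ℝ => f (circleMap 0 1 θ)) MeasureTheory.volume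
      (-Real.pi) Real.pi :=
  (jn_periodic f).intervalIntegrable₀ Real.two_pi_pos.ne' hf _ _

theorem jn_ker_eq (w : ℂ) (θ : ℝ) : poissonKernel 0 w (circleMap 0 1 θ) =
    (1 - ‖w‖ ^ 2) / ‖cexp (θ * I) - w‖ ^ 2 := by
  rw [jn_circleMap, poissonKernel_def]
  simp [Complex.norm_exp_ofReal_mul_I]

theorem jn_ker_continuous {w : ℂ} (hw : ‖w‖ < 1) :
    Continuous fun θ : ℝ => (1 - ‖w‖ ^ 2) / ‖cexp (θ * I) - w‖ ^ 2 := by
  apply Continuous.div continuous_const (by fun_prop)
  intro θ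
  apply pow_ne_zero
  rw [norm_ne_zero_iff, sub_ne_zero]
  intro h
  rw [← h, Complex.norm_exp_ofReal_mul_I] at hw
  exact lt_irrefl _ hw

theorem jensen_disc (N : ℕ) (d : ℕ → ℂ) {w : ℂ} (hw : ‖w‖ < 1) (g : ℝ → ℝ)
    (hg : IntervalIntegrable g MeasureTheory.volume (-Real.pi) Real.pi)
    (h : ∀ θ ∈ Set.Icc (-Real.pi) Real.pi,
      ‖∑ u ∈ Finset.range N, cexp (θ * I) ^ u * d u‖ ≤ Real.exp (g θ)) :
    ‖∑ u ∈ Finset.range N, w ^ u * d u‖ ≤ Real.exp ((2 * Real.pi)⁻¹ *
      ∫ θ in (-Real.pi)..Real.pi, (1 - ‖w‖ ^ 2) / ‖cexp (θ * I) - w‖ ^ 2 * g θ) := by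
  set P : ℂ[X] := ∑ u ∈ Finset.range N, Polynomial.monomial u (d u) with hPdef
  have hev : ∀ z, P.eval z = ∑ u ∈ Finset.range N, z ^ u * d u := by
    intro z
    rw [hPdef, Polynomial.eval_finsetSum]
    exact Finset.sum_congr rfl fun u _ => by rw [Polynomial.eval_monomial, mul_comm]
  rw [← hev]
  by_cases h0 : P.eval w = 0
  · rw [h0, norm_zero]; exact (Real.exp_pos _).le
  have hP0 : P ≠ 0 := by rintro hP; rw [hP] at h0; simp at h0
  rw [← Real.log_le_iff_le_exp (norm_pos_iff.2 h0)]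
  refine (jn_poly_le hw _ P rfl h0).trans ?_
  rw [jn_avg_eq]
  apply mul_le_mul_of_nonneg_left _ (inv_nonneg.2 Real.two_pi_pos.le)
  have hle : -Real.pi ≤ Real.pi := by linarith [Real.pi_pos]
  apply intervalIntegral.integral_mono_ae_restrict hle
  · exact jn_int_shift ((jn_poly_int P).continuousOn_smul (jn_kernel_cont hw))
  · exact hg.continuousOn_mul (jn_ker_continuous hw).continuousOn
  · have hfin : {z : ℂ | P.IsRoot z}.Finite := Polynomial.finite_setOfPred_isRoot hP0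
    have hc : ((circleMap 0 1) ⁻¹' {z : ℂ | P.IsRoot z}).Countable :=
      hfin.countable.preimage_circleMap 0 one_ne_zero
    have hae : ∀ᵐ θ : ℝ, θ ∉ (circleMap 0 1) ⁻¹' {z : ℂ | P.IsRoot z} :=
      hc.ae_notMem _
    filter_upwards [MeasureTheory.ae_restrict_of_ae hae,
      MeasureTheory.ae_restrict_mem measurableSet_Icc] with θ h1 h2
    have h3 : P.eval (circleMap 0 1 θ) ≠ 0 := h1
    simp only [Pi.smul_apply', smul_eq_mul]
    rw [jn_ker_eq]
    apply mul_le_mul_of_nonneg_left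
    · rw [Real.log_le_iff_le_exp (norm_pos_iff.2 h3), hev, jn_circleMap]
      exact h θ h2
    · apply div_nonneg _ (sq_nonneg _)
      nlinarith [norm_nonneg w]

theorem jn_cosh_le {η : ℝ} (hη : 0 ≤ η) : 2 * (Real.cosh η - 1) ≤ η * Real.sinh η := by
  -- with `η = 2t`: `4 sinh² t ≤ 4 t sinh t cosh t`, i.e. `sinh t ≤ t cosh t`
  have key : ∀ t : ℝ, 0 ≤ t → Real.sinh t ≤ t * Real.cosh t := by
    intro t ht
    have hd : ∀ x : ℝ, HasDerivAt (fun x => x * Real.cosh x - Real.sinh x) (x * Real.sinh x) x := by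
      intro x
      have := ((hasDerivAt_id' x).fun_mul (Real.hasDerivAt_cosh x)).fun_sub
        (Real.hasDerivAt_sinh x)
      exact this.congr_deriv (by ring)
    have hm : MonotoneOn (fun x => x * Real.cosh x - Real.sinh x) (Set.Ici 0) := by
      apply monotoneOn_of_deriv_nonneg (convex_Ici 0)
      · exact fun x _ => (hd x).continuousAt.continuousWithinAt
      · exact fun x _ => (hd x).differentiableAt.differentiableWithinAt
      · intro x hx
        rw [interior_Ici] at hx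
        rw [(hd x).deriv]
        exact mul_nonneg (le_of_lt hx) (Real.sinh_nonneg_iff.2 (le_of_lt hx))
    have := hm (Set.self_mem_Ici) ht ht
    simp at this
    linarith
  have h1 := key (η / 2) (by linarith)
  have h2 : Real.cosh η = 2 * Real.sinh (η / 2) ^ 2 + 1 := by
    have := Real.cosh_two_mul (η / 2)
    rw [show 2 * (η / 2) = η by ring, Real.cosh_sq] at this
    linarith
  have h3 : Real.sinh η = 2 * Real.sinh (η / 2) * Real.cosh (η / 2) := by
    have := Real.sinh_two_mul (η / 2)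
    rwa [show 2 * (η / 2) = η by ring] at this
  have h4 : 0 ≤ Real.sinh (η / 2) := Real.sinh_nonneg_iff.2 (by linarith)
  rw [h2, h3]
  nlinarith [mul_le_mul_of_nonneg_left h1 h4]

theorem jn_norm_w (η θ₀ : ℝ) : ‖cexp (θ₀ * I - η)‖ = Real.exp (-η) := by
  rw [Complex.norm_exp]
  simp

theorem jn_dist_sq (η θ θ₀ : ℝ) : ‖cexp (θ * I) - cexp (θ₀ * I - η)‖ ^ 2 =
    1 + Real.exp (-η) ^ 2 - 2 * Real.exp (-η) * Real.cos (θ - θ₀) := by
  have e : cexp (θ₀ * I - η) = (Real.exp (-η) : ℂ) * cexp (θ₀ * I) := by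
    rw [Complex.ofReal_exp, ← Complex.exp_add]
    congr 1
    push_cast; ring
  rw [e, ← Complex.normSq_eq_norm_sq, Complex.normSq_apply]
  simp only [sub_re, sub_im, mul_re, mul_im, ofReal_re, ofReal_im, exp_ofReal_mul_I_re,
    exp_ofReal_mul_I_im, Real.cos_sub]
  nlinarith [Real.sin_sq_add_cos_sq θ, Real.sin_sq_add_cos_sq θ₀]

theorem kernel_ge {η : ℝ} (hη : 0 < η) (θ θ₀ : ℝ) :
    2 * η / ((θ - θ₀) ^ 2 + η ^ 2) ≤
      (1 - ‖cexp (θ₀ * I - η)‖ ^ 2) / ‖cexp (θ * I) - cexp (θ₀ * I - η)‖ ^ 2 := by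
  rw [jn_norm_w, jn_dist_sq]
  set s := θ - θ₀
  set r := Real.exp (-η) with hr
  have hr0 : 0 < r := Real.exp_pos _
  have hri : r * Real.exp η = 1 := by rw [hr, ← Real.exp_add]; simp
  have hs : 1 - r ^ 2 = 2 * r * Real.sinh η := by
    rw [Real.sinh_eq, ← hr]; linear_combination -hri
  have hc : 1 + r ^ 2 = 2 * r * Real.cosh η := by
    rw [Real.cosh_eq, ← hr]; linear_combination -hri
  have hcos : 1 - s ^ 2 / 2 ≤ Real.cos s := Real.one_sub_sq_div_two_le_cos
  have hsinh : η ≤ Real.sinh η := Real.self_le_sinh_iff.2 hη.le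
  have hch := jn_cosh_le hη.le
  have hch1 : 1 < Real.cosh η := Real.one_lt_cosh.2 hη.ne'
  have hD : 0 < Real.cosh η - Real.cos s := by linarith [Real.cos_le_one s]
  have e2 : 1 + r ^ 2 - 2 * r * Real.cos s = 2 * r * (Real.cosh η - Real.cos s) := by
    rw [hc]; ring
  rw [hs, e2, mul_div_mul_left _ _ (by positivity : (2 * r) ≠ 0),
    div_le_div_iff₀ (by positivity) hD]
  have a1 : 2 * η * (Real.cosh η - Real.cos s) ≤ η * (η * Real.sinh η) + η * s ^ 2 := by
    have : 2 * (Real.cosh η - Real.cos s) ≤ η * Real.sinh η + s ^ 2 := by linarith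
    nlinarith [mul_le_mul_of_nonneg_left this hη.le]
  have a2 : η * s ^ 2 ≤ Real.sinh η * s ^ 2 := mul_le_mul_of_nonneg_right hsinh (sq_nonneg _)
  nlinarith

/-- half-plane form, for nonpositive `g` -/
theorem jensen_half (N : ℕ) (d : ℕ → ℂ) {η : ℝ} (hη : 0 < η) (θ₀ : ℝ) (g : ℝ → ℝ)
    (hg : IntervalIntegrable g MeasureTheory.volume (-Real.pi) Real.pi)
    (hg0 : ∀ θ, g θ ≤ 0)
    (h : ∀ θ ∈ Set.Icc (-Real.pi) Real.pi,
      ‖∑ u ∈ Finset.range N, cexp ((θ * I) * u) * d u‖ ≤ Real.exp (g θ)) :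
    ‖∑ u ∈ Finset.range N, cexp ((θ₀ * I - η) * u) * d u‖ ≤ Real.exp
      (∫ θ in (-Real.pi)..Real.pi, η / (Real.pi * ((θ - θ₀) ^ 2 + η ^ 2)) * g θ) := by
  have hw : ‖cexp (θ₀ * I - η)‖ < 1 := by
    rw [jn_norm_w, Real.exp_lt_one_iff]; linarith
  have hp : ∀ (z : ℂ) (u : ℕ), cexp (z * u) = cexp z ^ u := by
    intro z u; rw [mul_comm, Complex.exp_nat_mul]
  simp only [hp] at h ⊢
  refine (jensen_disc N d hw g hg h).trans (Real.exp_le_exp.2 ?_)
  rw [← intervalIntegral.integral_const_mul]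
  have hle : -Real.pi ≤ Real.pi := by linarith [Real.pi_pos]
  apply intervalIntegral.integral_mono_on hle
  · exact (hg.continuousOn_mul (jn_ker_continuous hw).continuousOn).const_mul _
  · apply hg.continuousOn_mul
    apply Continuous.continuousOn
    apply Continuous.div continuous_const (by fun_prop)
    intro θ
    have := Real.pi_pos
    positivity
  · intro θ _
    rw [← mul_assoc]
    apply mul_le_mul_of_nonpos_right _ (hg0 θ)
    have hk := kernel_ge hη θ θ₀
    have hpi := Real.pi_pos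
    calc η / (Real.pi * ((θ - θ₀) ^ 2 + η ^ 2))
        = (2 * Real.pi)⁻¹ * (2 * η / ((θ - θ₀) ^ 2 + η ^ 2)) := by
          field_simp
      _ ≤ _ := mul_le_mul_of_nonneg_left hk (by positivity)

end Crest.Agent.R300
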