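import Crest.Agent.R300.GBasic

/-!
# Row 300: three-lines continuation out of the disc `{‖z - q‖ ≤ p}`.

Cayley coordinate `s = (1+z)/(1-z)`, `z = (s-1)/(s+1)`; `re s = (1-‖z‖²)/‖1-z‖²` (`reS`).
`‖z - q‖ ≤ p` holds when `re s ≥ q/p` (`disc_of_reS`); `‖z‖ < 1` when `re s > 0`, and
`1 - ‖z‖² = 4 re s / ‖s+1‖²`.

`region_reS`: `reS (exp(iθ-γ)) = sinh γ/(cosh γ - cos θ)`.  If `γ ≥ 1/B` it is
`≥ (1-r)/(1+r)` with `r = e^{-γ} ≤ 1/(1+γ)`, i.e. `≥ γ/(2+γ) ≥ 1/(2B+1)`.  If `γ < 1/B ≤ 1`: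
`‖1-z‖² = (1-r)² + 2r(1-cos θ) ≤ (1-r)² + rθ²`, `θ² ≤ 2Aγ + 2B²γ² ≤ 4Bγ`, `1-r² ≥ (1-r)(1+r)`,
`γ r ≤ 1 - r`; so `reS ≥ (1+r)/((1-r) + 4B) ≥ 1/(4B+1)`.

`strip`: put `c = 2q/p`, `s_a(w) = s_a + c (w - m)`, `z_a(w) = (s_a(w)-1)/(s_a(w)+1)` (same for
`z0`), `Φ(w) = F(z0(w), L(w)) ∏_a ((s_a+1)/(s_a(w)+1))²` with `L(w) = L.map (z_a(w), a.2)`.
On the closed strip `0 ≤ re w ≤ 1`: `re s_a(w) ≥ re s_a / 2 > 0`, so `Φ` is holomorphic near it
(`G` is a polynomial in the variables: induction on `L`), and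
`‖Φ‖ ≤ 2n ∏ ‖s_a+1‖²/(2 re s_a(w)) ≤ 2n 4^k / nu L` by `hbad`; on `re w = 1`, `hgood` gives
`‖Φ‖ ≤ ε₁ ∏ ‖s_a+1‖² ≤ ε₁ 4^k / (nu L)²` (`‖s_a + 1‖ = 2/‖1-v‖`, `‖s_a(w)+1‖ ≥ 1`).  Apply
`Complex.HadamardThreeLines.norm_le_interp_of_mem_verticalClosedStrip₀₁'` at `w = m`.
-/

set_option autoImplicit false

namespace Crest.Agent.R300

open Complex

noncomputable def reS (z : ℂ) : ℝ := (1 - ‖z‖ ^ 2) / ‖1 - z‖ ^ 2

theorem region_reS {B γ0 A : ℝ} (h0 : 0 < γ0) (hA0 : 0 ≤ A) (hA : A ≤ B) (hB : 1 ≤ B) {v : ℂ}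
    (h : InZ B γ0 A v) : 1 / (5 * B) ≤ reS v := by
  obtain ⟨θ, γ, rfl, hγ, hθ⟩ := h
  have hγ0 : 0 < γ := h0.trans_le hγ
  set r : ℝ := Real.exp (-γ) with hr
  have hr0 : 0 < r := Real.exp_pos _
  have hr1 : r * (1 + γ) ≤ 1 := by
    have h1 := Real.add_one_le_exp γ
    have h2 : r * Real.exp γ = 1 := by rw [hr, ← Real.exp_add]; simp
    nlinarith
  have hrl : r < 1 := by nlinarith
  have hre : (cexp (θ * I - γ)).re = r * Real.cos θ := by simp [exp_re, hr]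
  have hn : ‖cexp (θ * I - γ)‖ = r := by simp [norm_exp, hr]
  have hN : ‖1 - cexp (θ * I - γ)‖ ^ 2 = 1 - 2 * (r * Real.cos θ) + r ^ 2 := by
    rw [← hre, ← hn, Complex.sq_norm, Complex.sq_norm, normSq_apply, normSq_apply]
    simp only [sub_re, one_re, sub_im, one_im]
    ring
  have hc1 := Real.cos_le_one θ
  have hc2 := Real.neg_one_le_cos θ
  have hc3 := Real.one_sub_sq_div_two_le_cos (x := θ)
  have hpos : 0 < 1 - 2 * (r * Real.cos θ) + r ^ 2 := by nlinarith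
  rw [reS, hN, hn, div_le_div_iff₀ (by positivity) hpos]
  rcases le_total 1 (γ * B) with hb | hb
  · have h1 : 1 ≤ 2 * B * (1 - r) := by nlinarith
    have h2 : 1 + r ≤ (1 - r) * (5 * B) := by nlinarith
    have h3 : (1 + r) * (1 + r) ≤ (1 + r) * ((1 - r) * (5 * B)) :=
      mul_le_mul_of_nonneg_left h2 (by positivity)
    nlinarith
  · have hs : √(A * γ) ^ 2 = A * γ := Real.sq_sqrt (by positivity)
    have h1 : θ ^ 2 ≤ (√(A * γ) + B * γ) ^ 2 := by
      rw [← sq_abs θ]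
      exact pow_le_pow_left₀ (abs_nonneg _) hθ 2
    have h2 : (B * γ) ^ 2 ≤ B * γ := by
      have : 0 ≤ B * γ := by positivity
      nlinarith
    have h3 : θ ^ 2 ≤ 4 * (B * γ) := by
      nlinarith [sq_nonneg (√(A * γ) - B * γ), mul_le_mul_of_nonneg_right hA hγ0.le]
    have h4 : r * θ ^ 2 ≤ 4 * B * (1 - r) := by
      have h5 : r * θ ^ 2 ≤ r * (4 * (B * γ)) := mul_le_mul_of_nonneg_left h3 hr0.le
      have h6 : 4 * B * (r * γ) ≤ 4 * B * (1 - r) :=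
        mul_le_mul_of_nonneg_left (by linarith) (by positivity)
      nlinarith
    have h5 : 2 * r * (1 - Real.cos θ) ≤ r * θ ^ 2 := by nlinarith
    have h6 : (1 - r) * (1 - r) ≤ (1 - r) * B :=
      mul_le_mul_of_nonneg_left (by linarith) (by linarith)
    have h7 : 0 ≤ (1 - r) * r * B := mul_nonneg (mul_nonneg (by linarith) hr0.le) (by linarith)
    nlinarith

theorem Strip_ne {v : ℂ} (hv : ‖v‖ < 1) : 1 - v ≠ 0 := by
  intro h
  rw [← sub_eq_zero.1 h] at hv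
  simp at hv

theorem Strip_re {v : ℂ} (hv : ‖v‖ < 1) : (2 / (1 - v)).re = 1 + reS v := by
  have h : normSq (1 - v) ≠ 0 := by simpa using Strip_ne hv
  rw [reS, Complex.sq_norm, Complex.sq_norm, div_re]
  field_simp
  simp only [normSq_apply, sub_re, one_re, sub_im, one_im, re_ofNat, im_ofNat]
  ring

theorem Strip_sq {S : ℂ} (hS : S ≠ 0) (p : ℝ) :
    ‖(p : ℂ) - 2 / S‖ ^ 2 * ‖S‖ ^ 2 = p ^ 2 * ‖S‖ ^ 2 - 4 * (p * S.re - 1) := by
  rw [← mul_pow, ← norm_mul, sub_mul, div_mul_cancel₀ _ hS, Complex.sq_norm, Complex.sq_norm]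
  simp only [normSq_apply, sub_re, mul_re, ofReal_re, ofReal_im, re_ofNat, sub_im, mul_im, im_ofNat]
  ring

theorem Strip_disc {S : ℂ} {p : ℝ} (hp : 0 < p) (hS : 1 ≤ p * S.re) :
    ‖1 - 2 / S - (1 - p : ℝ)‖ ≤ p := by
  have h0 : S ≠ 0 := by
    rintro rfl
    simp at hS
    linarith
  have h1 := Strip_sq h0 p
  have h2 : 0 < ‖S‖ ^ 2 := by positivity
  rw [show 1 - 2 / S - (1 - p : ℝ) = p - 2 / S by push_cast; ring]
  refine le_of_pow_le_pow_left₀ two_ne_zero hp.le ?_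
  exact le_of_mul_le_mul_right (by linarith) h2

/-- Cayley coordinate (plus one) along the path -/
noncomputable def StripS (c m : ℝ) (v w : ℂ) : ℂ := 2 / (1 - v) + c * (w - m)

/-- the path of a variable -/
noncomputable def StripZ (c m : ℝ) (v w : ℂ) : ℂ := 1 - 2 / StripS c m v w

/-- the damping weight -/
noncomputable def StripW (c m : ℝ) (v w : ℂ) : ℂ := (2 / (1 - v) / StripS c m v w) ^ 2

theorem StripS_re {c m : ℝ} {v : ℂ} (hv : ‖v‖ < 1) (w : ℂ) :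
    (StripS c m v w).re = 1 + reS v + c * (w.re - m) := by
  rw [StripS, add_re, Strip_re hv]
  simp

theorem StripZ_mid {c m : ℝ} {v : ℂ} (hv : ‖v‖ < 1) : StripZ c m v m = v := by
  have := Strip_ne hv
  simp only [StripZ, StripS, sub_self, mul_zero, add_zero]
  field_simp
  ring

theorem StripW_mid {c m : ℝ} {v : ℂ} (hv : ‖v‖ < 1) : StripW c m v m = 1 := by
  have := Strip_ne hv
  simp only [StripW, StripS, sub_self, mul_zero, add_zero]
  field_simp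

section

variable {c m κ : ℝ} {v w : ℂ}

theorem StripS_ge (hc : 0 ≤ c) (hcm : 2 * (c * m) ≤ κ) (hv : ‖v‖ < 1) (hκ : κ ≤ reS v)
    (hw : 0 ≤ w.re) : 1 + reS v / 2 ≤ (StripS c m v w).re := by
  rw [StripS_re hv]
  nlinarith [mul_nonneg hc hw]

theorem StripS_ne (hS : 1 + reS v / 2 ≤ (StripS c m v w).re) (h0 : 0 < reS v) :
    StripS c m v w ≠ 0 := by
  intro h
  rw [h, zero_re] at hS
  linarith

theorem StripZ_diff (hS : StripS c m v w ≠ 0) : DifferentiableAt ℂ (StripZ c m v) w := by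
  unfold StripZ
  refine (differentiableAt_const _).sub ((differentiableAt_const _).div ?_ hS)
  unfold StripS
  fun_prop

theorem StripW_diff (hS : StripS c m v w ≠ 0) : DifferentiableAt ℂ (StripW c m v) w := by
  unfold StripW
  refine ((differentiableAt_const _).div ?_ hS).pow 2
  unfold StripS
  fun_prop

theorem StripZ_lt (hS : 1 + reS v / 2 ≤ (StripS c m v w).re) (h0 : 0 < reS v) :
    ‖StripZ c m v w‖ < 1 := by
  have h1 := Strip_sq (StripS_ne hS h0) 1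
  have h2 : 0 < ‖StripS c m v w‖ ^ 2 := by have := StripS_ne hS h0; positivity
  rw [ofReal_one] at h1
  have h3 : ‖StripZ c m v w‖ ^ 2 < 1 ^ 2 := lt_of_mul_lt_mul_right (by rw [StripZ]; linarith) h2.le
  exact lt_of_pow_lt_pow_left₀ 2 zero_le_one h3

theorem StripW_norm (hS : StripS c m v w ≠ 0) (hv : ‖v‖ < 1) :
    ‖StripW c m v w‖ * (‖1 - v‖ ^ 2 * ‖StripS c m v w‖ ^ 2) = 4 := by
  have h1 : ‖1 - v‖ ≠ 0 := by simpa using Strip_ne hv
  have h2 : ‖StripS c m v w‖ ≠ 0 := by simpa using hS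
  rw [StripW, norm_pow, norm_div, norm_div]
  field_simp
  norm_num

theorem StripW_A (hS : 1 + reS v / 2 ≤ (StripS c m v w).re) (h0 : 0 < reS v) (hv : ‖v‖ < 1) :
    ‖StripW c m v w‖ * (1 - ‖v‖) ≤ 4 * (1 - ‖StripZ c m v w‖) := by
  have hne := StripS_ne hS h0
  have h1 := Strip_sq hne 1
  have h2 : 0 < ‖StripS c m v w‖ ^ 2 := by positivity
  have h3 : 0 < ‖1 - v‖ ^ 2 := by have := Strip_ne hv; positivity
  have h4 := StripW_norm hne hv
  have h5 : reS v * ‖1 - v‖ ^ 2 = 1 - ‖v‖ ^ 2 := by rw [reS, div_mul_cancel₀ _ h3.ne']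
  have h6 := StripZ_lt hS h0
  rw [ofReal_one, ← StripZ] at h1
  refine le_of_mul_le_mul_right ?_ (mul_pos h3 h2)
  have h7 : reS v ≤ (1 - ‖StripZ c m v w‖) * ‖StripS c m v w‖ ^ 2 := by
    have h8 : (1 - ‖StripZ c m v w‖ ^ 2) ≤ 2 * (1 - ‖StripZ c m v w‖) := by nlinarith
    nlinarith [mul_le_mul_of_nonneg_right h8 h2.le]
  have h8 := mul_le_mul_of_nonneg_right h7 h3.le
  have h9 : 1 - ‖v‖ ≤ 1 - ‖v‖ ^ 2 := by nlinarith [norm_nonneg v]
  calc _ = ‖StripW c m v w‖ * (‖1 - v‖ ^ 2 * ‖StripS c m v w‖ ^ 2) * (1 - ‖v‖) := by ring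
    _ ≤ _ := by rw [h4]; nlinarith

theorem StripW_B (hS : 1 + reS v / 2 ≤ (StripS c m v w).re) (h0 : 0 < reS v) (hv : ‖v‖ < 1) :
    ‖StripW c m v w‖ * (1 - ‖v‖) ^ 2 ≤ 4 := by
  rw [← StripW_norm (StripS_ne hS h0) hv]
  refine mul_le_mul_of_nonneg_left ?_ (norm_nonneg _)
  have h1 : 1 - ‖v‖ ≤ ‖1 - v‖ := by simpa using norm_sub_norm_le (1 : ℂ) v
  have h2 : 1 ≤ ‖StripS c m v w‖ := by linarith [re_le_norm (StripS c m v w)]
  have h3 : (1 - ‖v‖) ^ 2 ≤ ‖1 - v‖ ^ 2 := pow_le_pow_left₀ (by linarith) h1 2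
  exact h3.trans (le_mul_of_one_le_right (by positivity) (one_le_pow₀ h2))

end

theorem Strip_G_diff {z : ℂ → ℂ} {ζ : Atom → ℂ → ℂ} {w : ℂ} (hz : DifferentiableAt ℂ z w)
    (y : ℕ → Bool) (L : List Atom) (hL : ∀ a ∈ L, DifferentiableAt ℂ (ζ a) w) (j : ℕ) :
    DifferentiableAt ℂ (fun w => G (z w) (L.map fun a => (ζ a w, a.2)) y j) w := by
  induction L generalizing j with
  | nil => exact hz.pow j
  | cons a L ih =>
    simp only [List.map_cons, G]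
    refine DifferentiableAt.fun_sum fun i _ => ?_
    exact (((hL a (by simp)).pow _).mul_const _).mul
      (ih (fun b hb => hL b (List.mem_cons_of_mem _ hb)) i)

theorem Strip_prod_diff {ω : Atom → ℂ → ℂ} {w : ℂ} (L : List Atom)
    (hL : ∀ a ∈ L, DifferentiableAt ℂ (ω a) w) :
    DifferentiableAt ℂ (fun w => (L.map fun a => ω a w).prod) w := by
  induction L with
  | nil => simp
  | cons a L ih =>
    simp only [List.map_cons, List.prod_cons]
    exact (hL a (by simp)).mul (ih fun b hb => hL b (List.mem_cons_of_mem _ hb))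

theorem Strip_prod_le {ω : Atom → ℂ} {f g : Atom → ℝ} (L : List Atom)
    (hL : ∀ a ∈ L, 0 ≤ f a ∧ ‖ω a‖ * f a ≤ 4 * g a) :
    0 ≤ (L.map f).prod ∧ ‖(L.map ω).prod‖ * (L.map f).prod ≤ 4 ^ L.length * (L.map g).prod := by
  induction L with
  | nil => simp
  | cons a L ih =>
    obtain ⟨h1, h2⟩ := ih fun b hb => hL b (List.mem_cons_of_mem _ hb)
    obtain ⟨h3, h4⟩ := hL a (by simp)
    simp only [List.map_cons, List.prod_cons, List.length_cons, norm_mul]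
    refine ⟨mul_nonneg h3 h1, ?_⟩
    calc _ = (‖ω a‖ * f a) * (‖(L.map ω).prod‖ * (L.map f).prod) := by ring
      _ ≤ (4 * g a) * (4 ^ L.length * (L.map g).prod) :=
        mul_le_mul h4 h2 (by positivity) ((by positivity : 0 ≤ ‖ω a‖ * f a).trans h4)
      _ = _ := by ring

theorem Strip_nu_ge {δ : ℝ} (hδ : 0 ≤ δ) (L : List Atom) (hL : ∀ a ∈ L, δ ≤ 1 - ‖a.1‖) :
    δ ^ L.length ≤ nu L := by
  induction L with
  | nil => simp [nu]
  | cons a L ih =>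
    rw [nu_cons, List.length_cons, pow_succ']
    exact mul_le_mul (hL a (by simp)) (ih fun b hb => hL b (List.mem_cons_of_mem _ hb))
      (by positivity) (hδ.trans (hL a (by simp)))

theorem Strip_nu_sq (L : List Atom) : (L.map fun a => (1 - ‖a.1‖) ^ 2).prod = nu L ^ 2 := by
  induction L with
  | nil => simp [nu]
  | cons a L ih => rw [nu_cons, List.map_cons, List.prod_cons, ih, mul_pow]

theorem strip {n : ℕ} (hn : 1 ≤ n) (μ : (Fin n → Bool) → ℝ) (x : Fin n → Bool) (a0 : Atom)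
    {p ε₁ κ δ m : ℝ} (hp : 0 < p) (hp1 : p < 1) (hε : 0 ≤ ε₁) (hκ : 0 < κ) (hδ : 0 < δ)
    (hm : 0 < m) (hm1 : m ≤ 1 / 2) (hmκ : m * (4 * (1 - p) / p) ≤ κ) (z0 : ℂ) (L : List Atom)
    (hbad : ∀ (z : ℂ) (L' : List Atom), ‖z‖ ≤ 1 → (∀ a ∈ L', ‖a.1‖ < 1) →
      L'.map Prod.snd = L.map Prod.snd →
      ‖Dl μ x (fun y => G z (a0 :: L') (yb y) n)‖ ≤ 2 * n / nu L')
    (hgood : ∀ (z : ℂ) (L' : List Atom), ‖z - (1 - p : ℝ)‖ ≤ p →
      (∀ a ∈ L', ‖a.1 - (1 - p : ℝ)‖ ≤ p) → L'.map Prod.snd = L.map Prod.snd →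
      ‖Dl μ x (fun y => G z (a0 :: L') (yb y) n)‖ ≤ ε₁)
    (hz : ‖z0‖ < 1) (hzκ : κ ≤ reS z0)
    (hL : ∀ a ∈ L, δ ≤ 1 - ‖a.1‖ ∧ κ ≤ reS a.1) :
    nu L * ‖Dl μ x (fun y => G z0 (a0 :: L) (yb y) n)‖ ≤
      2 * n * 4 ^ L.length * (ε₁ * (4 / δ) ^ L.length) ^ m := by
  set c : ℝ := 2 * (1 - p) / p with hc
  have hc0 : 0 ≤ c := by have : 0 ≤ 1 - p := by linarith
                         positivity
  have hcm : 2 * (c * m) ≤ κ := by
    refine le_trans (le_of_eq ?_) hmκ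
    rw [hc]
    ring
  have hL1 : ∀ a ∈ L, ‖a.1‖ < 1 := fun a ha => by linarith [(hL a ha).1]
  have hL0 : ∀ a ∈ L, 0 < reS a.1 := fun a ha => hκ.trans_le (hL a ha).2
  have hS0 : ∀ w : ℂ, 0 ≤ w.re → 1 + reS z0 / 2 ≤ (StripS c m z0 w).re := fun w hw =>
    StripS_ge hc0 hcm hz hzκ hw
  have hS : ∀ w : ℂ, 0 ≤ w.re → ∀ a ∈ L, 1 + reS a.1 / 2 ≤ (StripS c m a.1 w).re :=
    fun w hw a ha => StripS_ge hc0 hcm (hL1 a ha) (hL a ha).2 hw
  have hz0 : 0 < reS z0 := hκ.trans_le hzκ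
  have hnu := nu_pos hL1
  set Lw : ℂ → List Atom := fun w => L.map fun a => (StripZ c m a.1 w, a.2) with hLw
  have hsnd : ∀ w, (Lw w).map Prod.snd = L.map Prod.snd := fun w => by
    simp [hLw, Function.comp_def]
  set Φ : ℂ → ℂ := fun w => Dl μ x (fun y => G (StripZ c m z0 w) (a0 :: Lw w) (yb y) n) *
    (L.map fun a => StripW c m a.1 w).prod with hΦ
  have hdiff : ∀ w : ℂ, 0 ≤ w.re → DifferentiableAt ℂ Φ w := by
    intro w hw
    refine DifferentiableAt.mul ?_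
      (Strip_prod_diff (ω := fun a => StripW c m a.1) L fun a ha =>
        StripW_diff (StripS_ne (hS w hw a ha) (hL0 a ha)))
    have h1 : ∀ y, DifferentiableAt ℂ (fun w => G (StripZ c m z0 w) (a0 :: Lw w) y n) w := by
      intro y
      simp only [G]
      refine DifferentiableAt.fun_sum fun i _ => DifferentiableAt.const_mul ?_ _
      exact Strip_G_diff (ζ := fun a => StripZ c m a.1) (StripZ_diff (StripS_ne (hS0 w hw) hz0)) y L
        (fun a ha => StripZ_diff (StripS_ne (hS w hw a ha) (hL0 a ha))) i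
    simp only [Dl, Et]
    exact (DifferentiableAt.fun_sum fun y _ => (h1 _).const_mul _).sub (h1 _)
  have hA : ∀ w : ℂ, 0 ≤ w.re → ‖Φ w‖ ≤ 2 * n * 4 ^ L.length / nu L := by
    intro w hw
    have h1 : ∀ a ∈ Lw w, ‖a.1‖ < 1 := by
      simp only [hLw, List.mem_map]
      rintro _ ⟨a, ha, rfl⟩
      exact StripZ_lt (hS w hw a ha) (hL0 a ha)
    have h2 := hbad _ _ (StripZ_lt (hS0 w hw) hz0).le h1 (hsnd w)
    have h3 := (Strip_prod_le (ω := fun a => StripW c m a.1 w) (f := fun a => 1 - ‖a.1‖)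
      (g := fun a => 1 - ‖StripZ c m a.1 w‖) L fun a ha =>
        ⟨by linarith [hL1 a ha], StripW_A (hS w hw a ha) (hL0 a ha) (hL1 a ha)⟩).2
    have h4 : (L.map fun a => 1 - ‖StripZ c m a.1 w‖).prod = nu (Lw w) := by
      simp [hLw, nu, Function.comp_def]
    have h5 := nu_pos h1
    rw [h4, ← nu] at h3
    rw [le_div_iff₀ h5] at h2
    rw [le_div_iff₀ hnu, hΦ]
    simp only [norm_mul]
    calc _ ≤ ‖Dl μ x (fun y => G (StripZ c m z0 w) (a0 :: Lw w) (yb y) n)‖ *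
          (4 ^ L.length * nu (Lw w)) := by
          rw [mul_assoc]
          exact mul_le_mul_of_nonneg_left h3 (norm_nonneg _)
      _ = ‖Dl μ x (fun y => G (StripZ c m z0 w) (a0 :: Lw w) (yb y) n)‖ * nu (Lw w) *
          4 ^ L.length := by ring
      _ ≤ _ := mul_le_mul_of_nonneg_right h2 (by positivity)
  have hB : ∀ w : ℂ, w.re = 1 → ‖Φ w‖ ≤ ε₁ * 4 ^ L.length / nu L ^ 2 := by
    intro w hw
    have hw0 : 0 ≤ w.re := by rw [hw]; norm_num
    have h0 : ∀ v : ℂ, ‖v‖ < 1 → 0 < reS v → ‖StripZ c m v w - (1 - p : ℝ)‖ ≤ p := by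
      intro v hv hv0
      refine Strip_disc hp ?_
      rw [StripS_re hv, hw]
      have h1 : p * c = 2 * (1 - p) := by rw [hc]; field_simp
      nlinarith [mul_pos hp hv0, mul_nonneg (sub_nonneg.2 hp1.le) (sub_nonneg.2 hm1)]
    have h2 := hgood _ (Lw w) (h0 z0 hz hz0) (by
      simp only [hLw, List.mem_map]
      rintro _ ⟨a, ha, rfl⟩
      exact h0 _ (hL1 a ha) (hL0 a ha)) (hsnd w)
    have h3 := (Strip_prod_le (ω := fun a => StripW c m a.1 w) (f := fun a => (1 - ‖a.1‖) ^ 2)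
      (g := fun _ => 1) L fun a ha =>
        ⟨by positivity, by simpa using StripW_B (hS w hw0 a ha) (hL0 a ha) (hL1 a ha)⟩).2
    rw [Strip_nu_sq, List.map_const', List.prod_replicate, one_pow, mul_one] at h3
    rw [le_div_iff₀ (by positivity), hΦ]
    simp only [norm_mul]
    rw [mul_assoc]
    exact mul_le_mul h2 h3 (by positivity) hε
  have hmain := HadamardThreeLines.norm_le_interp_of_mem_verticalClosedStrip₀₁' Φ (z := m)
    (a := 2 * n * 4 ^ L.length / nu L) (b := ε₁ * 4 ^ L.length / nu L ^ 2)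
    ⟨by simpa using hm.le, by simp; linarith⟩
    (DifferentiableOn.diffContOnCl fun w hw => (hdiff w (closure_minimal (t := {w : ℂ | 0 ≤ w.re})
      (fun u hu => hu.1.le) (isClosed_le continuous_const continuous_re) hw)).differentiableWithinAt)
    ⟨_, by rintro _ ⟨w, hw, rfl⟩; exact hA w hw.1⟩
    (fun w hw => hA w (le_of_eq (Eq.symm hw))) (fun w hw => hB w hw)
  have hmid : Φ m = Dl μ x (fun y => G z0 (a0 :: L) (yb y) n) := by
    have h1 : Lw m = L := by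
      rw [hLw]
      exact (List.map_congr_left fun a ha => by rw [StripZ_mid (hL1 a ha)]).trans (List.map_id' L)
    have h2 : (L.map fun a => StripW c m a.1 m).prod = 1 :=
      List.prod_eq_one fun u hu => by
        obtain ⟨a, ha, rfl⟩ := List.mem_map.1 hu
        exact StripW_mid (hL1 a ha)
    simp only [hΦ, h1, h2, StripZ_mid hz, mul_one]
  rw [hmid, ofReal_re] at hmain
  have hn1 : (1 : ℝ) ≤ 2 * n * 4 ^ L.length := by
    have h1 : (1 : ℝ) ≤ n := by exact_mod_cast hn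
    have h2 : (1 : ℝ) ≤ 4 ^ L.length := one_le_pow₀ (by norm_num)
    nlinarith
  have hδL := Strip_nu_ge hδ.le L fun a ha => (hL a ha).1
  calc _ ≤ nu L * ((2 * n * 4 ^ L.length / nu L) ^ (1 - m) * (ε₁ * 4 ^ L.length / nu L ^ 2) ^ m) :=
        mul_le_mul_of_nonneg_left hmain hnu.le
    _ = (nu L * (2 * n * 4 ^ L.length / nu L)) ^ (1 - m) *
        (nu L * (ε₁ * 4 ^ L.length / nu L ^ 2)) ^ m := by
        rw [Real.mul_rpow hnu.le (by positivity), Real.mul_rpow hnu.le (by positivity),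
          mul_mul_mul_comm, ← Real.rpow_add hnu, sub_add_cancel, Real.rpow_one]
    _ ≤ _ := by
        refine mul_le_mul ?_ (Real.rpow_le_rpow (by positivity) ?_ hm.le) (by positivity)
          (by positivity)
        · rw [mul_div_cancel₀ _ hnu.ne']
          exact Real.rpow_le_self_of_one_le hn1 (by linarith)
        · rw [show nu L * (ε₁ * 4 ^ L.length / nu L ^ 2) = ε₁ * (4 ^ L.length / nu L) by
            field_simp, div_pow]
          gcongr

end Crest.Agent.R300
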