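import Crest.Agent.R300.Shuffle

/-!
# Row 300: closure properties of `URep`.

List bookkeeping: `URep.mul` uses the list `l₁.flatMap fun m₁ => l₂.flatMap fun m₂ =>
(sh m₁.2.2 m₂.2.2).map fun M => (m₁.1 * m₂.1, φ₁φ₂, M)` and the lemmas of `Shuffle`.
`URep.trail`: `∑_{j<J} v^(J-1-j) feat φ L y j = G 1 ((v,φ)::L) y J = feat 1 ((v,φ)::L) y J`.
`URep.Dl_le`: `PD.Et_G_le` with `S = {j}` (or `∅` if `n ≤ j`) and `norm_G_le`.
`Hyp.scale`: apply the hypothesis to `Ψ / c`.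
-/

set_option autoImplicit false

namespace Crest.Agent.R300

open Complex ComplexConjugate

variable {B γ0 A : ℝ} {k : ℕ} {c : ℝ} {Ψ : (ℕ → Bool) → ℕ → ℂ}

theorem ur_nu_pos {L : List Atom} (h : Ok B γ0 A L) (h0 : 0 < γ0) : 0 < nu L :=
  nu_pos fun a ha => (h.small h0 a ha).1

theorem ur_norm_feat {φ : Bool → ℂ} {L : List Atom} (hφ : ∀ b, ‖φ b‖ ≤ 1) (h : Ok B γ0 A L)
    (h0 : 0 < γ0) (y : ℕ → Bool) (j : ℕ) : ‖feat φ L y j‖ ≤ 1 / nu L := by
  rw [feat, norm_mul]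
  exact (mul_le_of_le_one_left (norm_nonneg _) (hφ _)).trans
    (norm_G_le (by simp) (h.small h0) y j)

theorem ur_swap {ι α : Type} (s : Finset ι) (l : List α) (f : ι → α → ℂ) :
    ∑ i ∈ s, (l.map fun a => f i a).sum = (l.map fun a => ∑ i ∈ s, f i a).sum := by
  induction l with
  | nil => simp
  | cons a l ih => simp only [List.map_cons, List.sum_cons, Finset.sum_add_distrib, ih]

theorem ur_norm_le {α : Type} (l : List α) {f : α → ℂ} {g : α → ℝ} (h : ∀ a ∈ l, ‖f a‖ ≤ g a) :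
    ‖(l.map f).sum‖ ≤ (l.map g).sum := by
  induction l with
  | nil => simp
  | cons a l ih =>
    simp only [List.map_cons, List.sum_cons]
    exact (norm_add_le _ _).trans (add_le_add (h a List.mem_cons_self)
      (ih fun b hb => h b (List.mem_cons_of_mem _ hb)))

theorem ur_Jun_list {α : Type} {n d : ℕ} (l : List α) {f : α → (Fin n → Bool) → ℂ}
    (h : ∀ a ∈ l, f a ∈ Jun n d) : (fun y => (l.map fun a => f a y).sum) ∈ Jun n d := by
  induction l with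
  | nil => exact (Jun n d).zero_mem
  | cons a l ih =>
    simp only [List.map_cons, List.sum_cons]
    exact (Jun n d).add_mem (h a List.mem_cons_self)
      (ih fun b hb => h b (List.mem_cons_of_mem _ hb))

theorem ur_Dser_smul {n t : ℕ} {x : Fin n → Bool} {μ : (Fin n → Bool) → ℝ} {ρ θ η : ℝ} (s : ℂ) :
    Dser μ x t ρ (fun y j => s * Ψ y j) θ η = s * Dser μ x t ρ Ψ θ η := by
  simp only [Dser, Dl_mul_left, Finset.mul_sum]
  exact Finset.sum_congr rfl fun u _ => by ring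

theorem ur_Dser_list {n t : ℕ} {x : Fin n → Bool} {μ : (Fin n → Bool) → ℝ} {ρ θ η : ℝ} {α : Type}
    (l : List α) (f : α → (ℕ → Bool) → ℕ → ℂ) :
    Dser μ x t ρ (fun y j => (l.map fun a => f a y j).sum) θ η =
      (l.map fun a => Dser μ x t ρ (f a) θ η).sum := by
  simp only [Dser]
  rw [← ur_swap]
  refine Finset.sum_congr rfl fun u _ => ?_
  rw [Dl_list_sum μ x l fun a y => f a (yb y) (t + u), List.sum_map_mul_left, List.sum_map_mul_left]

theorem URep.nonneg (h : URep B γ0 A k c Ψ) (h0 : 0 < γ0) : 0 ≤ c := by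
  obtain ⟨l, hl, hc, -⟩ := h
  refine le_trans (List.sum_nonneg fun r hr => ?_) hc
  obtain ⟨m, hm, rfl⟩ := List.mem_map.1 hr
  exact div_nonneg (norm_nonneg _) (ur_nu_pos (hl m hm).2.1 h0).le

theorem URep.mono {A' c' : ℝ} {k' : ℕ} (h : URep B γ0 A k c Ψ) (h0 : 0 < γ0) (hA : A ≤ A')
    (hk : k ≤ k') (hc : c ≤ c') : URep B γ0 A' k' c' Ψ := by
  obtain ⟨l, hl, hc', he⟩ := h
  exact ⟨l, fun m hm => ⟨(hl m hm).1, (hl m hm).2.1.mono h0.le hA, (hl m hm).2.2.trans hk⟩,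
    hc'.trans hc, he⟩

theorem URep.of_eq {Ψ' : (ℕ → Bool) → ℕ → ℂ} (h : URep B γ0 A k c Ψ)
    (e : ∀ y j, Ψ' y j = Ψ y j) : URep B γ0 A k c Ψ' := by
  obtain ⟨l, hl, hc', he⟩ := h
  exact ⟨l, hl, hc', fun y j => (e y j).trans (he y j)⟩

theorem URep.bit (B γ0 A : ℝ) (k : ℕ) {φ : Bool → ℂ} (hφ : ∀ b, ‖φ b‖ ≤ 1) :
    URep B γ0 A k 1 (fun y j => φ (y j)) := by
  refine ⟨[(1, φ, [])], fun m hm => ?_, by simp [nu], fun y j => by simp [feat, G]⟩
  rw [List.mem_singleton.1 hm]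
  exact ⟨hφ, fun a ha => absurd ha List.not_mem_nil, Nat.zero_le _⟩

theorem URep.const (B γ0 A : ℝ) (k : ℕ) (s : ℂ) : URep B γ0 A k ‖s‖ (fun _ _ => s) := by
  refine ⟨[(s, fun _ => 1, [])], fun m hm => ?_, by simp [nu], fun y j => by simp [feat, G]⟩
  rw [List.mem_singleton.1 hm]
  exact ⟨fun _ => by simp, fun a ha => absurd ha List.not_mem_nil, Nat.zero_le _⟩

theorem URep.add {c' : ℝ} {Ψ' : (ℕ → Bool) → ℕ → ℂ} (h : URep B γ0 A k c Ψ)
    (h' : URep B γ0 A k c' Ψ') : URep B γ0 A k (c + c') (fun y j => Ψ y j + Ψ' y j) := by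
  obtain ⟨l, hl, hc, he⟩ := h
  obtain ⟨l', hl', hc', he'⟩ := h'
  refine ⟨l ++ l', fun m hm => (List.mem_append.1 hm).elim (hl m) (hl' m), ?_, fun y j => ?_⟩
  · rw [List.map_append, List.sum_append]
    exact add_le_add hc hc'
  · simp only [List.map_append, List.sum_append, he, he']

theorem URep.smul (h : URep B γ0 A k c Ψ) (s : ℂ) :
    URep B γ0 A k (‖s‖ * c) (fun y j => s * Ψ y j) := by
  obtain ⟨l, hl, hc, he⟩ := h
  refine ⟨l.map fun m => (s * m.1, m.2), fun m hm => ?_, ?_, fun y j => ?_⟩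
  · obtain ⟨m', hm', rfl⟩ := List.mem_map.1 hm
    exact hl m' hm'
  · simp only [List.map_map, Function.comp_def, norm_mul, mul_div_assoc, List.sum_map_mul_left]
    exact mul_le_mul_of_nonneg_left hc (norm_nonneg _)
  · simp only [List.map_map, Function.comp_def, mul_assoc, List.sum_map_mul_left, he]

theorem URep.conj (h : URep B γ0 A k c Ψ) :
    URep B γ0 A k c (fun y j => conj (Ψ y j)) := by
  obtain ⟨l, hl, hc, he⟩ := h
  refine ⟨l.map fun m => (starRingEnd ℂ m.1, fun b => starRingEnd ℂ (m.2.1 b),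
    m.2.2.map fun a => (starRingEnd ℂ a.1, fun b => starRingEnd ℂ (a.2 b))),
    fun m hm => ?_, ?_, fun y j => ?_⟩
  · obtain ⟨m', hm', rfl⟩ := List.mem_map.1 hm
    obtain ⟨h1, h2, h3⟩ := hl m' hm'
    refine ⟨fun b => by simpa using h1 b, fun a ha => ?_, by simpa using h3⟩
    obtain ⟨a', ha', rfl⟩ := List.mem_map.1 ha
    exact ⟨(h2 a' ha').1.conj, fun b => by simpa using (h2 a' ha').2 b⟩
  · simpa [nu, List.map_map, Function.comp_def] using hc
  · simp only [he, map_list_sum, List.map_map, Function.comp_def, map_mul, feat, G_conj, map_one]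

theorem URep.trail (h : URep B γ0 A k c Ψ) (h0 : 0 < γ0) {v : ℂ} (hv : InZ B γ0 A v) :
    URep B γ0 A (k + 1) (c / (1 - ‖v‖))
      (fun y J => ∑ j ∈ Finset.range J, v ^ (J - 1 - j) * Ψ y j) := by
  obtain ⟨l, hl, hc, he⟩ := h
  have hv1 : 0 < 1 - ‖v‖ := sub_pos.2 (hv.norm_lt h0)
  refine ⟨l.map fun m => (m.1, fun _ => 1, (v, m.2.1) :: m.2.2), fun m hm => ?_, ?_, fun y J => ?_⟩
  · obtain ⟨m', hm', rfl⟩ := List.mem_map.1 hm
    obtain ⟨h1, h2, h3⟩ := hl m' hm'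
    refine ⟨fun b => by simp, fun a ha => ?_, by simpa using h3⟩
    rcases List.mem_cons.1 ha with rfl | ha
    · exact ⟨hv, h1⟩
    · exact h2 a ha
  · have : ∀ m : ℂ × (Bool → ℂ) × List Atom,
        ‖m.1‖ / nu ((v, m.2.1) :: m.2.2) = (1 - ‖v‖)⁻¹ * (‖m.1‖ / nu m.2.2) := fun m => by
      rw [nu_cons, mul_comm (1 - ‖v‖), ← div_div, div_eq_inv_mul]
    simp only [List.map_map, Function.comp_def, this, List.sum_map_mul_left]
    rw [div_eq_inv_mul]
    exact mul_le_mul_of_nonneg_left hc (inv_nonneg.2 hv1.le)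
  · simp only [he, ← List.sum_map_mul_left, List.map_map, Function.comp_def]
    rw [ur_swap]
    refine congrArg List.sum (List.map_congr_left fun m _ => ?_)
    simp only [feat, G, one_mul, Finset.mul_sum]
    exact Finset.sum_congr rfl fun j _ => by ring

theorem ur_list_sum {α : Type} (l : List α) {c : α → ℝ} {Ψ : α → (ℕ → Bool) → ℕ → ℂ}
    (h : ∀ a ∈ l, URep B γ0 A k (c a) (Ψ a)) :
    URep B γ0 A k (l.map c).sum fun y j => (l.map fun a => Ψ a y j).sum := by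
  induction l with
  | nil => exact ⟨[], fun m hm => absurd hm List.not_mem_nil, le_rfl, fun _ _ => rfl⟩
  | cons a l ih =>
    simp only [List.map_cons, List.sum_cons]
    exact (h a List.mem_cons_self).add (ih fun b hb => h b (List.mem_cons_of_mem _ hb))

theorem ur_mul_feat {k' : ℕ} (h0 : 0 < γ0) (hA : 0 ≤ A) {m m' : ℂ × (Bool → ℂ) × List Atom}
    (h : (∀ b, ‖m.2.1 b‖ ≤ 1) ∧ Ok B γ0 A m.2.2 ∧ m.2.2.length ≤ k)
    (h' : (∀ b, ‖m'.2.1 b‖ ≤ 1) ∧ Ok B γ0 A m'.2.2 ∧ m'.2.2.length ≤ k') :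
    URep B γ0 (2 * A) (k + k') (3 ^ (k + k') * (‖m.1‖ / nu m.2.2 * (‖m'.1‖ / nu m'.2.2)))
      fun y j => m.1 * feat m.2.1 m.2.2 y j * (m'.1 * feat m'.2.1 m'.2.2 y j) := by
  have p1 := ur_nu_pos h.2.1 h0
  have p2 := ur_nu_pos h'.2.1 h0
  refine ⟨(sh m.2.2 m'.2.2).map fun M => (m.1 * m'.1, fun b => m.2.1 b * m'.2.1 b, M),
    fun M hM => ?_, ?_, fun y j => ?_⟩
  · obtain ⟨M', hM', rfl⟩ := List.mem_map.1 hM
    refine ⟨fun b => ?_, ok_of_mem_sh h0 hA h.2.1 h'.2.1 hM',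
      (length_of_mem_sh hM').trans (add_le_add h.2.2 h'.2.2)⟩
    rw [norm_mul]
    exact mul_le_one₀ (h.1 b) (norm_nonneg _) (h'.1 b)
  · refine (List.sum_le_card_nsmul _ (‖m.1‖ / nu m.2.2 * (‖m'.1‖ / nu m'.2.2)) fun r hr => ?_).trans ?_
    · obtain ⟨M, hM, rfl⟩ := List.mem_map.1 hr
      obtain ⟨M', hM', rfl⟩ := List.mem_map.1 hM
      have := nu_mul_le_of_mem_sh (fun a ha => (h.2.1.small h0 a ha).1)
        (fun a ha => (h'.2.1.small h0 a ha).1) hM'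
      rw [div_mul_div_comm, norm_mul]
      exact div_le_div_of_nonneg_left (by positivity) (by positivity) this
    · rw [List.length_map, List.length_map, nsmul_eq_mul]
      refine mul_le_mul_of_nonneg_right ?_ (by positivity)
      have := (length_sh_le m.2.2 m'.2.2).trans
        (Nat.pow_le_pow_right (by norm_num) (add_le_add h.2.2 h'.2.2))
      exact_mod_cast this
  · simp only [List.map_map, Function.comp_def, feat, ← mul_assoc, List.sum_map_mul_left, ← G_mul]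
    ring

theorem URep.mul {k' : ℕ} {c' : ℝ} {Ψ' : (ℕ → Bool) → ℕ → ℂ} (h : URep B γ0 A k c Ψ)
    (h' : URep B γ0 A k' c' Ψ') (h0 : 0 < γ0) (hA : 0 ≤ A) :
    URep B γ0 (2 * A) (k + k') (3 ^ (k + k') * (c * c')) (fun y j => Ψ y j * Ψ' y j) := by
  obtain ⟨l, hl, hc, he⟩ := h
  have hc'0 := h'.nonneg h0
  obtain ⟨l', hl', hc', he'⟩ := h'
  have key := ur_list_sum (B := B) (γ0 := γ0) (A := 2 * A) (k := k + k') l
    (c := fun m => (l'.map fun m' => 3 ^ (k + k') * (‖m.1‖ / nu m.2.2 * (‖m'.1‖ / nu m'.2.2))).sum)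
    (Ψ := fun m y j => (l'.map fun m' =>
      m.1 * feat m.2.1 m.2.2 y j * (m'.1 * feat m'.2.1 m'.2.2 y j)).sum)
    fun m hm => ur_list_sum l' fun m' hm' => ur_mul_feat h0 hA (hl m hm) (hl' m' hm')
  refine (key.mono h0 le_rfl le_rfl ?_).of_eq fun y j => ?_
  · simp only [List.sum_map_mul_left, List.sum_map_mul_right]
    refine mul_le_mul_of_nonneg_left (mul_le_mul hc hc' ?_ ?_) (by positivity)
    · refine List.sum_nonneg fun r hr => ?_
      obtain ⟨m, hm, rfl⟩ := List.mem_map.1 hr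
      exact div_nonneg (norm_nonneg _) (ur_nu_pos (hl' m hm).2.1 h0).le
    · exact URep.nonneg ⟨l, hl, hc, he⟩ h0
  · simp only [List.sum_map_mul_left, List.sum_map_mul_right, he, he']

theorem URep.norm_le (h : URep B γ0 A k c Ψ) (h0 : 0 < γ0) (y : ℕ → Bool) (j : ℕ) :
    ‖Ψ y j‖ ≤ c := by
  obtain ⟨l, hl, hc, he⟩ := h
  rw [he]
  refine (ur_norm_le l fun m hm => ?_).trans hc
  rw [norm_mul, div_eq_mul_one_div]
  exact mul_le_mul_of_nonneg_left (ur_norm_feat (hl m hm).1 (hl m hm).2.1 h0 y j) (norm_nonneg _)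

theorem URep.congr (h : URep B γ0 A k c Ψ) {y y' : ℕ → Bool} {j : ℕ}
    (e : ∀ i ≤ j, y i = y' i) : Ψ y j = Ψ y' j := by
  obtain ⟨l, -, -, he⟩ := h
  rw [he, he]
  refine congrArg List.sum (List.map_congr_left fun m _ => ?_)
  rw [feat, feat, e j le_rfl, G_congr 1 _ fun i hi => e i hi.le]

theorem URep.mem_Jun (h : URep B γ0 A k c Ψ) (n j : ℕ) :
    (fun y : Fin n → Bool => Ψ (yb y) j) ∈ Jun n (k + 1) := by
  obtain ⟨l, hl, -, he⟩ := h
  simp only [he]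
  refine ur_Jun_list l fun m hm => ?_
  have h1 := Jun_mul (bit_mem_Jun n j m.2.1) (G_mem_Jun n 1 m.2.2 j)
  exact Submodule.smul_mem _ m.1 (Jun_mono (by have := (hl m hm).2.2; omega) h1)

theorem URep.Dl_le {n d t : ℕ} {x : Fin n → Bool} {μ : (Fin n → Bool) → ℝ} (hpd : PD d t x μ)
    (h : URep B γ0 A k c Ψ) (h0 : 0 < γ0) (hd : k + 1 ≤ d) (j : ℕ) :
    ‖Dl μ x (fun y => Ψ (yb y) j)‖ ≤ 2 * c := by
  obtain ⟨l, hl, hc, he⟩ := h
  simp only [he]
  rw [Dl_list_sum μ x l fun m y => m.1 * feat m.2.1 m.2.2 (yb y) j]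
  refine (ur_norm_le l (g := fun m => 2 * (‖m.1‖ / nu m.2.2)) fun m hm => ?_).trans ?_
  · obtain ⟨h1, h2, h3⟩ := hl m hm
    have hE : ‖Et μ fun y => feat m.2.1 m.2.2 (yb y) j‖ ≤ 1 / nu m.2.2 := by
      refine hpd.Et_G_le (f := fun y => m.2.1 (yb y j)) (by simp) (h2.small h0)
        (if hj : j < n then {⟨j, hj⟩} else ∅) ?_ (fun y y' hy => ?_) (fun y => h1 _) j
      · split_ifs <;> simp <;> omega
      · by_cases hj : j < n
        · simp only [yb, dif_pos hj] at hy ⊢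
          rw [hy _ (Finset.mem_singleton_self _)]
        · simp only [yb, dif_neg hj]
    have hx := ur_norm_feat h1 h2 h0 (yb x) j
    rw [Dl_mul_left, norm_mul, Dl]
    calc _ ≤ ‖m.1‖ * (1 / nu m.2.2 + 1 / nu m.2.2) :=
          mul_le_mul_of_nonneg_left ((norm_sub_le _ _).trans (add_le_add hE hx)) (norm_nonneg _)
      _ = _ := by ring
  · rw [List.sum_map_mul_left]
    linarith

theorem URep.Dl_zero {n d t : ℕ} {x : Fin n → Bool} {μ : (Fin n → Bool) → ℝ} (hpd : PD d t x μ)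
    (h : URep B γ0 A k c Ψ) {j : ℕ} (hj : j < t) : Dl μ x (fun y => Ψ (yb y) j) = 0 := by
  refine hpd.Dl_eq_zero fun y hy => h.congr fun i hi => ?_
  have hin : i < n := by have := hpd.ht; omega
  simp only [yb, dif_pos hin]
  exact hy _ (by simp only; omega)

theorem Hyp.scale {n t : ℕ} {x : Fin n → Bool} {μ : (Fin n → Bool) → ℝ} {ρ η E : ℝ}
    (H : Hyp μ x t B γ0 A k ρ η E) (h : URep B γ0 A k c Ψ) (hc : 0 < c) {θ η' : ℝ}
    (h1 : 0 < η') (h2 : η' ≤ η) (h3 : |θ| ≤ s0 * η') :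
    ‖Dser μ x t ρ Ψ θ η'‖ ≤ c * Real.exp (-E) := by
  have hc' : (c : ℂ) ≠ 0 := ofReal_ne_zero.2 hc.ne'
  have h4 := h.smul (c : ℂ)⁻¹
  rw [norm_inv, norm_real, Real.norm_of_nonneg hc.le, inv_mul_cancel₀ hc.ne'] at h4
  have h5 := H _ h4 θ η' h1 h2 h3
  rw [ur_Dser_smul, norm_mul, norm_inv, norm_real, Real.norm_of_nonneg hc.le,
    inv_mul_le_iff₀ hc] at h5
  exact h5

/-- it suffices to check the hypothesis on elementary features -/
theorem hyp_of_feat {n t : ℕ} {x : Fin n → Bool} {μ : (Fin n → Bool) → ℝ} {ρ η E : ℝ}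
    (h0 : 0 < γ0)
    (H : ∀ (φ : Bool → ℂ) (L : List Atom), (∀ b, ‖φ b‖ ≤ 1) → Ok B γ0 A L → L.length ≤ k →
      ∀ θ η' : ℝ, 0 < η' → η' ≤ η → |θ| ≤ s0 * η' →
        nu L * ‖Dser μ x t ρ (feat φ L) θ η'‖ ≤ Real.exp (-E)) :
    Hyp μ x t B γ0 A k ρ η E := by
  rintro Ψ ⟨l, hl, hc, he⟩ θ η' h1 h2 h3
  have e : Ψ = fun y j => (l.map fun m => m.1 * feat m.2.1 m.2.2 y j).sum := by
    funext y j
    exact he y j
  rw [e, ur_Dser_list l fun m y j => m.1 * feat m.2.1 m.2.2 y j]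
  refine (ur_norm_le l (g := fun m => Real.exp (-E) * (‖m.1‖ / nu m.2.2)) fun m hm => ?_).trans ?_
  · obtain ⟨h4, h5, h6⟩ := hl m hm
    have h7 := H _ _ h4 h5 h6 θ η' h1 h2 h3
    rw [mul_comm, ← le_div_iff₀ (ur_nu_pos h5 h0)] at h7
    rw [ur_Dser_smul, norm_mul]
    calc _ ≤ ‖m.1‖ * (Real.exp (-E) / nu m.2.2) := mul_le_mul_of_nonneg_left h7 (norm_nonneg _)
      _ = _ := by ring
  · rw [List.sum_map_mul_left]
    exact mul_le_of_le_one_right (Real.exp_pos _).le hc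

theorem Yw_mem_Jun (h : URep B γ0 A k c Ψ) (n t : ℕ) (ρ θ : ℝ) :
    Yw n t ρ θ Ψ ∈ Jun n (k + 1) := by
  exact Jun_sum (Finset.range n) (f := fun j y =>
    (gw ρ ((j : ℝ) - t) : ℂ) * cexp (θ * I * ((j : ℝ) - t : ℝ)) * Ψ (yb y) j)
    fun j _ => Submodule.smul_mem _ _ (h.mem_Jun n j)

theorem Yw_conj (n t : ℕ) (ρ θ : ℝ) (Ψ : (ℕ → Bool) → ℕ → ℂ) (y : Fin n → Bool) :
    conj (Yw n t ρ θ Ψ y) = Yw n t ρ (-θ) (fun y j => conj (Ψ y j)) y := by
  simp only [Yw, map_sum, map_mul, conj_ofReal, ← exp_conj, conj_I, ofReal_neg, mul_neg, neg_mul]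

end Crest.Agent.R300
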