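import Crest.Agent.R300.Stat
import Crest.Agent.R300.Strip
import Crest.Agent.R300.URep

/-!
# Row 300: the induction hypothesis at level `0` (no window, `η ≤ 1/n`).

Use `hyp_of_feat`.  With `ζ = exp(iθ - η')`, `gw 0 u = 1`, the terms `j < t` vanish
(`PD.Dl_eq_zero`, `G_congr`), so
`Dser = ζ^(-t) ∑_{j<n} ζ^j Dl(feat φ L · j) = ζ^(-t) Dl(G ζ ((1,φ) :: Lζ) · n)` with
`Lζ = L.map (a.1 ζ, ζ a.2)` (`G_scale`); `‖ζ^(-t)‖ ≤ e`.  `nu L ≤ nu Lζ`.  Apply `strip` with
`a0 = (1,φ)`, `κ = 1/(5B)` (`region_reS`, `InZ.mul_sector`; `ζ` itself is `InZ B η' 0`),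
`δ = γ0/2`, `hbad` from `PD.Et_G_le` + `norm_G_le` (sum over the anchor `j < n`), `hgood` from
`stat_bound` (`‖1 - q‖ = p`).  Finally monotonicity in `L.length ≤ k`.
-/

set_option autoImplicit false

namespace Crest.Agent.R300

open Complex

theorem level0_nu {ζ : ℂ} (hζ : ‖ζ‖ ≤ 1) (L : List Atom) (h : ∀ a ∈ L, ‖a.1‖ < 1) :
    nu L ≤ nu (L.map fun a => (a.1 * ζ, fun b => ζ * a.2 b)) := by
  induction L with
  | nil => exact le_rfl
  | cons a L ih =>
    have h1 : ∀ a ∈ L, ‖a.1‖ < 1 := fun a' ha => h a' (List.mem_cons_of_mem _ ha)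
    have h2 := h a List.mem_cons_self
    have h3 : ‖a.1 * ζ‖ ≤ ‖a.1‖ := by
      rw [norm_mul]
      exact mul_le_of_le_one_right (norm_nonneg _) hζ
    rw [List.map_cons, nu_cons, nu_cons]
    exact mul_le_mul (by linarith only [h3]) (ih h1) (nu_pos h1).le (by linarith only [h2, h3])

theorem level0_G (z : ℂ) (φ : Bool → ℂ) (L : List Atom) (y : ℕ → Bool) (j : ℕ) :
    G z ((1, φ) :: L) y j = ∑ i ∈ Finset.range j, φ (y i) * G z L y i := by
  simp only [G, one_pow, one_mul]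

theorem level0_ser {n d t : ℕ} {x : Fin n → Bool} {μ : (Fin n → Bool) → ℝ} (hpd : PD d t x μ) (φ : Bool → ℂ)
    (L : List Atom) (θ η : ℝ) :
    cexp (θ * I - η) ^ t * Dser μ x t 0 (feat φ L) θ η =
      Dl μ x fun y => G (cexp (θ * I - η)) ((1, φ) :: L.map fun a =>
        (a.1 * cexp (θ * I - η), fun b => cexp (θ * I - η) * a.2 b)) (yb y) n := by
  have e1 : ∀ y : Fin n → Bool, G (cexp (θ * I - η)) ((1, φ) :: L.map fun a =>
      (a.1 * cexp (θ * I - η), fun b => cexp (θ * I - η) * a.2 b)) (yb y) n =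
      ∑ i ∈ Finset.range n, cexp (θ * I - η) ^ i * feat φ L (yb y) i := by
    intro y
    rw [level0_G]
    refine Finset.sum_congr rfl fun i _ => ?_
    rw [← G_scale, feat, mul_left_comm]
  simp only [e1]
  rw [Dl_sum]
  simp only [Dl_mul_left]
  have hn : Finset.range n = Finset.range (t + (n - t)) := by rw [Nat.add_sub_cancel' hpd.ht.le]
  rw [hn, Finset.sum_range_add, Finset.sum_eq_zero (s := Finset.range t), zero_add, Dser, Finset.mul_sum]
  · refine Finset.sum_congr rfl fun u _ => ?_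
    rw [mul_comm (θ * I - η : ℂ) u, Complex.exp_nat_mul, pow_add]
    simp only [gw, zero_mul, zero_div, neg_zero, Real.exp_zero, ofReal_one, one_mul, mul_assoc]
  · intro j hj
    have hj' := Finset.mem_range.1 hj
    rw [hpd.Dl_eq_zero, mul_zero]
    intro y hy
    have : ∀ i ≤ j, yb y i = yb x i := fun i hi => by
      unfold yb
      split_ifs with h
      · exact hy ⟨i, h⟩ (lt_of_le_of_lt hi hj')
      · rfl
    unfold feat
    rw [this j le_rfl, G_congr 1 L fun i hi => this i hi.le]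

theorem level0_bad {n d t : ℕ} {x : Fin n → Bool} {μ : (Fin n → Bool) → ℝ} (hpd : PD d t x μ) {φ : Bool → ℂ}
    (hφ : ∀ b, ‖φ b‖ ≤ 1) {z : ℂ} (hz : ‖z‖ ≤ 1) {L : List Atom} (hL : ∀ a ∈ L, ‖a.1‖ < 1 ∧ ∀ b, ‖a.2 b‖ ≤ 1)
    (hd : L.length + 1 ≤ d) : ‖Dl μ x fun y => G z ((1, φ) :: L) (yb y) n‖ ≤ 2 * n / nu L := by
  simp only [level0_G]
  rw [Dl_sum]
  have key : ∀ i ∈ Finset.range n, ‖Dl μ x fun y => φ (yb y i) * G z L (yb y) i‖ ≤ 2 / nu L := by
    intro i hi
    have hi' := Finset.mem_range.1 hi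
    have h1 := hpd.Et_G_le hz hL (f := fun y => φ (yb y i)) {⟨i, hi'⟩} (by rw [Finset.card_singleton]; omega)
      (fun y y' hy => by
        have := hy _ (Finset.mem_singleton_self _)
        simp only [yb, dif_pos hi', this]) (fun y => hφ _) i
    have h2 : ‖φ (yb x i) * G z L (yb x) i‖ ≤ 1 / nu L := by
      rw [norm_mul]
      exact (mul_le_of_le_one_left (norm_nonneg _) (hφ _)).trans (norm_G_le hz hL _ _)
    refine (norm_sub_le _ _).trans ((add_le_add h1 h2).trans_eq ?_)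
    ring
  refine (norm_sum_le _ _).trans ((Finset.sum_le_sum key).trans_eq ?_)
  rw [Finset.sum_const, Finset.card_range, nsmul_eq_mul]
  ring

theorem level0 {n d t k : ℕ} {x : Fin n → Bool} {μ : (Fin n → Bool) → ℝ} (hpd : PD d t x μ)
    (hd : k + 1 ≤ d) {p ε B γ0 A m E : ℝ} (hp : 0 < p) (hp1 : p < 1) (hε : 0 ≤ ε)
    (hS : StatClose μ x p (k + 1) ε) (hB : 3 ≤ B) (hA0 : 0 ≤ A) (hA : A ≤ B) (h0 : 0 < γ0)
    (h1 : γ0 ≤ 1) (hm : 0 < m) (hm1 : m ≤ 1 / 2) (hmB : m * (4 * (1 - p) / p) ≤ 1 / (5 * B))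
    (hE : 6 * n * 4 ^ k * ((2 * n / p) ^ (k + 1) * (n + 1) * ε * (8 / γ0) ^ k) ^ m ≤
      Real.exp (-E)) :
    Hyp μ x t B γ0 A k 0 (1 / n) E := by
  refine hyp_of_feat h0 fun φ L hφ hOk hk θ η hη0 hη hθ => ?_
  have hn : 1 ≤ n := Nat.succ_le_of_lt (lt_of_le_of_lt (Nat.zero_le _) hpd.ht)
  have hn' : (1 : ℝ) ≤ n := by exact_mod_cast hn
  have hθB : |θ| ≤ B * η := hθ.trans (mul_le_mul_of_nonneg_right (by unfold s0; linarith only [hB]) hη0.le)
  have hB1 : 1 ≤ B := by linarith only [hB]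
  have hser := level0_ser hpd φ L θ η
  have hζZ : InZ B η 0 (cexp (θ * I - η)) := ⟨θ, η, rfl, le_rfl, by simpa using hθB⟩
  have hζn : ‖cexp (θ * I - η)‖ = Real.exp (-η) := by
    rw [Complex.norm_exp]
    simp
  have hmul : ∀ a ∈ L, InZ B γ0 A (a.1 * cexp (θ * I - η)) := fun a ha => (hOk a ha).1.mul_sector hA0 hη0.le hθB
  have hζ1 := hζZ.norm_lt hη0
  have hζr := region_reS hη0 le_rfl (by linarith only [hB]) hB1 hζZ
  generalize cexp (θ * I - η) = ζ at hser hζn hmul hζ1 hζr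
  have hnu := level0_nu hζ1.le L fun a ha => (hOk.small h0 a ha).1
  have hlen : (L.map fun a : Atom => ((a.1 * ζ, fun b => ζ * a.2 b) : Atom)).length = L.length := List.length_map _
  have hsnd : ∀ L' : List Atom, L'.map Prod.snd =
      (L.map fun a : Atom => ((a.1 * ζ, fun b => ζ * a.2 b) : Atom)).map Prod.snd →
      L'.length ≤ k ∧ ∀ a ∈ L', ∀ b, ‖a.2 b‖ ≤ 1 := by
    intro L' h
    refine ⟨?_, fun a ha b => ?_⟩
    · have := congrArg List.length h
      simp only [List.length_map] at this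
      omega
    · have h2 := List.mem_map_of_mem (f := Prod.snd) ha
      rw [h, List.map_map] at h2
      obtain ⟨a', ha', e⟩ := List.mem_map.1 h2
      rw [← e]
      simp only [Function.comp, norm_mul]
      exact mul_le_one₀ hζ1.le (norm_nonneg _) ((hOk a' ha').2 b)
  have h2n : (1 : ℝ) ≤ 2 * n / p := by
    rw [le_div_iff₀ hp]
    linarith only [hn', hp1]
  have hε₁ : 0 ≤ (2 * n / p) ^ (k + 1) * (n + 1) * ε := by positivity
  have key := strip hn μ x (1, φ) hp hp1 hε₁ (κ := 1 / (5 * B)) (δ := γ0 / 2) (by positivity) (half_pos h0) hm hm1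
    hmB ζ (L.map fun a : Atom => ((a.1 * ζ, fun b => ζ * a.2 b) : Atom))
    (fun z L' hz hL' e => level0_bad hpd hφ hz (fun a ha => ⟨hL' a ha, (hsnd L' e).2 a ha⟩)
      (by have := (hsnd L' e).1; omega))
    (fun z L' hz hL' e => by
      refine (stat_bound hp hp1 hS hz (L := (1, φ) :: L') (fun a ha => ?_)
        (Nat.succ_le_succ (hsnd L' e).1)).trans ?_
      · rcases List.mem_cons.1 ha with rfl | ha
        · refine ⟨le_of_eq ?_, hφ⟩
          rw [show ((1 : ℂ) - ((1 - p : ℝ) : ℂ)) = (p : ℂ) by push_cast; ring, Complex.norm_real,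
            Real.norm_of_nonneg hp.le]
        · exact ⟨hL' a ha, (hsnd L' e).2 a ha⟩
      · exact mul_le_mul_of_nonneg_right (mul_le_mul_of_nonneg_right
          (pow_le_pow_right₀ h2n (Nat.succ_le_succ (hsnd L' e).1)) (by positivity)) hε)
    hζ1 hζr
    (fun a ha => by
      obtain ⟨a', ha', rfl⟩ := List.mem_map.1 ha
      refine ⟨?_, region_reS h0 hA0 hA hB1 (hmul a' ha')⟩
      have e1 := (hmul a' ha').norm_le
      have e2 : Real.exp (-γ0) ≤ 1 - γ0 / 2 := by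
        rw [Real.exp_neg, inv_le_iff_one_le_mul₀ (Real.exp_pos _)]
        nlinarith only [Real.add_one_le_exp γ0, h0, h1, mul_nonneg h0.le (sub_nonneg.2 h1)]
      linarith only [e1, e2])
  rw [hlen, ← hser, norm_mul, norm_pow, hζn] at key
  have h8 : (1 : ℝ) ≤ 8 / γ0 := by
    rw [le_div_iff₀ h0]
    linarith only [h1]
  have e4 : 4 / (γ0 / 2) = 8 / γ0 := by
    field_simp
    norm_num
  rw [e4] at key
  have k2 : 2 * n * 4 ^ L.length * ((2 * n / p) ^ (k + 1) * (n + 1) * ε * (8 / γ0) ^ L.length) ^ m ≤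
      2 * n * 4 ^ k * ((2 * n / p) ^ (k + 1) * (n + 1) * ε * (8 / γ0) ^ k) ^ m :=
    mul_le_mul (mul_le_mul_of_nonneg_left (pow_le_pow_right₀ (by norm_num) hk) (by positivity))
      (Real.rpow_le_rpow (mul_nonneg hε₁ (by positivity))
        (mul_le_mul_of_nonneg_left (pow_le_pow_right₀ h8 hk) hε₁) hm.le)
      (Real.rpow_nonneg (mul_nonneg hε₁ (by positivity)) _) (by positivity)
  have k3 : 1 ≤ 3 * Real.exp (-η) ^ t := by
    have t1 : (t : ℝ) * η ≤ 1 := by
      have : (t : ℝ) ≤ n := by exact_mod_cast hpd.ht.le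
      rw [le_div_iff₀ (by linarith only [hn'])] at hη
      nlinarith only [hη, this, hη0]
    rw [← Real.exp_nat_mul, mul_neg, Real.exp_neg, ← div_eq_mul_inv, le_div_iff₀ (Real.exp_pos _), one_mul]
    exact (Real.exp_le_exp.2 t1).trans (Real.exp_one_lt_d9.le.trans (by norm_num))
  have hnu0 := (nu_pos fun a ha => (hOk.small h0 a ha).1).le
  calc nu L * ‖Dser μ x t 0 (feat φ L) θ η‖
      ≤ nu (L.map fun a : Atom => ((a.1 * ζ, fun b => ζ * a.2 b) : Atom)) *
          (3 * Real.exp (-η) ^ t * ‖Dser μ x t 0 (feat φ L) θ η‖) :=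
        mul_le_mul hnu (le_mul_of_one_le_left (norm_nonneg _) k3) (norm_nonneg _) (hnu0.trans hnu)
    _ ≤ _ := by linarith only [key, k2, hE]

end Crest.Agent.R300
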