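import Crest.Agent.R300.UDefs

/-!
# Row 300: choice of the scales (pure real arithmetic).

Notation: `q = 1-p`, `qe = max q (1/n)`, `Xe = 1 + log n/(1 + log(1/qe)) ≤ 2 XX n p`,
`Q = Q₀ Xe^(1/32)` with `Q₀ = 10^9`, `B = Q/qe`.
`η 0 = 1/n`, `b ℓ = min 1 ((√(B/4^(ℓ+1) · η ℓ/3000) + B η ℓ/3000)/2)`, `η (ℓ+1) = b ℓ/500`,
`L` = least `ℓ` with `η ℓ ≥ 1/500`.  While `η (ℓ+1) < 1/500` (not capped), with `y = log(1/η)`:
`y(ℓ+1) ≤ y ℓ - a'` where `a' = log(B/(3·10^6)) ≥ log(1/qe) + (log Xe)/32 + 1` and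
`y(ℓ+1) ≤ y ℓ/2 + (ℓ+1) log 2 + 11`, hence `y ℓ ≤ log n/2^ℓ + 1.4ℓ + 22`; at
`L₁ = ⌈log₂ Xe⌉`, `y ≤ log(1/qe) + 2.1 log Xe + 25 ≤ 93 a'`, so `L ≤ L₁ + 93` (`scales`).
`E ℓ = K^(L-ℓ) E*`, `K = 1/0.128 = 7.8125 ≤ 2^(95/32)` (check `K^32 ≤ 2^95`), `E* = 10^6 (1 + log n/2^L + L)`.
`m = p/(20 Q)` (so `m·4q/p ≤ 1/(5B)`), `γ0 = 1/(3000 n)`, `k = 4^L - 1`.
Budget: `2^L ≤ 2^95 X`, `Q K^L ≤ C X^3 ≤ 3 C X^2 log n`, `1 + L ≤ C (1 + log X)`, `Q ≤ C X^(1/32)`,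
`X ≤ 1 + log n ≤ 3 log n`, `log(1/p) ≤ 1/p`.
-/

set_option autoImplicit false

namespace Crest.Agent.R300

theorem lv_log_n {n : ℕ} (hn : 2 ≤ n) : 1 / 2 < Real.log n := by
  have h1 : Real.log 2 ≤ Real.log n := Real.log_le_log (by norm_num) (by exact_mod_cast hn)
  linarith [Real.log_two_gt_d9]

theorem lv_log_q {p : ℝ} (hp : 0 < p) (hp1 : p < 1) : 0 ≤ Real.log (1 / (1 - p)) :=
  Real.log_nonneg (by rw [le_div_iff₀ (by linarith)]; linarith)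

theorem XX_one_le {n : ℕ} (hn : 2 ≤ n) {p : ℝ} (hp : 0 < p) (hp1 : p < 1) : 1 ≤ XX n p := by
  have h1 := lv_log_n hn
  have h2 := lv_log_q hp hp1
  unfold XX
  have : 0 ≤ Real.log n / (1 + Real.log (1 / (1 - p))) := by positivity
  linarith

theorem XX_le {n : ℕ} (hn : 2 ≤ n) {p : ℝ} (hp : 0 < p) (hp1 : p < 1) :
    XX n p ≤ 3 * Real.log n := by
  have h1 := lv_log_n hn
  have h2 := lv_log_q hp hp1
  unfold XX
  have : Real.log n / (1 + Real.log (1 / (1 - p))) ≤ Real.log n :=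
    div_le_self (by linarith) (by linarith)
  linarith

/-- the width of the strip at level `l` -/
noncomputable def lvB (B : ℝ) (l : ℕ) (e : ℝ) : ℝ :=
  min 1 ((√(B / 4 ^ (l + 1) * (e / 3000)) + B * (e / 3000)) / 2)

/-- the scales -/
noncomputable def lvEta (B e0 : ℝ) : ℕ → ℝ
  | 0 => e0
  | l + 1 => lvB B l (lvEta B e0 l) / 500

theorem lvB_pos {B e : ℝ} (hB : 0 < B) (he : 0 < e) (l : ℕ) : 0 < lvB B l e :=
  lt_min one_pos (by positivity)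

theorem lvEta_pos {B e0 : ℝ} (hB : 0 < B) (he : 0 < e0) : ∀ l, 0 < lvEta B e0 l
  | 0 => he
  | l + 1 => div_pos (lvB_pos hB (lvEta_pos hB he l) l) (by norm_num)

theorem lv_step {B e : ℝ} (hB : 10 ^ 9 ≤ B) (he : 0 < e) (l : ℕ) (h : lvB B l e / 500 < 1 / 500) :
    B / 3000000 * e ≤ lvB B l e / 500 ∧ e / 4 ^ (l + 2) ≤ (lvB B l e / 500) ^ 2 := by
  have hB0 : 0 < B := by linarith
  have h1 : lvB B l e = (√(B / 4 ^ (l + 1) * (e / 3000)) + B * (e / 3000)) / 2 := by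
    unfold lvB at h ⊢
    rcases min_choice 1 ((√(B / 4 ^ (l + 1) * (e / 3000)) + B * (e / 3000)) / 2) with h2 | h2
    · rw [h2] at h; exact absurd h (lt_irrefl _)
    · exact h2
  have h2 := Real.sqrt_nonneg (B / 4 ^ (l + 1) * (e / 3000))
  have h3 := Real.sq_sqrt (show 0 ≤ B / 4 ^ (l + 1) * (e / 3000) by positivity)
  have h4 : 0 ≤ B * (e / 3000) := by positivity
  rw [h1]
  refine ⟨by linarith, ?_⟩
  have h5 : 10 ^ 9 / 4 ^ (l + 1) * (e / 3000) ≤ B / 4 ^ (l + 1) * (e / 3000) := by gcongr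
  have h6 : e / 4 ^ (l + 2) = e / 4 ^ (l + 1) / 4 := by rw [pow_succ _ (l + 1), div_div]
  have h7 : 10 ^ 9 / 4 ^ (l + 1) * (e / 3000) = e / 4 ^ (l + 1) * (1000000 / 3) := by ring
  have h8 : 0 ≤ e / 4 ^ (l + 1) := by positivity
  rw [h6]
  nlinarith [mul_nonneg h2 h4, sq_nonneg (B * (e / 3000))]

theorem lv_half {B e0 : ℝ} (hB : 10 ^ 9 ≤ B) (he : 0 < e0) :
    ∀ l, (∀ k ≤ l, lvEta B e0 k < 1 / 500) →
      e0 ≤ lvEta B e0 l ∧ -Real.log (lvEta B e0 l) ≤ -Real.log e0 / 2 ^ l + 2 * l * Real.log 2 := by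
  intro l
  induction l with
  | zero => intro _; simp [lvEta]
  | succ l ih =>
    intro h
    obtain ⟨i1, i2⟩ := ih fun k hk => h k (hk.trans (Nat.le_succ l))
    have hp := lvEta_pos (show 0 < B by linarith) he l
    obtain ⟨s1, s2⟩ := lv_step hB hp l (h (l + 1) le_rfl)
    change _ ≤ lvEta B e0 (l + 1) at s1
    change _ ≤ lvEta B e0 (l + 1) ^ 2 at s2
    refine ⟨i1.trans (le_trans ?_ s1), ?_⟩
    · exact le_mul_of_one_le_left hp.le (by linarith)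
    · have a1 := Real.log_le_log (by positivity) s2
      rw [Real.log_div hp.ne' (by positivity), Real.log_pow, Real.log_pow,
        show (4 : ℝ) = 2 ^ 2 by norm_num, Real.log_pow] at a1
      rw [pow_succ, ← div_div]
      push_cast at a1 ⊢
      linarith

theorem lv_lin {B e0 : ℝ} (hB : 10 ^ 9 ≤ B) (he : 0 < e0) (l : ℕ) :
    ∀ j : ℕ, (∀ k ≤ l + j, lvEta B e0 k < 1 / 500) →
      -Real.log (lvEta B e0 (l + j)) ≤ -Real.log (lvEta B e0 l) - j * Real.log (B / 3000000) := by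
  intro j
  induction j with
  | zero => intro _; simp
  | succ j ih =>
    intro h
    have i1 := ih fun k hk => h k (hk.trans (Nat.le_succ _))
    have hB0 : 0 < B := by linarith
    have hp := lvEta_pos hB0 he (l + j)
    obtain ⟨s1, -⟩ := lv_step hB hp (l + j) (h (l + j + 1) le_rfl)
    change _ ≤ lvEta B e0 (l + (j + 1)) at s1
    have a1 := Real.log_le_log (by positivity) s1
    rw [Real.log_mul (by positivity) hp.ne'] at a1
    push_cast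
    linarith

/-- the scales -/
theorem scales {n : ℕ} (hn : 2 ≤ n) {p : ℝ} (hp : 0 < p) (hp1 : p < 1) :
    ∃ (L : ℕ) (Q B : ℝ) (η b : ℕ → ℝ), 1 ≤ Q ∧ Q ≤ 10 ^ 10 * XX n p ^ (1 / 32 : ℝ) ∧ 3 ≤ B ∧
      (1 - p) * B ≤ Q ∧ (2 : ℝ) ^ L ≤ 2 ^ 96 * XX n p ∧ η 0 = 1 / n ∧ 1 / 500 ≤ η L ∧
      (∀ l < L, 1 / (n : ℝ) ≤ η l ∧ η l ≤ 1 ∧ 0 < b l ∧ b l ≤ 1 ∧ η (l + 1) = b l / 500 ∧
        b l + s0 * η l ≤ √(B / 4 ^ (l + 1) * (η l / 3000)) + B * (η l / 3000) ∧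
        Real.log (1 / η l) ≤ Real.log n / 2 ^ l + 2 * l + 30) ∧
      ∀ l, l + 1 < L → 10 * η l ≤ η (l + 1) := by
  have hN := lv_log_n hn
  have hX := XX_one_le hn hp hp1
  have hn0 : (0 : ℝ) < n := by exact_mod_cast (by omega : 0 < n)
  have hn1 : (1 : ℝ) ≤ n := by exact_mod_cast (by omega : 1 ≤ n)
  have he : (0 : ℝ) < 1 / n := by positivity
  -- the effective deletion probability
  obtain ⟨qe, hq0, hq1, hq2, hq3⟩ : ∃ qe : ℝ, 0 < qe ∧ qe ≤ 1 ∧ 1 - p ≤ qe ∧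
      1 + Real.log n / (1 + Real.log (1 / qe)) ≤ 2 * XX n p := by
    refine ⟨1 - p, by linarith, by linarith, le_rfl, ?_⟩
    change XX n p ≤ _
    linarith
  have hl0 : 0 ≤ Real.log (1 / qe) := Real.log_nonneg (by rw [le_div_iff₀ hq0]; linarith)
  obtain ⟨lam, hlam⟩ : ∃ lam, lam = Real.log (1 / qe) := ⟨_, rfl⟩
  rw [← hlam] at hl0 hq3
  obtain ⟨Xe, hXe⟩ : ∃ Xe, Xe = 1 + Real.log n / (1 + lam) := ⟨_, rfl⟩
  rw [← hXe] at hq3
  have hXe1 : 1 ≤ Xe := by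
    have : 0 ≤ Real.log n / (1 + lam) := by positivity
    linarith
  have hXe2 : Real.log n ≤ (1 + lam) * Xe := by
    rw [hXe, mul_add, mul_div_cancel₀ _ (by positivity)]
    linarith
  have hr1 : 1 ≤ Xe ^ (1 / 32 : ℝ) := Real.one_le_rpow hXe1 (by norm_num)
  have hr2 : Xe ^ (1 / 32 : ℝ) ≤ 2 * XX n p ^ (1 / 32 : ℝ) := by
    have a1 := Real.rpow_le_rpow (by linarith) hq3 (show (0 : ℝ) ≤ 1 / 32 by norm_num)
    rw [Real.mul_rpow (by norm_num) (by linarith)] at a1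
    have a2 : (2 : ℝ) ^ (1 / 32 : ℝ) ≤ 2 := by
      simpa using Real.rpow_le_rpow_of_exponent_le (show (1 : ℝ) ≤ 2 by norm_num)
        (show (1 / 32 : ℝ) ≤ 1 by norm_num)
    exact a1.trans (mul_le_mul_of_nonneg_right a2 (by positivity))
  obtain ⟨Q, hQ⟩ : ∃ Q : ℝ, Q = 10 ^ 9 * Xe ^ (1 / 32 : ℝ) := ⟨_, rfl⟩
  have hQ1 : 10 ^ 9 ≤ Q := by rw [hQ]; linarith
  obtain ⟨B, hB⟩ : ∃ B : ℝ, B = Q / qe := ⟨_, rfl⟩
  have hB1 : 10 ^ 9 ≤ B := by
    rw [hB, le_div_iff₀ hq0]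
    nlinarith
  have hB0 : 0 < B := by linarith
  have hlogX : 0 ≤ Real.log Xe := Real.log_nonneg hXe1
  have hlogB : 1 + lam + Real.log Xe / 32 ≤ Real.log (B / 3000000) := by
    have a1 : B / 3000000 = 1000 / 3 * Xe ^ (1 / 32 : ℝ) * (1 / qe) := by rw [hB, hQ]; ring
    have a2 : 1 ≤ Real.log (1000 / 3) := by
      rw [Real.le_log_iff_exp_le (by norm_num)]
      linarith [Real.exp_one_lt_d9]
    rw [a1, Real.log_mul (by positivity) (by positivity), Real.log_mul (by norm_num) (by positivity),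
      Real.log_rpow (by linarith), ← hlam]
    linarith
  obtain ⟨m, hm1, hm2⟩ := exists_nat_pow_near hXe1 (show (1 : ℝ) < 2 by norm_num)
  have hlog0 : -Real.log (1 / n : ℝ) = Real.log n := by rw [one_div, Real.log_inv, neg_neg]
  have hex : ∃ k, k ≤ m + 1 + 64 ∧ 1 / 500 ≤ lvEta B (1 / n) k := by
    by_contra hc
    push Not at hc
    have a1 := (lv_half hB1 he (m + 1) fun k hk => hc k (by omega)).2
    have a2 := lv_lin hB1 he (m + 1) 64 hc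
    have a3 : Real.log (lvEta B (1 / n) (m + 1 + 64)) < 0 :=
      Real.log_neg (lvEta_pos hB0 he _) (by linarith [hc _ le_rfl])
    have a4 : Real.log n / 2 ^ (m + 1) ≤ 1 + lam := by
      rw [div_le_iff₀ (by positivity)]
      exact hXe2.trans (mul_le_mul_of_nonneg_left hm2.le (by linarith))
    have a5 : m * Real.log 2 ≤ Real.log Xe := by
      rw [← Real.log_pow]
      exact Real.log_le_log (by positivity) hm1
    rw [hlog0] at a1
    push_cast at a1 a2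
    linarith [Real.log_two_lt_d9]
  have hex' : ∃ k, 1 / 500 ≤ lvEta B (1 / n) k := hex.imp fun _ h => h.2
  classical
  have hlt : ∀ l < Nat.find hex', ∀ k ≤ l, lvEta B (1 / n) k < 1 / 500 := fun l hl k hk =>
    not_le.1 (Nat.find_min hex' (hk.trans_lt hl))
  refine ⟨Nat.find hex', Q, B, lvEta B (1 / n), fun l => lvB B l (lvEta B (1 / n) l), by linarith,
    ?_, by linarith, ?_, ?_, rfl, Nat.find_spec hex', fun l hl => ?_, fun l hl => ?_⟩
  · have : 0 ≤ XX n p ^ (1 / 32 : ℝ) := by positivity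
    rw [hQ]
    linarith
  · rw [hB, ← mul_div_assoc, div_le_iff₀ hq0]
    nlinarith
  · obtain ⟨k, hk, hk'⟩ := hex
    calc (2 : ℝ) ^ Nat.find hex' ≤ 2 ^ (m + 1 + 64) :=
          pow_le_pow_right₀ (by norm_num) ((Nat.find_min' hex' hk').trans hk)
      _ = 2 ^ 65 * 2 ^ m := by ring
      _ ≤ 2 ^ 65 * (2 * XX n p) := by gcongr; linarith
      _ ≤ _ := by nlinarith
  · obtain ⟨a1, a2⟩ := lv_half hB1 he l (hlt l hl)
    have a3 := hlt l hl l le_rfl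
    have a4 := lvEta_pos hB0 he l
    refine ⟨a1, by linarith, lvB_pos hB0 a4 l, min_le_left _ _, rfl, ?_, ?_⟩
    · have b1 : lvB B l (lvEta B (1 / n) l) ≤ _ := min_le_right _ _
      have b2 := Real.sqrt_nonneg (B / 4 ^ (l + 1) * (lvEta B (1 / n) l / 3000))
      have b3 := mul_le_mul_of_nonneg_right hB1 a4.le
      unfold s0
      linarith
    · rw [hlog0] at a2
      rw [one_div (lvEta B (1 / n) l), Real.log_inv]
      have b1 : (l : ℝ) * Real.log 2 ≤ l * 1 :=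
        mul_le_mul_of_nonneg_left (by linarith [Real.log_two_lt_d9]) (Nat.cast_nonneg l)
      linarith
  · have a4 := lvEta_pos hB0 he l
    obtain ⟨s1, -⟩ := lv_step hB1 a4 l (hlt (l + 1) hl (l + 1) le_rfl)
    refine le_trans ?_ s1
    exact mul_le_mul_of_nonneg_right (by linarith) a4.le

end Crest.Agent.R300
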