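import Crest.Agent.R300.Gauss

/-!
# Row 300: the V-shaped contour.

Let `Φ(ξ) = ∑_u exp(iξu) d u` (entire; `‖Φ‖ ≤ M` for `im ξ ≥ 0`; `‖Φ‖ ≤ ε` on the sector, also at
`ξ = 0` by continuity), `g(ξ) = (2πρ)^(-1/2) exp(-(ξ - ϑ + iγ)²/(2ρ))`, `T = s0 η`.
By `gw_eq_integral` with `w = -ϑ + iγ` the sum equals `∫ g Φ` over `ℝ`.
Pointwise bound (`vee_exp`): for `0 ≤ η' ≤ |τ|/s0`,
`-(τ-ϑ)² + (η'+γ)² ≤ (5/16)ϑ² + 21γ² - τ²/200`.
Tails `|τ| > T`: `exp(-τ²/(400ρ)) ≤ exp(-T²/(800ρ)) exp(-τ²/(800ρ))`, Gaussian integral (factor 20).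
Middle part: `gΦ` is entire so has a primitive `F` (`Differentiable.isExactOn_univ`);
`∫_{-T}^{T} = F(T) - F(-T)` (`intervalIntegral.integral_eq_sub_of_hasDerivAt`), split along
`-T → -T+iη → 0 → T+iη → T` and bound each piece by length × sup
(`Convex.norm_image_sub_le_of_norm_hasDerivWithin_le` on `segment`).
-/

set_option autoImplicit false

namespace Crest.Agent.R300

open Complex

theorem vee_exp (τ ϑ η' γ : ℝ) (h0 : 0 ≤ η') (h1 : s0 * η' ≤ |τ|) (hγ : 0 ≤ γ) :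
    -(τ - ϑ) ^ 2 + (η' + γ) ^ 2 ≤ 5 / 16 * ϑ ^ 2 + 21 * γ ^ 2 - τ ^ 2 / 200 := by
  have h2 : (s0 * η') ^ 2 ≤ τ ^ 2 := by
    rw [← sq_abs τ]
    exact pow_le_pow_left₀ (by unfold s0; positivity) h1 2
  unfold s0 at h2
  nlinarith [sq_nonneg (η' - 20 * γ), sq_nonneg (16 * τ - 21 * ϑ), sq_nonneg τ]

theorem vee_seg {F f : ℂ → ℂ} (hF : ∀ z, HasDerivAt F (f z) z) (a b : ℂ) {C : ℝ}
    (h : ∀ t : ℝ, 0 ≤ t → t ≤ 1 → ‖f (a + t * (b - a))‖ ≤ C) : ‖F b - F a‖ ≤ C * ‖b - a‖ := by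
  refine (convex_segment (𝕜 := ℝ) a b).norm_image_sub_le_of_norm_hasDerivWithin_le
    (fun z _ => (hF z).hasDerivWithinAt) (fun z hz => ?_) (left_mem_segment _ _ _)
    (right_mem_segment _ _ _)
  rw [segment_eq_image'] at hz
  obtain ⟨t, ht, rfl⟩ := hz
  exact h t ht.1 ht.2

theorem vee_gauss {ρ γ : ℝ} (ϑ : ℝ) (hρ : 0 < ρ) (hγ : 0 ≤ γ) (z : ℂ) (h0 : 0 ≤ z.im)
    (h1 : s0 * z.im ≤ |z.re|) :
    ‖cexp (-((z + (-ϑ + γ * I)) ^ 2 / (2 * ρ)))‖ ≤
      Real.exp ((5 / 16 * ϑ ^ 2 + 21 * γ ^ 2) / (2 * ρ)) * Real.exp (-(z.re ^ 2 / (400 * ρ))) := by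
  rw [Complex.norm_exp, ← Real.exp_add, Real.exp_le_exp]
  have h2 : (-((z + (-ϑ + γ * I)) ^ 2 / (2 * ρ)) : ℂ).re
      = (-(z.re - ϑ) ^ 2 + (z.im + γ) ^ 2) / (2 * ρ) := by
    rw [show (2 * ρ : ℂ) = ((2 * ρ : ℝ) : ℂ) by push_cast; ring, Complex.neg_re,
      Complex.div_ofReal_re]
    simp [pow_two]
    ring
  have h3 := vee_exp z.re ϑ z.im γ h0 h1 hγ
  rw [h2]
  calc _ ≤ (5 / 16 * ϑ ^ 2 + 21 * γ ^ 2 - z.re ^ 2 / 200) / (2 * ρ) := by gcongr
    _ = _ := by field_simp; ring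

theorem vee_integrable {f : ℝ → ℂ} (hf : Continuous f) {A b : ℝ} (hb : 0 < b)
    (h : ∀ τ, ‖f τ‖ ≤ A * Real.exp (-b * τ ^ 2)) : MeasureTheory.Integrable f :=
  ((integrable_exp_neg_mul_sq hb).const_mul A).mono' hf.aestronglyMeasurable
    (Filter.Eventually.of_forall h)

theorem vee (N : ℕ) (d : ℕ → ℂ) {ρ η ε M γ : ℝ} (ϑ : ℝ) (hρ : 0 < ρ) (hη : 0 < η) (hγ : 0 ≤ γ)
    (hM : ∑ u ∈ Finset.range N, ‖d u‖ ≤ M)
    (hε : ∀ θ η' : ℝ, 0 < η' → η' ≤ η → |θ| ≤ s0 * η' →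
      ‖∑ u ∈ Finset.range N, cexp ((θ * I - η') * u) * d u‖ ≤ ε) :
    ‖∑ u ∈ Finset.range N, (gw ρ u : ℂ) * cexp ((ϑ * I + γ) * u) * d u‖ ≤
      25 * (1 + s0 * η / √ρ) * Real.exp ((5 / 16 * ϑ ^ 2 + 21 * γ ^ 2) / (2 * ρ)) *
        (ε + M * Real.exp (-((s0 * η) ^ 2 / (800 * ρ)))) := by
  obtain ⟨K, hK⟩ : ∃ K, K = Real.exp ((5 / 16 * ϑ ^ 2 + 21 * γ ^ 2) / (2 * ρ)) := ⟨_, rfl⟩
  obtain ⟨T, hT⟩ : ∃ T, T = s0 * η := ⟨_, rfl⟩
  obtain ⟨E, hE⟩ : ∃ E, E = Real.exp (-(T ^ 2 / (800 * ρ))) := ⟨_, rfl⟩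
  obtain ⟨c, hc⟩ : ∃ c, c = (√(2 * Real.pi * ρ))⁻¹ := ⟨_, rfl⟩
  obtain ⟨G, hG⟩ : ∃ G : ℂ → ℂ, G = fun z => (c : ℂ) * cexp (-((z + (-ϑ + γ * I)) ^ 2 / (2 * ρ))) :=
    ⟨_, rfl⟩
  obtain ⟨Φ, hΦ⟩ : ∃ Φ : ℂ → ℂ, Φ = fun z => ∑ u ∈ Finset.range N, cexp (z * I * u) * d u :=
    ⟨_, rfl⟩
  rw [← hK, ← hT, ← hE]
  have hK0 : 0 < K := by rw [hK]; positivity
  have hE0 : 0 < E := by rw [hE]; positivity
  have hc0 : 0 < c := by rw [hc]; positivity
  have hηT : 2 * η ≤ T := by rw [hT, s0]; linarith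
  have hT0 : 0 < T := by linarith
  have hM0 : 0 ≤ M := (Finset.sum_nonneg fun _ _ => norm_nonneg _).trans hM
  have hε0 : 0 ≤ ε := (norm_nonneg _).trans (hε 0 η hη le_rfl (by rw [abs_zero, ← hT]; linarith))
  have hsρ : 0 < √ρ := Real.sqrt_pos.2 hρ
  have hcρ : c ≤ 1 / (2 * √ρ) := by
    rw [hc, ← one_div]
    refine one_div_le_one_div_of_le (by positivity) (Real.le_sqrt_of_sq_le ?_)
    rw [mul_pow, Real.sq_sqrt hρ.le]
    nlinarith [Real.pi_gt_three]
  have hGd : Differentiable ℂ G := by rw [hG]; fun_prop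
  have hΦd : Differentiable ℂ Φ := by rw [hΦ]; fun_prop
  have hGb : ∀ z : ℂ, 0 ≤ z.im → s0 * z.im ≤ |z.re| →
      ‖G z‖ ≤ c * K * Real.exp (-(z.re ^ 2 / (400 * ρ))) := fun z h0 h1 => by
    rw [hG, norm_mul, Complex.norm_real, Real.norm_of_nonneg hc0.le, mul_assoc, hK]
    exact mul_le_mul_of_nonneg_left (vee_gauss ϑ hρ hγ z h0 h1) hc0.le
  have hex : ∀ (z : ℂ) (u : ℕ), 0 ≤ z.im → ‖cexp (z * I * u)‖ ≤ 1 := fun z u h0 => by
    rw [Complex.norm_exp, Real.exp_le_one_iff]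
    simp
    positivity
  have hΦM : ∀ z : ℂ, 0 ≤ z.im → ‖Φ z‖ ≤ M := fun z h0 => by
    rw [hΦ]
    refine (norm_sum_le _ _).trans ((Finset.sum_le_sum fun u _ => ?_).trans hM)
    rw [norm_mul]
    exact mul_le_of_le_one_left (norm_nonneg _) (hex z u h0)
  have hΦε : ∀ z : ℂ, 0 < z.im → z.im ≤ η → |z.re| ≤ s0 * z.im → ‖Φ z‖ ≤ ε :=
    fun z h0 h1 h2 => by
      have h3 : z * I = z.re * I - z.im := by
        conv_lhs => rw [← Complex.re_add_im z]
        rw [add_mul, mul_assoc, I_mul_I]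
        ring
      rw [hΦ]
      simp only [h3]
      exact hε _ _ h0 h1 h2
  have hΦ0 : ‖Φ 0‖ ≤ ε := by
    have h1 : Filter.Tendsto (fun t : ℝ => ‖Φ (t * I)‖) (nhdsWithin 0 (Set.Ioi 0))
        (nhds ‖Φ (((0 : ℝ) : ℂ) * I)‖) :=
      ((hΦd.continuous.comp (by fun_prop)).norm.tendsto (0 : ℝ)).mono_left nhdsWithin_le_nhds
    rw [Complex.ofReal_zero, zero_mul] at h1
    refine le_of_tendsto h1 (Filter.mem_of_superset (Ioc_mem_nhdsGT hη) fun t ht => hΦε _ ?_ ?_ ?_)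
    · simpa using ht.1
    · simpa using ht.2
    · have := ht.1
      simp only [s0, mul_re, ofReal_re, I_re, mul_zero, ofReal_im, I_im, mul_one, sub_self,
        abs_zero, mul_im, add_zero]
      positivity
  have hGr : ∀ τ : ℝ, ‖G τ‖ ≤ c * K * Real.exp (-(1 / (400 * ρ)) * τ ^ 2) := fun τ => by
    have := hGb τ (by simp) (by simp)
    rw [ofReal_re] at this
    rwa [show -(1 / (400 * ρ)) * τ ^ 2 = -(τ ^ 2 / (400 * ρ)) by ring]
  have hGc : Continuous fun τ : ℝ => G τ := hGd.continuous.comp Complex.continuous_ofReal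
  have hint : ∀ u : ℕ, MeasureTheory.Integrable fun τ : ℝ => G τ * (cexp (τ * I * u) * d u) :=
    fun u => vee_integrable (hGc.mul (by fun_prop)) (A := c * K * ‖d u‖) (b := 1 / (400 * ρ))
      (by positivity) fun τ => by
        rw [norm_mul, norm_mul]
        calc _ ≤ c * K * Real.exp (-(1 / (400 * ρ)) * τ ^ 2) * (1 * ‖d u‖) := by
              gcongr
              · exact hGr τ
              · exact hex τ u (by simp)
          _ = _ := by ring
  have hsum : ∑ u ∈ Finset.range N, (gw ρ u : ℂ) * cexp ((ϑ * I + γ) * u) * d u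
      = ∫ τ : ℝ, G τ * Φ τ := by
    rw [hΦ]
    simp only [Finset.mul_sum]
    rw [MeasureTheory.integral_finsetSum _ fun u _ => hint u]
    refine Finset.sum_congr rfl fun u _ => ?_
    rw [gw_eq_integral hρ u (-ϑ + γ * I), ← MeasureTheory.integral_mul_const,
      ← MeasureTheory.integral_mul_const]
    refine MeasureTheory.integral_congr_ae (Filter.Eventually.of_forall fun τ => ?_)
    have h1 : cexp ((τ + (-ϑ + γ * I)) * I * ((u : ℝ) : ℂ)) * cexp ((ϑ * I + γ) * u)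
        = cexp (τ * I * u) := by
      rw [← Complex.exp_add]
      congr 1
      push_cast
      linear_combination (γ * u : ℂ) * I_mul_I
    simp only [hG, hc, Complex.ofReal_inv]
    rw [← h1]
    ring
  have hI : MeasureTheory.Integrable fun τ : ℝ => G τ * Φ τ := by
    rw [hΦ]
    simp only [Finset.mul_sum]
    exact MeasureTheory.integrable_finsetSum _ fun u _ => hint u
  obtain ⟨F, hF⟩ := (hGd.mul hΦd).isExactOn_univ
  have hF' : ∀ z, HasDerivAt F (G z * Φ z) z := fun z => hF z (Set.mem_univ z)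
  have hmid : ∫ τ in Set.Ioc (-T) T, G τ * Φ τ = F T - F (-T) := by
    rw [← intervalIntegral.integral_of_le (by linarith),
      intervalIntegral.integral_eq_sub_of_hasDerivAt (f := fun τ : ℝ => F τ)
        (fun τ _ => (hF' τ).comp_ofReal) hI.intervalIntegrable, Complex.ofReal_neg]
  have htail : ‖∫ τ in (Set.Ioc (-T) T)ᶜ, G τ * Φ τ‖ ≤ 20 * K * M * E := by
    have hb : MeasureTheory.Integrable
        fun τ : ℝ => c * K * M * E * Real.exp (-(1 / (800 * ρ)) * τ ^ 2) :=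
      (integrable_exp_neg_mul_sq (by positivity)).const_mul _
    refine (MeasureTheory.norm_integral_le_of_norm_le hb.integrableOn
      ((MeasureTheory.ae_restrict_iff' measurableSet_Ioc.compl).2
        (Filter.Eventually.of_forall fun τ hτ => ?_))).trans
      ((MeasureTheory.setIntegral_le_integral hb
        (Filter.Eventually.of_forall fun τ => by positivity)).trans (le_of_eq ?_))
    · have h1 : T ^ 2 ≤ τ ^ 2 := by
        simp only [Set.mem_compl_iff, Set.mem_Ioc, not_and_or, not_lt, not_le] at hτ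
        rcases hτ with h | h <;> nlinarith
      have h2 : Real.exp (-(1 / (400 * ρ)) * τ ^ 2)
          ≤ E * Real.exp (-(1 / (800 * ρ)) * τ ^ 2) := by
        rw [hE, ← Real.exp_add, Real.exp_le_exp]
        have h3 : T ^ 2 / (800 * ρ) ≤ τ ^ 2 / (800 * ρ) := by gcongr
        have h4 : -(1 / (400 * ρ)) * τ ^ 2 = -(τ ^ 2 / (800 * ρ)) + -(1 / (800 * ρ)) * τ ^ 2 := by
          field_simp; ring
        linarith
      rw [norm_mul]
      calc _ ≤ c * K * (E * Real.exp (-(1 / (800 * ρ)) * τ ^ 2)) * M := by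
            gcongr
            · exact (hGr τ).trans (by gcongr)
            · exact hΦM τ (by simp)
        _ = _ := by ring
    · rw [MeasureTheory.integral_const_mul, integral_gaussian]
      have h1 : √(Real.pi / (1 / (800 * ρ))) = 20 * √(2 * Real.pi * ρ) := by
        rw [show Real.pi / (1 / (800 * ρ)) = 20 ^ 2 * (2 * Real.pi * ρ) by field_simp; ring,
          Real.sqrt_mul (by norm_num), Real.sqrt_sq (by norm_num)]
      have h2 : 0 < √(2 * Real.pi * ρ) := by positivity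
      rw [h1, hc]
      field_simp
  have hvert : ∀ σ : ℝ, |σ| = T → ‖F (σ + η * I) - F σ‖ ≤ c * K * E * M * η := fun σ hσ => by
    have h1 := vee_seg hF' σ (σ + η * I) (C := c * K * E * M) fun t h0 h1 => by
      have e1 : ((σ : ℂ) + t * (σ + η * I - σ)).im = t * η := by simp
      have e2 : ((σ : ℂ) + t * (σ + η * I - σ)).re = σ := by simp
      have e3 : 0 ≤ t * η := by positivity
      rw [norm_mul]
      refine mul_le_mul ((hGb _ (by rw [e1]; exact e3) ?_).trans ?_) (hΦM _ (by rw [e1]; exact e3))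
        (norm_nonneg _) (by positivity)
      · rw [e1, e2, hσ, hT]
        exact mul_le_mul_of_nonneg_left (by nlinarith) (by unfold s0; positivity)
      · rw [e2, ← sq_abs σ, hσ, hE]
        gcongr
        linarith
    rwa [add_sub_cancel_left, norm_mul, Complex.norm_I, mul_one, Complex.norm_real,
      Real.norm_of_nonneg hη.le] at h1
  have hsl : ∀ σ : ℝ, |σ| = T → ‖F (σ + η * I) - F 0‖ ≤ c * K * ε * (2 * T) := fun σ hσ => by
    have h1 := vee_seg hF' 0 (σ + η * I) (C := c * K * ε) fun t h0 h1 => by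
      have e1 : ((0 : ℂ) + t * (σ + η * I - 0)).im = t * η := by simp
      have e2 : ((0 : ℂ) + t * (σ + η * I - 0)).re = t * σ := by simp
      have e3 : 0 ≤ t * η := by positivity
      have e4 : |t * σ| = s0 * (t * η) := by rw [abs_mul, abs_of_nonneg h0, hσ, hT]; ring
      rw [norm_mul]
      refine mul_le_mul ((hGb _ (by rw [e1]; exact e3) (by rw [e1, e2, e4])).trans ?_) ?_
        (norm_nonneg _) (by positivity)
      · refine mul_le_of_le_one_right (by positivity) (Real.exp_le_one_iff.2 ?_)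
        rw [neg_nonpos]
        positivity
      · rcases h0.eq_or_lt with rfl | h0'
        · simpa using hΦ0
        · exact hΦε _ (by rw [e1]; positivity) (by rw [e1]; nlinarith) (by rw [e1, e2, e4])
    refine h1.trans (mul_le_mul_of_nonneg_left ?_ (by positivity))
    rw [sub_zero]
    refine (norm_add_le _ _).trans ?_
    rw [norm_mul, Complex.norm_I, mul_one, Complex.norm_real, Complex.norm_real,
      Real.norm_of_nonneg hη.le, Real.norm_eq_abs, hσ]
    linarith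
  have a1 := hvert T (abs_of_pos hT0)
  have a2 := hvert (-T) (by rw [abs_neg, abs_of_pos hT0])
  have a3 := hsl T (abs_of_pos hT0)
  have a4 := hsl (-T) (by rw [abs_neg, abs_of_pos hT0])
  rw [Complex.ofReal_neg] at a2 a4
  have hm : ‖F T - F (-T)‖ ≤ 2 * (c * K * E * M * η) + 2 * (c * K * ε * (2 * T)) := by
    have e : F T - F (-T) = (F (-T + η * I) - F (-T)) - (F (T + η * I) - F T)
        + ((F (T + η * I) - F 0) - (F (-T + η * I) - F 0)) := by ring
    rw [e]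
    refine (norm_add_le _ _).trans ?_
    linarith [norm_sub_le (F (-T + η * I) - F (-T)) (F (T + η * I) - F T),
      norm_sub_le (F (T + η * I) - F 0) (F (-T + η * I) - F 0)]
  rw [hsum, ← MeasureTheory.integral_add_compl (measurableSet_Ioc (a := -T) (b := T)) hI, hmid]
  refine (norm_add_le _ _).trans ((add_le_add hm htail).trans ?_)
  have b0 : c * T ≤ T / √ρ := by
    calc c * T ≤ 1 / (2 * √ρ) * T := by gcongr
      _ = T / √ρ / 2 := by field_simp
      _ ≤ T / √ρ := half_le_self (by positivity)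
  have b1 : c * η ≤ T / √ρ := le_trans (by gcongr; linarith) b0
  have b2 : 0 ≤ T / √ρ := by positivity
  generalize T / √ρ = x at b0 b1 b2
  have c1 : c * η * (K * (M * E)) ≤ x * (K * (M * E)) := by gcongr
  have c2 : c * T * (K * ε) ≤ x * (K * ε) := by gcongr
  have c3 : 0 ≤ K * (M * E) := by positivity
  have c4 : 0 ≤ K * ε := by positivity
  nlinarith [mul_nonneg b2 c3, mul_nonneg b2 c4]

end Crest.Agent.R300
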