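import Crest.Agent.R300.URep
import Crest.Agent.R300.Vee

/-!
# Row 300: fourfold products of windowed transforms.

`prod_core` (fixed real shifts `τ₁ τ₂ τ₃`): for `i = 1,2,3` put `vᵢ = exp(-(θᵢ+τᵢ) i - γ)` and
`Hᵢ y J = ∑_{j < J + eᵢ} vᵢ^(J-j) Ψᵢ y j`; then
`∑_{j<J+eᵢ} exp(((θᵢ+τᵢ)i + γ)(j-t)) Ψᵢ y j = exp(((θᵢ+τᵢ)i+γ)(J-t)) Hᵢ y J`.
`Hᵢ = [eᵢ] Ψᵢ + vᵢ · trail`, so `URep A'' (k+1) (4/γ) Hᵢ` (`URep.trail/smul/add`,
`1 + 1/(1-e^{-γ}) ≤ 4/γ` for `γ ≤ 1`) where `A'' = A` if `|τᵢ| ≤ s0 η` for all `i` and otherwise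
`A'' ≥ A` is any number making `vᵢ` admissible.  `Ψ = (Ψ₀ H₁)(H₂ H₃)` is
`URep (4A'') (4k+3) C` with `C = 3^(8k+6) (4/γ)^3` (`URep.mul`).  Terms `J < t` vanish
(`URep.Dl_zero`); `gw ρ u = gw (ρ-ρp) u * gw ρp u`.  Apply `vee` with `ρ - ρp`,
`d u = gw ρp u * Dl(Ψ · (t+u))`, `ϑ = ∑θ + ∑τ`, `3γ`, `M = 2 C W` (`URep.Dl_le`), and
`ε = C exp(-E)` (`Hyp.scale`) in the good case, `ε = M` otherwise (then use
`1 ≤ exp((∑τ² - (s0 η)²)/(200ρ))` and `(s0 η)²/(200ρ) ≥ 9E`).  Use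
`ϑ² ≤ (51/50)·3∑τ² + 51ρ`, `ρ - ρp ≥ 0.99ρ`, `(s0η)²/(800(ρ-ρp)) ≥ 2.25 E`, `γ²/ρ = E/22500`,
`s0 η/√(ρ-ρp) ≤ 43√E`.
-/

set_option autoImplicit false

namespace Crest.Agent.R300

open Complex

/-- all side conditions of one step -/
structure StepData (n : ℕ) (B γ0 A ρp η E b : ℝ) (k : ℕ) : Prop where
  hγ0 : 0 < γ0
  hA : 0 ≤ A
  hη : 0 < η
  hη1 : η ≤ 1
  hγ : γ0 ≤ η / 3000
  hρp0 : 0 ≤ ρp
  hρp : ρp ≤ η ^ 2 / (400 * E) / 100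
  hW : ∑ u ∈ Finset.range n, gw ρp u ≤ Real.exp E
  hb : 0 < b
  hb1 : b ≤ 1
  hbA : b + s0 * η ≤ √(A * (η / 3000)) + B * (η / 3000)
  hE : 100000 ≤ E
  hk : 10000 * ((k : ℝ) + 1) ≤ E
  hηE : 1 / η ≤ Real.exp (E / 10000)

/-- partial windowed sum with a general weight -/
noncomputable def PSum (w : ℕ → ℂ) (Ψ : (ℕ → Bool) → ℕ → ℂ) (y : ℕ → Bool) (J : ℕ) : ℂ :=
  ∑ j ∈ Finset.range J, w j * Ψ y j

/-- the normalised partial sum -/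
noncomputable def HH (v : ℂ) (e : ℕ) (Ψ : (ℕ → Bool) → ℕ → ℂ) : (ℕ → Bool) → ℕ → ℂ :=
  fun y J => (e : ℂ) * Ψ y J + v * ∑ j ∈ Finset.range J, v ^ (J - 1 - j) * Ψ y j

theorem PSum_eq (a : ℂ) (t : ℕ) {e : ℕ} (he : e ≤ 1) (Ψ : (ℕ → Bool) → ℕ → ℂ) (y : ℕ → Bool)
    (J : ℕ) :
    PSum (fun j => cexp (a * ((j : ℝ) - t : ℝ))) Ψ y (J + e) =
      cexp (a * ((J : ℝ) - t : ℝ)) * HH (cexp (-a)) e Ψ y J := by
  have key : ∑ j ∈ Finset.range J, cexp (a * ((j : ℝ) - t : ℝ)) * Ψ y j =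
      cexp (a * ((J : ℝ) - t : ℝ)) *
        (cexp (-a) * ∑ j ∈ Finset.range J, cexp (-a) ^ (J - 1 - j) * Ψ y j) := by
    rw [Finset.mul_sum, Finset.mul_sum]
    refine Finset.sum_congr rfl fun j hj => ?_
    obtain ⟨m, rfl⟩ : ∃ m, J = j + m + 1 := ⟨J - 1 - j, by have := Finset.mem_range.1 hj; omega⟩
    have : j + m + 1 - 1 - j = m := by omega
    rw [this, ← Complex.exp_nat_mul, ← mul_assoc, ← mul_assoc, ← Complex.exp_add,
      ← Complex.exp_add]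
    congr 2
    push_cast
    ring
  unfold PSum HH
  rcases Nat.le_one_iff_eq_zero_or_eq_one.1 he with rfl | rfl
  · rw [Nat.add_zero, key]; simp
  · rw [Finset.sum_range_succ, key]; push_cast; ring

theorem URep.hh {B γ0 A : ℝ} {k : ℕ} {Ψ : (ℕ → Bool) → ℕ → ℂ} (h : URep B γ0 A k 1 Ψ)
    (h0 : 0 < γ0) {α γ : ℝ} (hγ : γ0 ≤ γ) (hγ1 : γ ≤ 1) (hα : |α| ≤ √(A * γ) + B * γ) {e : ℕ}
    (he : e ≤ 1) :
    URep B γ0 A (k + 1) (4 / γ) (HH (cexp (-((α : ℂ) * I + (γ : ℂ)))) e Ψ) := by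
  set v := cexp (-((α : ℂ) * I + (γ : ℂ))) with hv
  have hγ0 : 0 < γ := lt_of_lt_of_le h0 hγ
  have hin : InZ B γ0 A v := by
    refine ⟨-α, γ, ?_, hγ, by rwa [abs_neg]⟩
    rw [hv]; congr 1; push_cast; ring
  have hn : ‖v‖ = Real.exp (-γ) := by
    rw [hv, Complex.norm_exp]; congr 1; simp
  have h1 := ((h.smul (e : ℂ)).mono h0 le_rfl (Nat.le_succ k) le_rfl).add ((h.trail h0 hin).smul v)
  refine h1.mono h0 le_rfl le_rfl ?_
  have he1 : ‖(e : ℂ)‖ ≤ 1 := by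
    rw [Complex.norm_natCast]; exact_mod_cast he
  have hq : Real.exp (-γ) ≤ 1 - γ / 2 := by
    have h2 : 1 + γ ≤ Real.exp γ := by linarith [Real.add_one_le_exp γ]
    have h3 : Real.exp (-γ) * Real.exp γ = 1 := by rw [← Real.exp_add]; simp
    have h4 := Real.exp_pos (-γ)
    nlinarith
  have hq0 := Real.exp_pos (-γ)
  rw [hn]
  have h5 : Real.exp (-γ) * (1 / (1 - Real.exp (-γ))) ≤ 2 / γ := by
    rw [mul_one_div, div_le_div_iff₀ (by linarith) hγ0]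
    nlinarith
  have h6 : 1 ≤ 2 / γ := by rw [le_div_iff₀ hγ0]; linarith
  have h7 : 4 / γ = 2 / γ + 2 / γ := by ring
  linarith

theorem Dl_sum_mul {Ω : Type} [Fintype Ω] (μ : Ω → ℝ) (x : Ω) (s : Finset ℕ) (c : ℕ → ℂ)
    (f : ℕ → Ω → ℂ) :
    Dl μ x (fun y => ∑ J ∈ s, c J * f J y) = ∑ J ∈ s, c J * Dl μ x (f J) := by
  unfold Dl Et
  simp only [Finset.mul_sum, mul_sub, Finset.sum_sub_distrib]
  rw [Finset.sum_comm]
  congr 1
  refine Finset.sum_congr rfl fun J _ => Finset.sum_congr rfl fun y _ => ?_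
  ring

theorem gw_split (ρ ρp u : ℝ) : gw ρ u = gw (ρ - ρp) u * gw ρp u := by
  unfold gw
  rw [← Real.exp_add]
  congr 1
  ring

theorem gw_pos' (ρ u : ℝ) : 0 < gw ρ u := Real.exp_pos _

theorem shift_sum {n t : ℕ} (ht : t ≤ n) (F : ℕ → ℂ) (h : ∀ j < t, F j = 0) :
    ∑ J ∈ Finset.range n, F J = ∑ u ∈ Finset.range (n - t), F (t + u) := by
  have := Finset.sum_range_add F t (n - t)
  rw [Nat.add_sub_cancel' ht] at this
  rw [this, Finset.sum_eq_zero fun j hj => h j (Finset.mem_range.1 hj), zero_add]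

/-- numerical bound for the prefactor of `vee` -/
theorem pref_le {η E ρp : ℝ} (hη : 0 < η) (hE : 100000 ≤ E)
    (hρp : ρp ≤ η ^ 2 / (400 * E) / 100) {S τ₁ τ₂ τ₃ : ℝ} (hs : |S| ≤ √(η ^ 2 / (400 * E))) :
    25 * (1 + s0 * η / √(η ^ 2 / (400 * E) - ρp)) *
        Real.exp ((5 / 16 * (S + (τ₁ + τ₂ + τ₃)) ^ 2 + 21 * (3 * (η / 3000)) ^ 2) /
          (2 * (η ^ 2 / (400 * E) - ρp))) ≤
      25 * (1 + 43 * √E) * (Real.exp (9 + E / 230) *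
        Real.exp (0.966 * (τ₁ ^ 2 + τ₂ ^ 2 + τ₃ ^ 2) / (2 * (η ^ 2 / (400 * E))))) := by
  set ρ := η ^ 2 / (400 * E) with hρ
  have hE0 : 0 < E := by linarith
  have hρ0 : 0 < ρ := by positivity
  have hρ' : 0.99 * ρ ≤ ρ - ρp := by linarith
  have hρ'0 : 0 < ρ - ρp := by linarith
  have hηρ : η ^ 2 = 400 * E * ρ := by rw [hρ]; field_simp
  have h1 : s0 * η / √(ρ - ρp) ≤ 43 * √E := by
    rw [div_le_iff₀ (Real.sqrt_pos.2 hρ'0), mul_assoc, ← Real.sqrt_mul hE0.le]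
    have h2 : s0 * η / 43 ≤ √(E * (ρ - ρp)) := by
      apply Real.le_sqrt_of_sq_le
      have : E * (0.99 * ρ) ≤ E * (ρ - ρp) := mul_le_mul_of_nonneg_left hρ' hE0.le
      have h3 : (s0 * η / 43) ^ 2 = (17 / 8 / 43) ^ 2 * (400 * E * ρ) := by
        rw [← hηρ]; unfold s0; ring
      have h4 : 0 < E * ρ := mul_pos hE0 hρ0
      rw [h3]
      nlinarith
    linarith
  have hS : S ^ 2 ≤ ρ := by
    have := sq_le_sq' (neg_le_of_abs_le hs) (le_of_abs_le hs)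
    rwa [Real.sq_sqrt hρ0.le] at this
  set Q := τ₁ ^ 2 + τ₂ ^ 2 + τ₃ ^ 2 with hQ
  have hQ0 : 0 ≤ Q := by positivity
  have hT : (τ₁ + τ₂ + τ₃) ^ 2 ≤ 3 * Q := by
    nlinarith [sq_nonneg (τ₁ - τ₂), sq_nonneg (τ₁ - τ₃), sq_nonneg (τ₂ - τ₃)]
  have hϑ : (S + (τ₁ + τ₂ + τ₃)) ^ 2 ≤ 51 / 50 * (3 * Q) + 51 * ρ := by
    nlinarith [sq_nonneg (50 * S - (τ₁ + τ₂ + τ₃))]
  have h5 : (5 / 16 * (S + (τ₁ + τ₂ + τ₃)) ^ 2 + 21 * (3 * (η / 3000)) ^ 2) / (2 * (ρ - ρp)) ≤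
      9 + E / 230 + 0.966 * Q / (2 * ρ) := by
    have h6 : 21 * (3 * (η / 3000)) ^ 2 = 21 * 400 / 1000000 * (E * ρ) := by
      have : 21 * (3 * (η / 3000)) ^ 2 = 21 / 1000000 * η ^ 2 := by ring
      rw [this, hηρ]; ring
    have h7 : 9 + E / 230 + 0.966 * Q / (2 * ρ) =
        (0.99 * (18 * ρ + E * ρ / 115 + 0.966 * Q)) / (2 * (0.99 * ρ)) := by
      field_simp; ring
    have h4 : 0 < E * ρ := mul_pos hE0 hρ0
    rw [h7, h6]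
    refine div_le_div₀ (by positivity) ?_ (by positivity) (by linarith)
    nlinarith
  rw [← Real.exp_add]
  refine mul_le_mul (by linarith) (Real.exp_le_exp.2 h5) (Real.exp_pos _).le (by positivity)

section
variable {n d t k : ℕ} {x : Fin n → Bool} {μ : (Fin n → Bool) → ℝ} {B γ0 A ρp η E b : ℝ}
  {Ψ₀ Ψ₁ Ψ₂ Ψ₃ : (ℕ → Bool) → ℕ → ℂ} {θ₀ θ₁ θ₂ θ₃ : ℝ}

theorem prod_core (hpd : PD d t x μ) (hd : 4 * k + 4 ≤ d) (D : StepData n B γ0 A ρp η E b k)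
    (H : Hyp μ x t B γ0 (4 * A) (4 * k + 3) ρp η E)
    (h₀ : URep B γ0 A k 1 Ψ₀) (h₁ : URep B γ0 A k 1 Ψ₁) (h₂ : URep B γ0 A k 1 Ψ₂)
    (h₃ : URep B γ0 A k 1 Ψ₃) (b₁ : |θ₁| ≤ b) (b₂ : |θ₂| ≤ b) (b₃ : |θ₃| ≤ b)
    (hs : |θ₀ + θ₁ + θ₂ + θ₃| ≤ √(η ^ 2 / (400 * E))) (e₁ e₂ e₃ : ℕ) (he₁ : e₁ ≤ 1)
    (he₂ : e₂ ≤ 1) (he₃ : e₃ ≤ 1) (τ₁ τ₂ τ₃ : ℝ) :
    ‖Dl μ x fun y => ∑ J ∈ Finset.range n,
        (gw (η ^ 2 / (400 * E)) ((J : ℝ) - t) : ℂ) * cexp (θ₀ * I * ((J : ℝ) - t : ℝ)) *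
          Ψ₀ (yb y) J *
        (PSum (fun j => cexp (((θ₁ + τ₁ : ℝ) * I + (η / 3000 : ℝ)) * ((j : ℝ) - t : ℝ))) Ψ₁
            (yb y) (J + e₁) *
          PSum (fun j => cexp (((θ₂ + τ₂ : ℝ) * I + (η / 3000 : ℝ)) * ((j : ℝ) - t : ℝ))) Ψ₂
            (yb y) (J + e₂) *
          PSum (fun j => cexp (((θ₃ + τ₃ : ℝ) * I + (η / 3000 : ℝ)) * ((j : ℝ) - t : ℝ))) Ψ₃
            (yb y) (J + e₃))‖ ≤
      (100 * (1 + 43 * √E) * Real.exp (9 + E / 230) * (3 ^ (8 * k + 6) * (12000 / η) ^ 3) *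
          Real.exp (-E)) *
        Real.exp (0.98 * (τ₁ ^ 2 + τ₂ ^ 2 + τ₃ ^ 2) / (2 * (η ^ 2 / (400 * E)))) := by
  have hη := D.hη
  have hE := D.hE
  have hE0 : 0 < E := by linarith
  have h0 := D.hγ0
  set ρ := η ^ 2 / (400 * E) with hρ
  set γ := η / 3000 with hγ
  have hρ0 : 0 < ρ := by positivity
  have hγ0 : 0 < γ := by positivity
  have hγ1 : γ ≤ 1 := by have := D.hη1; rw [hγ]; linarith
  have hρ'0 : 0 < ρ - ρp := by have := D.hρp; linarith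
  have hηρ : η ^ 2 = 400 * E * ρ := by rw [hρ]; field_simp
  set C : ℝ := 3 ^ (8 * k + 6) * (12000 / η) ^ 3 with hC
  have hC0 : 0 < C := by positivity
  set Ψ : (ℕ → Bool) → ℕ → ℂ := fun y J =>
    (Ψ₀ y J * HH (cexp (-(((θ₁ + τ₁ : ℝ) : ℂ) * I + (γ : ℂ)))) e₁ Ψ₁ y J) *
      (HH (cexp (-(((θ₂ + τ₂ : ℝ) : ℂ) * I + (γ : ℂ)))) e₂ Ψ₂ y J *
        HH (cexp (-(((θ₃ + τ₃ : ℝ) : ℂ) * I + (γ : ℂ)))) e₃ Ψ₃ y J) with hΨ
  have hrep : ∀ A', A ≤ A' → |θ₁ + τ₁| ≤ √(A' * γ) + B * γ → |θ₂ + τ₂| ≤ √(A' * γ) + B * γ →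
      |θ₃ + τ₃| ≤ √(A' * γ) + B * γ → URep B γ0 (4 * A') (4 * k + 3) C Ψ := by
    intro A' hA' c₁ c₂ c₃
    have hA0 : 0 ≤ A' := D.hA.trans hA'
    have g₀ := h₀.mono h0 hA' le_rfl le_rfl
    have g₁ := (h₁.mono h0 hA' le_rfl le_rfl).hh h0 D.hγ hγ1 c₁ he₁
    have g₂ := (h₂.mono h0 hA' le_rfl le_rfl).hh h0 D.hγ hγ1 c₂ he₂
    have g₃ := (h₃.mono h0 hA' le_rfl le_rfl).hh h0 D.hγ hγ1 c₃ he₃
    have g := (g₀.mul g₁ h0 hA0).mul (g₂.mul g₃ h0 hA0) h0 (by linarith)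
    refine g.mono h0 (by linarith) (by omega) (le_of_eq ?_)
    have e1 : (4 : ℝ) / γ = 12000 / η := by rw [hγ]; field_simp; norm_num
    rw [e1, hC]
    ring
  obtain ⟨A', hU⟩ : ∃ A', URep B γ0 (4 * A') (4 * k + 3) C Ψ := by
    set X := |θ₁ + τ₁| + |θ₂ + τ₂| + |θ₃ + τ₃| + |B * γ| with hX
    have hX0 : 0 ≤ X := by positivity
    have hXs : X ≤ √((A + X ^ 2 / γ) * γ) := by
      apply Real.le_sqrt_of_sq_le
      have : (A + X ^ 2 / γ) * γ = A * γ + X ^ 2 := by field_simp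
      rw [this]
      nlinarith [mul_nonneg D.hA hγ0.le]
    have a1 := abs_nonneg (θ₁ + τ₁)
    have a2 := abs_nonneg (θ₂ + τ₂)
    have a3 := abs_nonneg (θ₃ + τ₃)
    have a4 := neg_abs_le (B * γ)
    refine ⟨A + X ^ 2 / γ, hrep _ ?_ ?_ ?_ ?_⟩
    · have : 0 ≤ X ^ 2 / γ := by positivity
      linarith
    all_goals linarith
  set ϑ : ℝ := (θ₀ + θ₁ + θ₂ + θ₃) + (τ₁ + τ₂ + τ₃) with hϑ
  set dd : ℕ → ℂ := fun u => (gw ρp u : ℂ) * Dl μ x fun y => Ψ (yb y) (t + u) with hdd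
  have hsum : (Dl μ x fun y => ∑ J ∈ Finset.range n,
        (gw ρ ((J : ℝ) - t) : ℂ) * cexp (θ₀ * I * ((J : ℝ) - t : ℝ)) *
          Ψ₀ (yb y) J *
        (PSum (fun j => cexp (((θ₁ + τ₁ : ℝ) * I + (γ : ℝ)) * ((j : ℝ) - t : ℝ))) Ψ₁
            (yb y) (J + e₁) *
          PSum (fun j => cexp (((θ₂ + τ₂ : ℝ) * I + (γ : ℝ)) * ((j : ℝ) - t : ℝ))) Ψ₂
            (yb y) (J + e₂) *
          PSum (fun j => cexp (((θ₃ + τ₃ : ℝ) * I + (γ : ℝ)) * ((j : ℝ) - t : ℝ))) Ψ₃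
            (yb y) (J + e₃))) =
      ∑ u ∈ Finset.range (n - t),
        (gw (ρ - ρp) u : ℂ) * cexp ((ϑ * I + (3 * γ : ℝ)) * u) * dd u := by
    have e1 : (fun y : Fin n → Bool => ∑ J ∈ Finset.range n,
        (gw ρ ((J : ℝ) - t) : ℂ) * cexp (θ₀ * I * ((J : ℝ) - t : ℝ)) *
          Ψ₀ (yb y) J *
        (PSum (fun j => cexp (((θ₁ + τ₁ : ℝ) * I + (γ : ℝ)) * ((j : ℝ) - t : ℝ))) Ψ₁
            (yb y) (J + e₁) *
          PSum (fun j => cexp (((θ₂ + τ₂ : ℝ) * I + (γ : ℝ)) * ((j : ℝ) - t : ℝ))) Ψ₂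
            (yb y) (J + e₂) *
          PSum (fun j => cexp (((θ₃ + τ₃ : ℝ) * I + (γ : ℝ)) * ((j : ℝ) - t : ℝ))) Ψ₃
            (yb y) (J + e₃))) = fun y => ∑ J ∈ Finset.range n,
        ((gw ρ ((J : ℝ) - t) : ℂ) * cexp ((ϑ * I + (3 * γ : ℝ)) * ((J : ℝ) - t : ℝ))) *
          Ψ (yb y) J := by
      funext y
      refine Finset.sum_congr rfl fun J _ => ?_
      rw [PSum_eq _ _ he₁, PSum_eq _ _ he₂, PSum_eq _ _ he₃]
      have e2 : cexp ((ϑ * I + (3 * γ : ℝ)) * ((J : ℝ) - t : ℝ)) =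
          cexp (θ₀ * I * ((J : ℝ) - t : ℝ)) *
            (cexp (((θ₁ + τ₁ : ℝ) * I + (γ : ℝ)) * ((J : ℝ) - t : ℝ)) *
              cexp (((θ₂ + τ₂ : ℝ) * I + (γ : ℝ)) * ((J : ℝ) - t : ℝ)) *
              cexp (((θ₃ + τ₃ : ℝ) * I + (γ : ℝ)) * ((J : ℝ) - t : ℝ))) := by
        rw [← Complex.exp_add, ← Complex.exp_add, ← Complex.exp_add]
        congr 1
        rw [hϑ]
        push_cast
        ring
      rw [e2, hΨ]
      ring
    rw [e1, Dl_sum_mul μ x _ _ (fun J y => Ψ (yb y) J),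
      shift_sum hpd.ht.le _ fun j hj => by rw [hU.Dl_zero hpd hj, mul_zero]]
    refine Finset.sum_congr rfl fun u _ => ?_
    have e3 : (((t + u : ℕ) : ℝ) - t : ℝ) = u := by push_cast; ring
    rw [e3, gw_split ρ ρp, hdd]
    push_cast
    ring
  have hM : ∑ u ∈ Finset.range (n - t), ‖dd u‖ ≤ 2 * C * Real.exp E := by
    calc ∑ u ∈ Finset.range (n - t), ‖dd u‖ ≤ ∑ u ∈ Finset.range (n - t), 2 * C * gw ρp u := by
          refine Finset.sum_le_sum fun u _ => ?_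
          rw [hdd]
          simp only [norm_mul, Complex.norm_real, Real.norm_eq_abs, abs_of_pos (gw_pos' ρp u)]
          rw [mul_comm]
          exact mul_le_mul_of_nonneg_right (hU.Dl_le hpd h0 (by omega) _) (gw_pos' _ _).le
      _ ≤ ∑ u ∈ Finset.range n, 2 * C * gw ρp u :=
          Finset.sum_le_sum_of_subset_of_nonneg (Finset.range_mono (Nat.sub_le n t))
            fun u _ _ => mul_nonneg (by positivity) (gw_pos' _ _).le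
      _ ≤ 2 * C * Real.exp E := by
          rw [← Finset.mul_sum]
          exact mul_le_mul_of_nonneg_left D.hW (by positivity)
  have hpref := pref_le (τ₁ := τ₁) (τ₂ := τ₂) (τ₃ := τ₃) hη hE D.hρp hs
  rw [hsum]
  set Q := τ₁ ^ 2 + τ₂ ^ 2 + τ₃ ^ 2 with hQ
  have hQ0 : 0 ≤ Q := by positivity
  have hK : 0 ≤ 25 * (1 + 43 * √E) * (Real.exp (9 + E / 230) * Real.exp (0.966 * Q / (2 * ρ))) := by
    positivity
  have hs0 : (s0 * η) ^ 2 = 289 / 64 * 400 * (E * ρ) := by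
    have : (s0 * η) ^ 2 = 289 / 64 * η ^ 2 := by unfold s0; ring
    rw [this, hηρ]; ring
  have hEρ : 0 < E * ρ := mul_pos hE0 hρ0
  by_cases hgood : |τ₁| ≤ s0 * η ∧ |τ₂| ≤ s0 * η ∧ |τ₃| ≤ s0 * η
  · have hbA : b + s0 * η ≤ √(A * γ) + B * γ := D.hbA
    have hU' := hrep A le_rfl (by linarith [abs_add_le θ₁ τ₁, hgood.1])
      (by linarith [abs_add_le θ₂ τ₂, hgood.2.1]) (by linarith [abs_add_le θ₃ τ₃, hgood.2.2])
    have hv := vee (n - t) dd (ε := C * Real.exp (-E)) ϑ hρ'0 hη (by positivity : 0 ≤ 3 * γ) hM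
      fun θ η' a1 a2 a3 => H.scale hU' hC0 a1 a2 a3
    refine hv.trans ?_
    have h1 : Real.exp E * Real.exp (-((s0 * η) ^ 2 / (800 * (ρ - ρp)))) ≤ Real.exp (-E) := by
      rw [← Real.exp_add]
      apply Real.exp_le_exp.2
      have : 2 * E ≤ (s0 * η) ^ 2 / (800 * (ρ - ρp)) := by
        rw [le_div_iff₀ (by positivity), hs0]
        nlinarith [mul_nonneg hE0.le D.hρp0]
      linarith
    have h2 : C * Real.exp (-E) + 2 * C * Real.exp E *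
        Real.exp (-((s0 * η) ^ 2 / (800 * (ρ - ρp)))) ≤ 4 * (C * Real.exp (-E)) := by
      have := mul_le_mul_of_nonneg_left h1 hC0.le
      have h3 : 0 < C * Real.exp (-E) := by positivity
      nlinarith
    have h3 : Real.exp (0.966 * Q / (2 * ρ)) ≤ Real.exp (0.98 * Q / (2 * ρ)) := by
      apply Real.exp_le_exp.2
      exact div_le_div_of_nonneg_right (by nlinarith) (by positivity)
    refine (mul_le_mul hpref h2 (by positivity) hK).trans ?_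
    have h4 : 0 ≤ 100 * (1 + 43 * √E) * Real.exp (9 + E / 230) * C * Real.exp (-E) := by
      positivity
    have := mul_le_mul_of_nonneg_left h3 h4
    nlinarith
  · have hQ1 : (s0 * η) ^ 2 ≤ Q := by
      have hs1 : 0 ≤ s0 * η := by unfold s0; positivity
      have aux : ∀ τ : ℝ, ¬ |τ| ≤ s0 * η → (s0 * η) ^ 2 ≤ τ ^ 2 := fun τ hτ => by
        rw [← sq_abs τ]
        exact pow_le_pow_left₀ hs1 (le_of_not_ge hτ) 2
      by_cases c1 : |τ₁| ≤ s0 * η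
      · by_cases c2 : |τ₂| ≤ s0 * η
        · have := aux τ₃ fun c3 => hgood ⟨c1, c2, c3⟩
          nlinarith [sq_nonneg τ₁, sq_nonneg τ₂]
        · have := aux τ₂ c2
          nlinarith [sq_nonneg τ₁, sq_nonneg τ₃]
      · have := aux τ₁ c1
        nlinarith [sq_nonneg τ₂, sq_nonneg τ₃]
    have hv := vee (n - t) dd (ε := 2 * C * Real.exp E) ϑ hρ'0 hη (by positivity : 0 ≤ 3 * γ) hM
      fun θ η' a1 _ _ => by
        refine (norm_sum_le _ _).trans (le_trans (Finset.sum_le_sum fun u _ => ?_) hM)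
        rw [norm_mul, Complex.norm_exp]
        refine mul_le_of_le_one_left (norm_nonneg _) (Real.exp_le_one_iff.2 ?_)
        have : (((θ : ℂ) * I - η') * u).re = -(η' * u) := by simp
        rw [this]
        have : 0 ≤ η' * u := by positivity
        linarith
    refine hv.trans ?_
    have h1 : Real.exp (-((s0 * η) ^ 2 / (800 * (ρ - ρp)))) ≤ 1 := by
      apply Real.exp_le_one_iff.2
      have : 0 ≤ (s0 * η) ^ 2 / (800 * (ρ - ρp)) := by positivity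
      linarith
    have h2 : 2 * C * Real.exp E + 2 * C * Real.exp E *
        Real.exp (-((s0 * η) ^ 2 / (800 * (ρ - ρp)))) ≤ 4 * (C * Real.exp E) := by
      have h3 : 0 < C * Real.exp E := by positivity
      have := mul_le_mul_of_nonneg_left h1 h3.le
      nlinarith
    have h3 : Real.exp (0.966 * Q / (2 * ρ)) * Real.exp E ≤
        Real.exp (-E) * Real.exp (0.98 * Q / (2 * ρ)) := by
      rw [← Real.exp_add, ← Real.exp_add]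
      apply Real.exp_le_exp.2
      have h5 : 2 * E ≤ 0.014 * Q / (2 * ρ) := by
        rw [le_div_iff₀ (by positivity)]
        rw [hs0] at hQ1
        nlinarith
      have h6 : 0.98 * Q / (2 * ρ) = 0.966 * Q / (2 * ρ) + 0.014 * Q / (2 * ρ) := by ring
      linarith
    refine (mul_le_mul hpref h2 (by positivity) hK).trans ?_
    have h4 : 0 ≤ 100 * (1 + 43 * √E) * Real.exp (9 + E / 230) * C := by
      positivity
    have := mul_le_mul_of_nonneg_left h3 h4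
    nlinarith

end

end Crest.Agent.R300
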