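import Crest.Agent.R300.Levels
import Crest.Agent.R300.Prod

/-!
# Row 300: step data and budget (pure real arithmetic).

Notation: `q = 1-p`, `qe = max q (1/n)`, `Xe = 1 + log n/(1 + log(1/qe)) ≤ 2 XX n p`,
`Q = Q₀ Xe^(1/32)` with `Q₀ = 10^9`, `B = Q/qe`.
`η 0 = 1/n`, `b ℓ = min 1 ((√(B/4^(ℓ+1) · η ℓ/3000) + B η ℓ/3000)/2)`, `η (ℓ+1) = b ℓ/500`,
`L` = least `ℓ` with `η ℓ ≥ 1/500`.  While `η (ℓ+1) < 1/500` (not capped), with `y = log(1/η)`: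
`y(ℓ+1) ≤ y ℓ - a'` where `a' = log(B/(3·10^6)) ≥ log(1/qe) + (log Xe)/32 + 1` and
`y(ℓ+1) ≤ y ℓ/2 + (ℓ+1) log 2 + 11`, hence `y ℓ ≤ log n/2^ℓ + 1.4ℓ + 22`; at
`L₁ = ⌈log₂ Xe⌉`, `y ≤ log(1/qe) + 2.1 log Xe + 25 ≤ 93 a'`, so `L ≤ L₁ + 93` (`scales`).
`E ℓ = K^(L-ℓ) E*`, `K = 1/0.128 = 7.8125 ≤ 2^(95/32)` (check `K^32 ≤ 2^95`), `E* = 10^6 (1 + log n/2^L + L)`.
`m = p/(20 Q)` (so `m·4q/p ≤ 1/(5B)`), `γ0 = 1/(3000 n)`, `k = 4^L - 1`.
Budget: `2^L ≤ 2^95 X`, `Q K^L ≤ C X^3 ≤ 3 C X^2 log n`, `1 + L ≤ C (1 + log X)`, `Q ≤ C X^(1/32)`,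
`X ≤ 1 + log n ≤ 3 log n`, `log(1/p) ≤ 1/p`.
-/

set_option autoImplicit false

namespace Crest.Agent.R300

theorem lv2_sum_gw_le {ρ : ℝ} (hρ : 0 < ρ) (n : ℕ) : ∑ u ∈ Finset.range n, gw ρ u ≤ 1 + 2 / ρ := by
  have hr0 : 0 ≤ Real.exp (-(ρ / 2)) := (Real.exp_pos _).le
  have hr1 : Real.exp (-(ρ / 2)) < 1 := by
    rw [← Real.exp_zero]; exact Real.exp_lt_exp.2 (by linarith)
  have h1 : ∑ u ∈ Finset.range n, gw ρ u ≤ ∑ u ∈ Finset.range n, Real.exp (-(ρ / 2)) ^ u := by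
    refine Finset.sum_le_sum fun u _ => ?_
    rw [gw, ← Real.exp_nat_mul]
    refine Real.exp_le_exp.2 ?_
    have h2 : (u : ℝ) ≤ (u : ℝ) ^ 2 := by exact_mod_cast Nat.le_self_pow (by norm_num) u
    nlinarith
  have h2 : ∑ u ∈ Finset.range n, Real.exp (-(ρ / 2)) ^ u ≤ (1 - Real.exp (-(ρ / 2)))⁻¹ :=
    ((summable_geometric_of_lt_one hr0 hr1).sum_le_tsum _ fun u _ => pow_nonneg hr0 u).trans_eq
      (tsum_geometric_of_lt_one hr0 hr1)
  refine h1.trans (h2.trans ?_)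
  have h3 : Real.exp (-(ρ / 2)) * (1 + ρ / 2) ≤ 1 := by
    have h4 := Real.add_one_le_exp (ρ / 2)
    calc Real.exp (-(ρ / 2)) * (1 + ρ / 2) ≤ Real.exp (-(ρ / 2)) * Real.exp (ρ / 2) :=
          mul_le_mul_of_nonneg_left (by linarith) hr0
      _ = 1 := by rw [← Real.exp_add]; simp
  rw [inv_eq_one_div, div_le_iff₀ (by linarith)]
  have e : 1 + 2 / ρ = (1 + ρ / 2) * (2 / ρ) := by field_simp; ring
  have h5 : 0 < 2 / ρ := by positivity
  have e2 : ρ / 2 * (2 / ρ) = 1 := by field_simp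
  rw [e]
  nlinarith

theorem budget_lin {M Λ c1 c2 c3 V W Y Q E0 : ℝ} (g1 : M * Λ ≤ c1 * V) (g2 : Y * (4 * Λ + 2 * M) ≤ (4 + 6 * c1) * V)
    (g3 : Y * E0 ≤ (291 * c2 + c3) * W) (g4 : Q * (4 * Λ + 2 * M) ≤ 10 ^ 10 * Y * (4 * Λ + 2 * M))
    (g5 : Q * E0 ≤ 10 ^ 10 * Y * E0) (g6 : c1 * V ≤ c1 * W) (g7 : (4 + 6 * c1) * V ≤ (4 + 6 * c1) * W) :
    22 * M * Λ - (22 * c1 + 20 * 10 ^ 10 * (4 + 6 * c1) + 20 * 10 ^ 16 * (291 * c2 + c3)) * W ≤
      (-(10 ^ 6 * E0) - (4 * Λ + 2 * M)) * (20 * Q) := by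
  linarith

theorem pow_le_of_two_pow {L : ℕ} {Y κ : ℝ} (hY : 0 ≤ Y) (h : (2 : ℝ) ^ L ≤ 2 ^ 96 * Y ^ 32) (_hκ : 0 ≤ κ)
    (j : ℕ) (hj : κ ^ 32 ≤ 2 ^ j) : κ ^ L ≤ (8 * Y) ^ j := by
  refine le_of_pow_le_pow_left₀ (n := 32) (by norm_num) (by positivity) ?_
  calc (κ ^ L) ^ 32 = (κ ^ 32) ^ L := by rw [← pow_mul, ← pow_mul, mul_comm]
    _ ≤ (2 ^ j) ^ L := pow_le_pow_left₀ (by positivity) hj L
    _ = (2 ^ L) ^ j := by rw [← pow_mul, ← pow_mul, mul_comm]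
    _ ≤ (2 ^ 96 * Y ^ 32) ^ j := pow_le_pow_left₀ (by positivity) h j
    _ = ((8 * Y) ^ 32) ^ j := by rw [mul_pow 8 Y]; norm_num
    _ = ((8 * Y) ^ j) ^ 32 := by rw [← pow_mul, ← pow_mul, mul_comm 32 j]

/-- the data of every step -/
theorem stepData_of_scales {n L : ℕ} (hn : 2 ≤ n) {B : ℝ} {η b : ℕ → ℝ} (hB : 3 ≤ B)
    (h0 : η 0 = 1 / n)
    (h : ∀ l < L, 1 / (n : ℝ) ≤ η l ∧ η l ≤ 1 ∧ 0 < b l ∧ b l ≤ 1 ∧ η (l + 1) = b l / 500 ∧
        b l + s0 * η l ≤ √(B / 4 ^ (l + 1) * (η l / 3000)) + B * (η l / 3000) ∧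
        Real.log (1 / η l) ≤ Real.log n / 2 ^ l + 2 * l + 30)
    (h10 : ∀ l, l + 1 < L → 10 * η l ≤ η (l + 1)) (E : ℕ → ℝ)
    (hE : ∀ l, E l = (1 / 0.128) ^ (L - l) * (10 ^ 6 * (1 + Real.log n / 2 ^ L + L)))
    (ρ : ℕ → ℝ) (hρ0 : ρ 0 = 0) (hρ : ∀ l, ρ (l + 1) = η l ^ 2 / (400 * E l)) :
    ∀ l < L, StepData n B (1 / (3000 * n)) (B / 4 ^ (l + 1)) (ρ l) (η l) (E l) (b l)
      (4 ^ (L - l - 1) - 1) := by
  have hn0 : (0 : ℝ) < n := by exact_mod_cast (by omega : 0 < n)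
  have hn1 : (1 : ℝ) ≤ n := by exact_mod_cast (by omega : 1 ≤ n)
  have hΛ : 0 ≤ Real.log n := Real.log_nonneg hn1
  have hK2 : (2 : ℝ) ≤ 1 / 0.128 := by norm_num
  have hK4 : (4 : ℝ) ≤ 1 / 0.128 := by norm_num
  have hS : (1 : ℝ) ≤ 1 + Real.log n / 2 ^ L + L := by
    have : 0 ≤ Real.log n / 2 ^ L := by positivity
    have : (0 : ℝ) ≤ L := Nat.cast_nonneg L
    linarith
  have hE6 : ∀ l, 10 ^ 6 ≤ E l := fun l => by
    rw [hE]
    have h1 : (1 : ℝ) ≤ (1 / 0.128) ^ (L - l) := one_le_pow₀ (by norm_num)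
    nlinarith
  have hlow : ∀ l ≤ L, 10 ^ 6 * (Real.log n / 2 ^ l + 1 + L) ≤ E l := fun l hl => by
    rw [hE]
    have h1 : (1 : ℝ) ≤ (1 / 0.128) ^ (L - l) := one_le_pow₀ (by norm_num)
    have h2 : (2 : ℝ) ^ (L - l) ≤ (1 / 0.128) ^ (L - l) := pow_le_pow_left₀ (by norm_num) hK2 _
    have h3 : Real.log n / 2 ^ l = 2 ^ (L - l) * (Real.log n / 2 ^ L) := by
      have : (2 : ℝ) ^ L = 2 ^ (L - l) * 2 ^ l := by rw [← pow_add]; congr 1; omega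
      rw [this]
      field_simp
    have h4 : 0 ≤ Real.log n / 2 ^ L := by positivity
    have h5 : (0 : ℝ) ≤ L := Nat.cast_nonneg L
    rw [h3]
    generalize (1 / 0.128 : ℝ) ^ (L - l) = κ at h1 h2
    have h6 := mul_le_mul_of_nonneg_right h2 h4
    have h7 := mul_le_mul_of_nonneg_right h1 (by linarith : (0 : ℝ) ≤ 1 + L)
    nlinarith
  have hηE : ∀ l < L, 1 / η l ≤ Real.exp (E l / 10000) := fun l hl => by
    obtain ⟨h1, -, -, -, -, -, h7⟩ := h l hl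
    have hη : 0 < η l := lt_of_lt_of_le (by positivity) h1
    rw [← Real.exp_log (one_div_pos.2 hη)]
    refine Real.exp_le_exp.2 (h7.trans ?_)
    have h8 := hlow l hl.le
    have h9 : (l : ℝ) ≤ L := by exact_mod_cast hl.le
    have h10 : 0 ≤ Real.log n / 2 ^ l := by positivity
    have h11 : (0 : ℝ) ≤ l := Nat.cast_nonneg l
    linarith
  have hEs : ∀ l, l < L → E l = 1 / 0.128 * E (l + 1) := fun l hl => by
    rw [hE, hE, show L - l = L - (l + 1) + 1 by omega, pow_succ]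
    ring
  intro l hl
  obtain ⟨h1, h2, h3, h4, -, h6, -⟩ := h l hl
  have hη : 0 < η l := lt_of_lt_of_le (by positivity) h1
  have hEl := hE6 l
  refine ⟨by positivity, by positivity, hη, h2, ?_, ?_, ?_, ?_, h3, h4, h6, by linarith, ?_, hηE l hl⟩
  · have : 1 / (3000 * (n : ℝ)) = 1 / n / 3000 := by field_simp
    rw [this]
    linarith
  · cases l with
    | zero => rw [hρ0]
    | succ l =>
      rw [hρ]
      have := hE6 l
      positivity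
  · cases l with
    | zero => rw [hρ0]; positivity
    | succ l =>
      rw [hρ]
      have h7 := h10 l hl
      have h8 := (h l (by omega)).1
      have h9 : 0 < η l := lt_of_lt_of_le (by positivity) h8
      have h11 : E (l + 1) ≤ E l := by rw [hEs l (by omega)]; nlinarith
      have h12 : η l ^ 2 ≤ η (l + 1) ^ 2 / 100 := by nlinarith
      calc η l ^ 2 / (400 * E l) ≤ (η (l + 1) ^ 2 / 100) / (400 * E (l + 1)) := by gcongr
        _ = _ := by ring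
  · cases l with
    | zero =>
      rw [hρ0]
      simp only [gw, zero_mul, zero_div, neg_zero, Real.exp_zero, Finset.sum_const, Finset.card_range,
        nsmul_eq_mul, mul_one]
      rw [← Real.exp_log hn0]
      refine Real.exp_le_exp.2 ?_
      have h8 := hlow 0 (Nat.zero_le _)
      have h5 : (0 : ℝ) ≤ L := Nat.cast_nonneg L
      rw [pow_zero, div_one] at h8
      linarith
    | succ l =>
      have h8 := (h l (by omega)).1
      have h9 : 0 < η l := lt_of_lt_of_le (by positivity) h8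
      have hEl' := hE6 l
      have hρp : 0 < ρ (l + 1) := by rw [hρ]; positivity
      refine (lv2_sum_gw_le hρp n).trans ?_
      have e1 : 2 / ρ (l + 1) = 800 * E l * (1 / η l) ^ 2 := by
        rw [hρ]; field_simp; norm_num
      have h11 : E l ≤ 8 * E (l + 1) := by rw [hEs l (by omega)]; nlinarith
      have h12 : (1 / η l) ^ 2 ≤ Real.exp (E (l + 1) / 4) := by
        calc (1 / η l) ^ 2 ≤ Real.exp (E l / 10000) ^ 2 :=
              pow_le_pow_left₀ (by positivity) (hηE l (by omega)) 2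
          _ = Real.exp (2 * (E l / 10000)) := by rw [← Real.exp_nat_mul]; norm_num
          _ ≤ _ := Real.exp_le_exp.2 (by linarith)
      have h13 : 800 * E l ≤ Real.exp (E (l + 1) / 2) := by
        have := Real.quadratic_le_exp_of_nonneg (by linarith : 0 ≤ E (l + 1) / 2)
        nlinarith
      have h14 : 2 ≤ Real.exp (E (l + 1) / 4) := by
        have := Real.add_one_le_exp (E (l + 1) / 4)
        linarith
      have h15 : 1 ≤ Real.exp (E (l + 1) / 2) := Real.one_le_exp (by linarith)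
      have e2 : Real.exp (E (l + 1)) =
          Real.exp (E (l + 1) / 2) * Real.exp (E (l + 1) / 4) * Real.exp (E (l + 1) / 4) := by
        rw [← Real.exp_add, ← Real.exp_add]; congr 1; ring
      have h16 : 800 * E l * (1 / η l) ^ 2 ≤ Real.exp (E (l + 1) / 2) * Real.exp (E (l + 1) / 4) :=
        mul_le_mul h13 h12 (by positivity) (by positivity)
      have h17 : 1 ≤ Real.exp (E (l + 1) / 2) * Real.exp (E (l + 1) / 4) := by nlinarith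
      rw [e1, e2]
      nlinarith
  · have e1 : (((4 ^ (L - l - 1) - 1 : ℕ) : ℝ) + 1) = 4 ^ (L - l - 1) := by
      rw [Nat.cast_sub (Nat.one_le_pow _ _ (by norm_num))]
      push_cast
      ring
    rw [e1, hE]
    have h7 : (4 : ℝ) ^ (L - l - 1) ≤ (1 / 0.128) ^ (L - l) :=
      (pow_le_pow_right₀ (by norm_num) (Nat.sub_le _ _)).trans (pow_le_pow_left₀ (by norm_num) hK4 _)
    have h8 : (0 : ℝ) ≤ 4 ^ (L - l - 1) := by positivity
    nlinarith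

/-- the budget -/
theorem budget : ∃ C : ℝ, 1 ≤ C ∧ ∀ n : ℕ, 2 ≤ n → ∀ p : ℝ, 0 < p → p < 1 → ∀ (L : ℕ) (Q : ℝ),
    1 ≤ Q → Q ≤ 10 ^ 10 * XX n p ^ (1 / 32 : ℝ) → (2 : ℝ) ^ L ≤ 2 ^ 96 * XX n p →
    (4 : ℝ) ^ L ≤ C * XX n p ^ 2 ∧ ∀ ε : ℝ, 0 ≤ ε → ε ≤ Real.exp (-(C * Bud n p)) →
      6 * n * 4 ^ (4 ^ L - 1) * ((2 * n / p) ^ (4 ^ L - 1 + 1) * (n + 1) * ε *
          (8 / (1 / (3000 * n))) ^ (4 ^ L - 1)) ^ (p / (20 * Q)) ≤
        Real.exp (-((1 / 0.128) ^ L * (10 ^ 6 * (1 + Real.log n / 2 ^ L + L)))) := by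
  obtain ⟨c1, hc1⟩ : ∃ c : ℝ, c = 2 ^ 192 := ⟨_, rfl⟩
  obtain ⟨c2, hc2⟩ : ∃ c : ℝ, c = 8 ^ 95 := ⟨_, rfl⟩
  obtain ⟨c3, hc3⟩ : ∃ c : ℝ, c = 8 ^ 63 := ⟨_, rfl⟩
  have p1 : 1 ≤ c1 := by rw [hc1]; exact one_le_pow₀ (by norm_num)
  have p2 : 0 ≤ c2 := by rw [hc2]; positivity
  have p3 : 0 ≤ c3 := by rw [hc3]; positivity
  refine ⟨22 * c1 + 20 * 10 ^ 10 * (4 + 6 * c1) + 20 * 10 ^ 16 * (291 * c2 + c3), by nlinarith, ?_⟩
  intro n hn p hp hp1 L Q hQ1 hQ hL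
  have hX1 := XX_one_le hn hp hp1
  have hX3 := XX_le hn hp hp1
  have hn2 : (2 : ℝ) ≤ n := by exact_mod_cast hn
  have hn0 : (0 : ℝ) < n := by linarith
  have hl2 : Real.log 2 ≤ Real.log n := Real.log_le_log (by norm_num) hn2
  have hl2' := Real.log_two_gt_d9
  have hM : (4 : ℝ) ^ L ≤ c1 * XX n p ^ 2 := by
    calc (4 : ℝ) ^ L = (2 ^ L) ^ 2 := by rw [← pow_mul, mul_comm, pow_mul]; norm_num
      _ ≤ (2 ^ 96 * XX n p) ^ 2 := pow_le_pow_left₀ (by positivity) hL 2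
      _ = c1 * XX n p ^ 2 := by rw [hc1, mul_pow, ← pow_mul]
  refine ⟨hM.trans (mul_le_mul_of_nonneg_right (by nlinarith) (by positivity)), fun ε hε0 hε => ?_⟩
  unfold Bud at hε
  obtain ⟨Y, hY⟩ : ∃ Y, Y = XX n p ^ (1 / 32 : ℝ) := ⟨_, rfl⟩
  have hY1 : 1 ≤ Y := by rw [hY]; exact Real.one_le_rpow hX1 (by norm_num)
  have hY32 : Y ^ 32 = XX n p := by
    rw [hY, ← Real.rpow_natCast, ← Real.rpow_mul (by linarith)]
    norm_num
  rw [← hY] at hQ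
  generalize XX n p = X at *
  have hYX : Y ≤ X := by rw [← hY32]; exact le_self_pow₀ hY1 (by norm_num)
  have hlX : 0 ≤ Real.log X := Real.log_nonneg hX1
  have hK1 : (1 / 0.128 : ℝ) ^ L * Y ≤ c2 * X ^ 3 := by
    have h1 := pow_le_of_two_pow (κ := 1 / 0.128) (by linarith) (hY32 ▸ hL) (by norm_num) 95 (by norm_num)
    calc (1 / 0.128 : ℝ) ^ L * Y ≤ (8 * Y) ^ 95 * Y := mul_le_mul_of_nonneg_right h1 (by linarith)
      _ = c2 * X ^ 3 := by rw [← hY32, hc2, mul_pow, ← pow_mul, mul_assoc, ← pow_succ]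
  have hK2 : (1 / 0.128 : ℝ) ^ L / 2 ^ L * Y ≤ c3 * X ^ 2 := by
    have h1 := pow_le_of_two_pow (κ := 1 / 0.128 / 2) (by linarith) (hY32 ▸ hL) (by norm_num) 63 (by norm_num)
    rw [← div_pow]
    calc (1 / 0.128 / 2 : ℝ) ^ L * Y ≤ (8 * Y) ^ 63 * Y := mul_le_mul_of_nonneg_right h1 (by linarith)
      _ = c3 * X ^ 2 := by rw [← hY32, hc3, mul_pow, ← pow_mul, mul_assoc, ← pow_succ]
  have hLX : 1 + (L : ℝ) ≤ 97 * (1 + Real.log X) := by
    have h1 := Real.log_le_log (by positivity) hL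
    rw [Real.log_mul (by positivity) (by positivity), Real.log_pow, Real.log_pow] at h1
    push_cast at h1
    have h2 : ((L : ℝ) - 96) * Real.log 2 ≤ Real.log X := by linarith
    by_cases h3 : (L : ℝ) ≤ 96
    · linarith
    · nlinarith
  have hk : ((4 ^ L - 1 : ℕ) : ℝ) ≤ 4 ^ L := by exact_mod_cast Nat.sub_le _ _
  have hk1 : ((4 ^ L - 1 + 1 : ℕ) : ℝ) = 4 ^ L := by
    rw [Nat.sub_add_cancel (Nat.one_le_pow _ _ (by norm_num))]; push_cast; rfl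
  have hM1 : (1 : ℝ) ≤ 4 ^ L := one_le_pow₀ (by norm_num)
  have hpi : 1 ≤ p⁻¹ := (one_le_inv₀ hp).2 hp1.le
  have hΛ : 0 < Real.log n := by linarith
  have hexp : ∀ j : ℕ, (n : ℝ) ^ j = Real.exp (j * Real.log n) := fun j => by
    rw [Real.exp_nat_mul, Real.exp_log hn0]
  -- the three factors
  have f1 : 2 * (n : ℝ) / p ≤ Real.exp (4 * Real.log n * p⁻¹) := by
    have h1 : 2 * (n : ℝ) ≤ Real.exp (2 * Real.log n) := by
      have := hexp 2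
      push_cast at this
      rw [← this]
      nlinarith
    have h2 : p⁻¹ ≤ Real.exp p⁻¹ := by linarith [Real.add_one_le_exp p⁻¹]
    calc 2 * (n : ℝ) / p = 2 * n * p⁻¹ := div_eq_mul_inv _ _
      _ ≤ Real.exp (2 * Real.log n) * Real.exp p⁻¹ := mul_le_mul h1 h2 (by linarith) (by positivity)
      _ = Real.exp (2 * Real.log n + p⁻¹) := (Real.exp_add _ _).symm
      _ ≤ _ := Real.exp_le_exp.2 (by nlinarith)
  have f2 : (n : ℝ) + 1 ≤ Real.exp (2 * Real.log n) := by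
    have := hexp 2
    push_cast at this
    rw [← this]
    nlinarith
  have f3 : 8 / (1 / (3000 * (n : ℝ))) ≤ Real.exp (16 * Real.log n) := by
    have := hexp 16
    push_cast at this
    rw [← this]
    have h1 : (2 : ℝ) ^ 15 ≤ (n : ℝ) ^ 15 := pow_le_pow_left₀ (by norm_num) hn2 15
    calc 8 / (1 / (3000 * (n : ℝ))) = 24000 * n := by field_simp; norm_num
      _ ≤ (n : ℝ) ^ 15 * n := mul_le_mul_of_nonneg_right (le_trans (by norm_num) h1) hn0.le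
      _ = (n : ℝ) ^ 16 := by ring
  have f4 : 6 * (n : ℝ) ≤ Real.exp (4 * Real.log n) := by
    have := hexp 4
    push_cast at this
    rw [← this]
    have h1 : (2 : ℝ) ^ 3 ≤ (n : ℝ) ^ 3 := pow_le_pow_left₀ (by norm_num) hn2 3
    calc 6 * (n : ℝ) ≤ (n : ℝ) ^ 3 * n := mul_le_mul_of_nonneg_right (le_trans (by norm_num) h1) hn0.le
      _ = (n : ℝ) ^ 4 := by ring
  have f5 : (4 : ℝ) ≤ Real.exp 2 := by
    have := Real.quadratic_le_exp_of_nonneg (by norm_num : (0 : ℝ) ≤ 2)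
    linarith
  generalize hC : 22 * c1 + 20 * 10 ^ 10 * (4 + 6 * c1) + 20 * 10 ^ 16 * (291 * c2 + c3) = C at hε
  generalize Real.log n = Λ at *
  generalize (4 ^ L - 1 : ℕ) = k at *
  generalize (4 : ℝ) ^ L = M at *
  have hbase : (2 * n / p) ^ (k + 1) * (n + 1) * ε * (8 / (1 / (3000 * n))) ^ k ≤
      Real.exp (22 * M * Λ * p⁻¹ - C * (p⁻¹ * Λ * X ^ 2 * (1 + Real.log X))) := by
    calc (2 * n / p) ^ (k + 1) * (n + 1) * ε * (8 / (1 / (3000 * n))) ^ k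
        ≤ Real.exp (4 * Λ * p⁻¹) ^ (k + 1) * Real.exp (2 * Λ) *
          Real.exp (-(C * (p⁻¹ * Λ * X ^ 2 * (1 + Real.log X)))) * Real.exp (16 * Λ) ^ k := by gcongr
      _ = Real.exp ((k + 1 : ℕ) * (4 * Λ * p⁻¹) + 2 * Λ + -(C * (p⁻¹ * Λ * X ^ 2 * (1 + Real.log X))) +
          k * (16 * Λ)) := by
        rw [Real.exp_add, Real.exp_add, Real.exp_add, Real.exp_nat_mul, Real.exp_nat_mul]
      _ ≤ _ := by
        refine Real.exp_le_exp.2 ?_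
        rw [hk1]
        have h1 : Λ ≤ M * Λ * p⁻¹ := by
          calc Λ = 1 * Λ * 1 := by ring
            _ ≤ M * Λ * p⁻¹ := by gcongr
        have h2 : k * Λ ≤ M * Λ * p⁻¹ := by
          calc k * Λ = k * Λ * 1 := by ring
            _ ≤ M * Λ * p⁻¹ := by gcongr
        linarith
  have hm : 0 ≤ p / (20 * Q) := by positivity
  have hpre : 6 * (n : ℝ) * 4 ^ k ≤ Real.exp (4 * Λ + 2 * M) := by
    calc 6 * (n : ℝ) * 4 ^ k ≤ Real.exp (4 * Λ) * Real.exp 2 ^ k := by gcongr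
      _ = Real.exp (4 * Λ + k * 2) := by rw [Real.exp_add, Real.exp_nat_mul]
      _ ≤ _ := Real.exp_le_exp.2 (by linarith)
  refine le_trans (mul_le_mul hpre (Real.rpow_le_rpow (by positivity) hbase hm) (by positivity)
    (by positivity)) ?_
  rw [← Real.exp_mul, ← Real.exp_add]
  refine Real.exp_le_exp.2 ?_
  obtain ⟨V, hV⟩ : ∃ V, V = Λ * X ^ 2 := ⟨_, rfl⟩
  have hV0 : 0 ≤ V := by rw [hV]; positivity
  have hW : V ≤ V * (1 + Real.log X) := by nlinarith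
  have e1 : (22 * M * Λ * p⁻¹ - C * (p⁻¹ * Λ * X ^ 2 * (1 + Real.log X))) * (p / (20 * Q)) =
      (22 * M * Λ - C * (V * (1 + Real.log X))) / (20 * Q) := by
    rw [hV]; field_simp
  have g1 : M * Λ ≤ c1 * V := by
    rw [hV]
    calc M * Λ ≤ c1 * X ^ 2 * Λ := mul_le_mul_of_nonneg_right hM hΛ.le
      _ = _ := by ring
  have hX2 : X ≤ X ^ 2 := le_self_pow₀ hX1 (by norm_num)
  have hX3' : X ^ 3 ≤ 3 * V := by
    rw [hV]
    calc X ^ 3 = X * X ^ 2 := by ring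
      _ ≤ 3 * Λ * X ^ 2 := mul_le_mul_of_nonneg_right hX3 (by positivity)
      _ = _ := by ring
  have g2 : Y * (4 * Λ + 2 * M) ≤ (4 + 6 * c1) * V := by
    have h1 : Y * Λ ≤ V := by
      rw [hV, mul_comm]
      exact mul_le_mul_of_nonneg_left (hYX.trans hX2) hΛ.le
    have h2 : Y * M ≤ c1 * X ^ 3 := by
      calc Y * M ≤ X * (c1 * X ^ 2) := mul_le_mul hYX hM (by linarith) (by linarith)
        _ = _ := by ring
    have h3 : c1 * X ^ 3 ≤ c1 * (3 * V) := mul_le_mul_of_nonneg_left hX3' (by linarith)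
    linarith
  have g3 : Y * ((1 / 0.128 : ℝ) ^ L * (1 + Λ / 2 ^ L + L)) ≤ (291 * c2 + c3) * (V * (1 + Real.log X)) := by
    have h1 : (1 / 0.128 : ℝ) ^ L * Y * (1 + L) ≤ c2 * (3 * V) * (97 * (1 + Real.log X)) :=
      mul_le_mul (hK1.trans (mul_le_mul_of_nonneg_left hX3' p2)) hLX (by positivity) (by positivity)
    have h2 : (1 / 0.128 : ℝ) ^ L / 2 ^ L * Y * Λ ≤ c3 * (V * (1 + Real.log X)) := by
      calc (1 / 0.128 : ℝ) ^ L / 2 ^ L * Y * Λ ≤ c3 * X ^ 2 * Λ := mul_le_mul_of_nonneg_right hK2 hΛ.le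
        _ = c3 * V := by rw [hV]; ring
        _ ≤ _ := mul_le_mul_of_nonneg_left hW p3
    have e2 : Y * ((1 / 0.128 : ℝ) ^ L * (1 + Λ / 2 ^ L + L)) =
        (1 / 0.128 : ℝ) ^ L * Y * (1 + L) + (1 / 0.128 : ℝ) ^ L / 2 ^ L * Y * Λ := by
      generalize (1 / 0.128 : ℝ) ^ L = κ
      ring
    rw [e2]
    linarith
  have hE0 : 0 ≤ (1 / 0.128 : ℝ) ^ L * (1 + Λ / 2 ^ L + L) := by positivity
  have e3 : (1 / 0.128 : ℝ) ^ L * (10 ^ 6 * (1 + Λ / 2 ^ L + L)) =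
      10 ^ 6 * ((1 / 0.128 : ℝ) ^ L * (1 + Λ / 2 ^ L + L)) := by
    generalize (1 / 0.128 : ℝ) ^ L = κ
    ring
  rw [e1, e3]
  generalize (1 / 0.128 : ℝ) ^ L * (1 + Λ / 2 ^ L + L) = E0 at g3 hE0 ⊢
  have g4 : Q * (4 * Λ + 2 * M) ≤ 10 ^ 10 * Y * (4 * Λ + 2 * M) :=
    mul_le_mul_of_nonneg_right hQ (by positivity)
  have g5 : Q * E0 ≤ 10 ^ 10 * Y * E0 := mul_le_mul_of_nonneg_right hQ hE0
  have g6 : c1 * V ≤ c1 * (V * (1 + Real.log X)) := mul_le_mul_of_nonneg_left hW (by linarith)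
  have g7 : (4 + 6 * c1) * V ≤ (4 + 6 * c1) * (V * (1 + Real.log X)) :=
    mul_le_mul_of_nonneg_left hW (by linarith)
  have key : (22 * M * Λ - C * (V * (1 + Real.log X))) / (20 * Q) ≤ -(10 ^ 6 * E0) - (4 * Λ + 2 * M) := by
    rw [div_le_iff₀ (by positivity), ← hC]
    exact budget_lin g1 g2 g3 g4 g5 g6 g7
  linarith

end Crest.Agent.R300
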