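import Crest.Agent.R300.Arctan

/-!
# Row 300: lower bound for the Poisson average.

`P θ = η/(π((θ-θ₀)²+η²))` has primitive `arctan((θ-θ₀)/η)/π` (`pois_int`).
`arctan_ineq` is a one-variable inequality (true maximum of the left side is `0.1141`, at
`h ≈ 1.46`); split `[0,10]` into finitely many intervals and use monotonicity of `arctan`
together with numerical bounds (`x - x³/3 ≤ arctan x ≤ x - x³/3 + x⁵/5` for `x ≥ 0`,
`arctan x = π/2 - arctan x⁻¹`, `arctan x = π/4 + arctan ((x-1)/(x+1))`, `Real.pi_gt_d4`), or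
tangent-line bounds (`arctan(h/2)` is concave).
`arctan_sym`: `s ↦ arctan(h-s) + arctan(h+s)` is even and antitone on `s ≥ 0`.
`pois_low`: let `H = h/η`, `s = θ₀/η`.  If `H ≥ 10` use only the second integral
(`≥ (arctan(10-s0) + arctan(10+s0))/π ≥ 0.87`).  Otherwise with `c = θ₀ - h/2`,
`2∫ P a ≥ ∫_{-b}^{b-h} (P φ a φ + P(φ+h) a(φ+h)) ≥ S(∫_{-b}^{c} P + ∫_{c}^{b-h} P(·+h))`
and `arctan z ≥ π/2 - 1/z`.
-/

set_option autoImplicit false

namespace Crest.Agent.R300

theorem pois_cont {η : ℝ} (hη : 0 < η) (θ₀ : ℝ) :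
    Continuous fun θ : ℝ => η / (Real.pi * ((θ - θ₀) ^ 2 + η ^ 2)) := by
  refine continuous_const.div (by fun_prop) fun θ => ?_
  have := Real.pi_pos
  positivity

theorem pois_int {η : ℝ} (hη : 0 < η) (θ₀ u v : ℝ) :
    ∫ θ in u..v, η / (Real.pi * ((θ - θ₀) ^ 2 + η ^ 2)) =
      (Real.arctan ((v - θ₀) / η) - Real.arctan ((u - θ₀) / η)) / Real.pi := by
  have hpi := Real.pi_pos
  have hd : ∀ θ ∈ Set.uIcc u v, HasDerivAt (fun θ => Real.arctan ((θ - θ₀) / η) / Real.pi)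
      (η / (Real.pi * ((θ - θ₀) ^ 2 + η ^ 2))) θ := by
    intro θ _
    have h1 : HasDerivAt (fun θ : ℝ => (θ - θ₀) / η) (1 / η) θ := by
      simpa using ((hasDerivAt_id θ).sub_const θ₀).div_const η
    have h2 := (h1.arctan).div_const Real.pi
    have e : η / (Real.pi * ((θ - θ₀) ^ 2 + η ^ 2)) =
        1 / (1 + ((θ - θ₀) / η) ^ 2) * (1 / η) / Real.pi := by
      have : (θ - θ₀) ^ 2 + η ^ 2 ≠ 0 := by positivity
      have h3 : 1 + ((θ - θ₀) / η) ^ 2 = ((θ - θ₀) ^ 2 + η ^ 2) / η ^ 2 := by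
        field_simp
        ring
      rw [h3]
      field_simp
    rw [e]
    exact h2
  rw [intervalIntegral.integral_eq_sub_of_hasDerivAt hd
    ((pois_cont hη θ₀).intervalIntegrable u v)]
  ring

theorem arctan_ge_half_pi {z : ℝ} (hz : 0 < z) : Real.pi / 2 - 1 / z ≤ Real.arctan z := by
  have h1 := Real.arctan_inv_of_pos hz
  have h2 : Real.arctan z⁻¹ ≤ z⁻¹ := by
    have h3 := Real.le_tan (x := Real.arctan z⁻¹)
      (Real.arctan_nonneg.2 (inv_nonneg.2 hz.le)) (Real.arctan_lt_pi_div_two _)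
    rwa [Real.tan_arctan] at h3
  rw [one_div]
  linarith

theorem pois_mono {η θ₀ x y : ℝ} (hη : 0 < η) (hxy : (y - θ₀) ^ 2 ≤ (x - θ₀) ^ 2) :
    η / (Real.pi * ((x - θ₀) ^ 2 + η ^ 2)) ≤ η / (Real.pi * ((y - θ₀) ^ 2 + η ^ 2)) := by
  have := Real.pi_pos
  apply div_le_div_of_nonneg_left hη.le (by positivity)
  exact mul_le_mul_of_nonneg_left (by linarith) this.le

/-- the doubling inequality -/
theorem pois_double {f : ℝ → ℝ} (hf : Continuous f) (hf0 : ∀ θ, 0 ≤ f θ) {b h : ℝ} (c : ℝ)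
    (hh : 0 < h) :
    (∫ φ in (-b)..c, (f φ + f (φ + h))) + (∫ φ in c..(b - h), (f φ + f (φ + h))) ≤
      2 * ∫ θ in (-b)..b, f θ := by
  have hi : ∀ u v : ℝ, IntervalIntegrable f MeasureTheory.volume u v :=
    fun u v => hf.intervalIntegrable u v
  have hg : Continuous fun φ => f (φ + h) := hf.comp (continuous_id.add continuous_const)
  have hi2 : ∀ u v : ℝ, IntervalIntegrable (fun φ => f (φ + h)) MeasureTheory.volume u v :=
    fun u v => hg.intervalIntegrable u v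
  rw [intervalIntegral.integral_add_adjacent_intervals ((hi _ _).add (hi2 _ _))
    ((hi _ _).add (hi2 _ _)), intervalIntegral.integral_add (hi _ _) (hi2 _ _),
    intervalIntegral.integral_comp_add_right f h]
  have e1 : (∫ θ in (-b)..(b - h), f θ) + ∫ θ in (b - h)..b, f θ = ∫ θ in (-b)..b, f θ :=
    intervalIntegral.integral_add_adjacent_intervals (hi _ _) (hi _ _)
  have e2 : (∫ θ in (-b)..(-b + h), f θ) + ∫ θ in (-b + h)..b, f θ = ∫ θ in (-b)..b, f θ :=
    intervalIntegral.integral_add_adjacent_intervals (hi _ _) (hi _ _)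
  have p1 : 0 ≤ ∫ θ in (b - h)..b, f θ :=
    intervalIntegral.integral_nonneg (by linarith) fun θ _ => hf0 θ
  have p2 : 0 ≤ ∫ θ in (-b)..(-b + h), f θ :=
    intervalIntegral.integral_nonneg (by linarith) fun θ _ => hf0 θ
  have e3 : b - h + h = b := by ring
  rw [e3]
  linarith

theorem pois_low {a : ℝ → ℝ} (ha : Continuous a) {E η b h θ₀ : ℝ} (hE : 0 ≤ E) (hη : 0 < η)
    (hb : 500 * η ≤ b) (hθ : |θ₀| ≤ s0 * η) (hh : 0 < h) (ha0 : ∀ θ, 0 ≤ a θ)
    (hpair : ∀ φ, |φ| ≤ b → |φ + h| ≤ b → 7 / 20 * E ≤ a φ + a (φ + h)) :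
    0.13 * E ≤ (∫ θ in (-b)..b, η / (Real.pi * ((θ - θ₀) ^ 2 + η ^ 2)) * a θ) +
      3 / 20 * E * ∫ θ in (-(min h b))..(min h b), η / (Real.pi * ((θ - θ₀) ^ 2 + η ^ 2)) := by
  have hpi := Real.pi_pos
  have hs0 : s0 = 17 / 8 := rfl
  have hθ1 := (abs_le.1 hθ).1
  have hθ2 := (abs_le.1 hθ).2
  rw [hs0] at hθ1 hθ2
  have hP0 : ∀ θ : ℝ, 0 ≤ η / (Real.pi * ((θ - θ₀) ^ 2 + η ^ 2)) := fun θ => by positivity
  have hs : |θ₀ / η| ≤ s0 := by
    rw [abs_div, abs_of_pos hη, div_le_iff₀ hη]; exact hθ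
  have hsec : ∀ m : ℝ, 0 ≤ m → (Real.arctan (m / η - s0) + Real.arctan (m / η + s0)) / Real.pi ≤
      ∫ θ in (-m)..m, η / (Real.pi * ((θ - θ₀) ^ 2 + η ^ 2)) := by
    intro m hm
    rw [pois_int hη]
    have e1 : (m - θ₀) / η = m / η - θ₀ / η := by ring
    have e2 : (-m - θ₀) / η = -(m / η + θ₀ / η) := by ring
    rw [e1, e2, Real.arctan_neg, sub_neg_eq_add]
    exact div_le_div_of_nonneg_right (arctan_sym (div_nonneg hm hη.le) hs) hpi.le
  have hfc : Continuous fun θ : ℝ => η / (Real.pi * ((θ - θ₀) ^ 2 + η ^ 2)) * a θ :=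
    (pois_cont hη θ₀).mul ha
  have hf0 : ∀ θ : ℝ, 0 ≤ η / (Real.pi * ((θ - θ₀) ^ 2 + η ^ 2)) * a θ :=
    fun θ => mul_nonneg (hP0 θ) (ha0 θ)
  rcases le_total (10 * η) h with hH | hH
  · have hm : 10 * η ≤ min h b := le_min hH (by linarith)
    have h1 := hsec (min h b) (by linarith)
    have h2 : (10 : ℝ) ≤ min h b / η := by rw [le_div_iff₀ hη]; exact hm
    have h3 : Real.arctan (10 - s0) ≤ Real.arctan (min h b / η - s0) :=
      Real.arctan_strictMono.monotone (by linarith)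
    have h4 : Real.arctan (10 + s0) ≤ Real.arctan (min h b / η + s0) :=
      Real.arctan_strictMono.monotone (by linarith)
    have h5 := arctan_big
    have h6 : (0.87 : ℝ) ≤
        (Real.arctan (min h b / η - s0) + Real.arctan (min h b / η + s0)) / Real.pi := by
      rw [le_div_iff₀ hpi]; linarith
    have h7 : 0 ≤ ∫ θ in (-b)..b, η / (Real.pi * ((θ - θ₀) ^ 2 + η ^ 2)) * a θ :=
      intervalIntegral.integral_nonneg (by linarith) fun θ _ => hf0 θ
    have h8 := mul_le_mul_of_nonneg_left (h6.trans h1) (show 0 ≤ 3 / 20 * E by positivity)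
    linarith
  · have hmin : min h b = h := min_eq_left (by linarith)
    rw [hmin]
    have h1 := hsec h hh.le
    have hH0 : 0 ≤ h / η := div_nonneg hh.le hη.le
    have hH1 : h / η ≤ 10 := by rw [div_le_iff₀ hη]; exact hH
    have h2 := arctan_ineq hH0 hH1
    have hc1 : -b ≤ θ₀ - h / 2 := by linarith
    have hc2 : θ₀ - h / 2 ≤ b - h := by linarith
    have h3 := pois_double (b := b) hfc hf0 (θ₀ - h / 2) hh
    have hPc := pois_cont hη θ₀
    have hPc2 : Continuous fun φ : ℝ => η / (Real.pi * ((φ + h - θ₀) ^ 2 + η ^ 2)) :=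
      hPc.comp (continuous_id.add continuous_const)
    have hgc : Continuous fun φ : ℝ => η / (Real.pi * ((φ - θ₀) ^ 2 + η ^ 2)) * a φ +
        η / (Real.pi * ((φ + h - θ₀) ^ 2 + η ^ 2)) * a (φ + h) :=
      hfc.add (hPc2.mul (ha.comp (continuous_id.add continuous_const)))
    have j1 : (∫ φ in (-b)..(θ₀ - h / 2), 7 / 20 * E * (η / (Real.pi * ((φ - θ₀) ^ 2 + η ^ 2)))) ≤
        ∫ φ in (-b)..(θ₀ - h / 2), (η / (Real.pi * ((φ - θ₀) ^ 2 + η ^ 2)) * a φ +
          η / (Real.pi * ((φ + h - θ₀) ^ 2 + η ^ 2)) * a (φ + h)) := by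
      refine intervalIntegral.integral_mono_on hc1
        ((continuous_const.mul hPc).intervalIntegrable _ _) (hgc.intervalIntegrable _ _) ?_
      intro φ hφ
      obtain ⟨hφ1, hφ2⟩ := hφ
      have k1 := hpair φ (abs_le.2 ⟨hφ1, by linarith⟩) (abs_le.2 ⟨by linarith, by linarith⟩)
      have k2 : η / (Real.pi * ((φ - θ₀) ^ 2 + η ^ 2)) ≤
          η / (Real.pi * ((φ + h - θ₀) ^ 2 + η ^ 2)) := pois_mono hη (by nlinarith)
      have k3 := mul_le_mul_of_nonneg_right k2 (ha0 (φ + h))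
      have k4 := mul_le_mul_of_nonneg_left k1 (hP0 φ)
      nlinarith
    have j2 : (∫ φ in (θ₀ - h / 2)..(b - h),
          7 / 20 * E * (η / (Real.pi * ((φ + h - θ₀) ^ 2 + η ^ 2)))) ≤
        ∫ φ in (θ₀ - h / 2)..(b - h), (η / (Real.pi * ((φ - θ₀) ^ 2 + η ^ 2)) * a φ +
          η / (Real.pi * ((φ + h - θ₀) ^ 2 + η ^ 2)) * a (φ + h)) := by
      refine intervalIntegral.integral_mono_on hc2
        ((continuous_const.mul hPc2).intervalIntegrable _ _) (hgc.intervalIntegrable _ _) ?_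
      intro φ hφ
      obtain ⟨hφ1, hφ2⟩ := hφ
      have k1 := hpair φ (abs_le.2 ⟨by linarith, by linarith⟩)
        (abs_le.2 ⟨by linarith, by linarith⟩)
      have k2 : η / (Real.pi * ((φ + h - θ₀) ^ 2 + η ^ 2)) ≤
          η / (Real.pi * ((φ - θ₀) ^ 2 + η ^ 2)) := pois_mono hη (by nlinarith)
      have k3 := mul_le_mul_of_nonneg_right k2 (ha0 φ)
      have k4 := mul_le_mul_of_nonneg_left k1 (hP0 (φ + h))
      nlinarith
    rw [intervalIntegral.integral_const_mul, pois_int hη] at j1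
    rw [intervalIntegral.integral_const_mul,
      intervalIntegral.integral_comp_add_right
        (fun θ : ℝ => η / (Real.pi * ((θ - θ₀) ^ 2 + η ^ 2))) h, pois_int hη] at j2
    have e1 : (θ₀ - h / 2 - θ₀) / η = -(h / η / 2) := by ring
    have e2 : (-b - θ₀) / η = -((b + θ₀) / η) := by ring
    have e3 : (b - h + h - θ₀) / η = (b - θ₀) / η := by ring
    have e4 : (θ₀ - h / 2 + h - θ₀) / η = h / η / 2 := by ring
    rw [e1, e2, Real.arctan_neg, Real.arctan_neg] at j1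
    rw [e3, e4] at j2
    have z1 : (497 : ℝ) ≤ (b + θ₀) / η := by rw [le_div_iff₀ hη]; linarith
    have z2 : (497 : ℝ) ≤ (b - θ₀) / η := by rw [le_div_iff₀ hη]; linarith
    have z3 := arctan_ge_half_pi (z := 497) (by norm_num)
    have z4 : Real.arctan 497 ≤ Real.arctan ((b + θ₀) / η) := Real.arctan_strictMono.monotone z1
    have z5 : Real.arctan 497 ≤ Real.arctan ((b - θ₀) / η) := Real.arctan_strictMono.monotone z2
    have hpi3 := Real.pi_gt_d2
    set A1 := Real.arctan ((b + θ₀) / η)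
    set A2 := Real.arctan ((b - θ₀) / η)
    set A3 := Real.arctan (h / η / 2)
    set A4 := Real.arctan (h / η - s0) + Real.arctan (h / η + s0)
    have key : 0.13 ≤ 7 / 40 * ((-A3 - -A1) / Real.pi + (A2 - A3) / Real.pi) +
        3 / 20 * (A4 / Real.pi) := by
      have : 7 / 40 * ((-A3 - -A1) / Real.pi + (A2 - A3) / Real.pi) + 3 / 20 * (A4 / Real.pi) =
          (7 / 40 * (A1 + A2 - 2 * A3) + 3 / 20 * A4) / Real.pi := by ring
      rw [this, le_div_iff₀ hpi]
      linarith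
    have k1 := mul_le_mul_of_nonneg_left key hE
    have k2 := mul_le_mul_of_nonneg_left h1 (show 0 ≤ 3 / 20 * E by positivity)
    nlinarith

end Crest.Agent.R300
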