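import Crest.Agent.R300.StepChain
import Crest.Agent.R300.Jensen
import Crest.Agent.R300.PoisLow

/-!
# Row 300: one step of the induction on scales, part 2.

`step`: take `a, hh` from `step_chain`; `C = 10^6 E/η²`, `E' = 0.992 E`,
`g = -(indicator [-b,b] a + (3/20)E' indicator (-min hh b, min hh b)) ≤ 0`.  Apply `jensen_half`
to `d u = gw ρ u Dl(…)/C` (this is `Dser/C`), evaluate the integral of `P g` over `[-π,π]` as minus
the two integrals of `pois_low` (`b ≤ 1 < π`; `intervalIntegral.integral_indicator`-type lemmas or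
`setIntegral_indicator`), and use `log C ≤ 0.0009 E`.
-/

set_option autoImplicit false

namespace Crest.Agent.R300

open Complex

/-- the integral over `[-π,π]` of a function cut off to `(-c,c]` -/
theorem int_ind_Ioc {c : ℝ} (hc : 0 ≤ c) (hcπ : c ≤ Real.pi) (f : ℝ → ℝ) :
    ∫ θ in (-Real.pi)..Real.pi, (Set.Ioc (-c) c).indicator f θ = ∫ θ in (-c)..c, f θ := by
  have hπ := Real.pi_pos
  rw [intervalIntegral.integral_of_le (by linarith), intervalIntegral.integral_of_le (by linarith),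
    MeasureTheory.setIntegral_indicator measurableSet_Ioc]
  congr 2
  rw [Set.Ioc_inter_Ioc, max_eq_right (by linarith), min_eq_right hcπ]

theorem int_ind_Ioo {c : ℝ} (hc : 0 ≤ c) (hcπ : c ≤ Real.pi) (f : ℝ → ℝ) :
    ∫ θ in (-Real.pi)..Real.pi, (Set.Ioo (-c) c).indicator f θ = ∫ θ in (-c)..c, f θ := by
  rw [← int_ind_Ioc hc hcπ f]
  apply intervalIntegral.integral_congr_ae
  have h : ∀ᵐ θ : ℝ, θ ≠ c := by
    simp [MeasureTheory.ae_iff]
  filter_upwards [h] with θ hθ _
  by_cases h1 : θ ∈ Set.Ioo (-c) c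
  · rw [Set.indicator_of_mem h1, Set.indicator_of_mem (Set.Ioo_subset_Ioc_self h1)]
  · rw [Set.indicator_of_notMem h1, Set.indicator_of_notMem]
    intro h2
    exact h1 ⟨h2.1, lt_of_le_of_ne h2.2 hθ⟩

theorem ii_ind {f : ℝ → ℝ} (hf : Continuous f) (c u v : ℝ) :
    IntervalIntegrable ((Set.Ioo (-c) c).indicator f) MeasureTheory.volume u v := by
  have h := hf.intervalIntegrable (μ := MeasureTheory.volume) u v
  exact ⟨h.1.indicator measurableSet_Ioo, h.2.indicator measurableSet_Ioo⟩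

theorem C_le_exp {E η : ℝ} (hη : 0 < η) (hE : 100000 ≤ E) (hηE : 1 / η ≤ Real.exp (E / 10000)) :
    1000000 * E / η ^ 2 ≤ Real.exp (0.00096 * E) := by
  have h1 : 1 / η ^ 2 ≤ Real.exp (E / 10000) ^ 2 := by
    rw [← one_div_pow]
    exact pow_le_pow_left₀ (by positivity) hηE 2
  have h2 : Real.exp (E / 10000) ^ 2 = Real.exp (0.0002 * E) := by
    rw [← Real.exp_nat_mul]; congr 1; push_cast; ring
  have h3 : 0.00038 * E ≤ Real.exp (0.00038 * E) := by
    have := Real.add_one_le_exp (0.00038 * E); linarith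
  have h4 : (2 : ℝ) ^ 38 ≤ Real.exp (0.00038 * E) := by
    have e1 : (2 : ℝ) ≤ Real.exp 1 := by
      have := Real.add_one_le_exp (1 : ℝ); linarith
    calc (2 : ℝ) ^ 38 ≤ Real.exp 1 ^ 38 := pow_le_pow_left₀ (by norm_num) e1 38
      _ = Real.exp 38 := by rw [← Real.exp_nat_mul]; norm_num
      _ ≤ _ := Real.exp_le_exp.2 (by linarith)
  have h5 : 1000000 * E ≤ Real.exp (0.00038 * E) * Real.exp (0.00038 * E) := by
    calc 1000000 * E ≤ 2 ^ 38 * (0.00038 * E) := by nlinarith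
      _ ≤ _ := mul_le_mul h4 h3 (by positivity) (by positivity)
  calc 1000000 * E / η ^ 2 = (1000000 * E) * (1 / η ^ 2) := by ring
    _ ≤ (Real.exp (0.00038 * E) * Real.exp (0.00038 * E)) * Real.exp (0.0002 * E) := by
        rw [← h2]; exact mul_le_mul h5 h1 (by positivity) (by positivity)
    _ = Real.exp (0.00096 * E) := by
        rw [← Real.exp_add, ← Real.exp_add]; congr 1; ring

section
variable {n d t k : ℕ} {x : Fin n → Bool} {μ : (Fin n → Bool) → ℝ} {B γ0 A ρp η E b : ℝ}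

theorem step (hpd : PD d t x μ) (hd : 4 * k + 4 ≤ d) (D : StepData n B γ0 A ρp η E b k)
    (H : Hyp μ x t B γ0 (4 * A) (4 * k + 3) ρp η E) :
    Hyp μ x t B γ0 A k (η ^ 2 / (400 * E)) (b / 500) (0.128 * E) := by
  intro Ψ hΨ θ₀ η' hη' hη'b hθ₀
  obtain ⟨a, hh, ha, ha0, hhh, hpair, h1, h2, h3⟩ := step_chain hpd hd D H hΨ
  have hη := D.hη
  have hE := D.hE
  have hb := D.hb
  have hb1 := D.hb1
  have hπ := Real.pi_gt_three
  set ρ := η ^ 2 / (400 * E) with hρ
  set C : ℝ := 1000000 * E / η ^ 2 with hC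
  have hC0 : 0 < C := by positivity
  set E' : ℝ := 0.992 * E with hE'
  have hE'0 : 0 ≤ E' := by positivity
  set m := min hh b with hm
  have hm0 : 0 < m := lt_min hhh hb
  have hmb : m ≤ b := min_le_right _ _
  set dd : ℕ → ℂ := fun u => ((gw ρ u : ℂ) * Dl μ x fun y => Ψ (yb y) (t + u)) / C with hdd
  have key : ∀ θ η'' : ℝ, ∑ u ∈ Finset.range (n - t), cexp ((θ * I - η'') * u) * dd u =
      Dser μ x t ρ Ψ θ η'' / C := by
    intro θ η''
    rw [Dser, Finset.sum_div]
    refine Finset.sum_congr rfl fun u _ => ?_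
    simp only [hdd]; ring
  have keyn : ∀ θ η'' : ℝ, ‖∑ u ∈ Finset.range (n - t), cexp ((θ * I - η'') * u) * dd u‖ =
      ‖Dser μ x t ρ Ψ θ η''‖ / C := by
    intro θ η''
    rw [key, norm_div, Complex.norm_real, Real.norm_of_nonneg hC0.le]
  set g : ℝ → ℝ := fun θ => -((Set.Ioo (-b) b).indicator a θ +
    (Set.Ioo (-m) m).indicator (fun _ => 3 / 20 * E') θ) with hg
  have hgi : IntervalIntegrable g MeasureTheory.volume (-Real.pi) Real.pi :=
    ((ii_ind ha b _ _).add (ii_ind continuous_const m _ _)).neg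
  have hg0 : ∀ θ, g θ ≤ 0 := by
    intro θ
    have e1 : 0 ≤ (Set.Ioo (-b) b).indicator a θ := Set.indicator_nonneg (fun z _ => ha0 z) θ
    have e2 : 0 ≤ (Set.Ioo (-m) m).indicator (fun _ => 3 / 20 * E') θ :=
      Set.indicator_nonneg (fun z _ => by positivity) θ
    simp only [hg]; linarith
  have hbd : ∀ θ ∈ Set.Icc (-Real.pi) Real.pi,
      ‖∑ u ∈ Finset.range (n - t), cexp ((θ * I) * u) * dd u‖ ≤ Real.exp (g θ) := by
    intro θ _
    have e := keyn θ 0
    simp only [Complex.ofReal_zero, sub_zero] at e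
    rw [e, div_le_iff₀ hC0, mul_comm]
    by_cases hmθ : θ ∈ Set.Ioo (-m) m
    · have hθm : |θ| < m := abs_lt.2 hmθ
      have hθb : θ ∈ Set.Ioo (-b) b := abs_lt.1 (lt_of_lt_of_le hθm hmb)
      simp only [hg, Set.indicator_of_mem hmθ, Set.indicator_of_mem hθb]
      exact h3 θ (hθm.le.trans hmb) (lt_of_lt_of_le hθm (min_le_left _ _))
    · by_cases hθb : θ ∈ Set.Ioo (-b) b
      · simp only [hg, Set.indicator_of_notMem hmθ, Set.indicator_of_mem hθb, add_zero]
        exact h2 θ (abs_lt.2 hθb).le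
      · simp only [hg, Set.indicator_of_notMem hmθ, Set.indicator_of_notMem hθb, add_zero,
          neg_zero, Real.exp_zero, mul_one]
        exact h1 θ
  have hJ := jensen_half (n - t) dd hη' θ₀ g hgi hg0 hbd
  rw [keyn, div_le_iff₀ hC0] at hJ
  set P : ℝ → ℝ := fun θ => η' / (Real.pi * ((θ - θ₀) ^ 2 + η' ^ 2)) with hP
  have hPc : Continuous P := by
    refine continuous_const.div (by fun_prop) fun θ => ?_
    positivity
  have hint : ∫ θ in (-Real.pi)..Real.pi, P θ * g θ =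
      -((∫ θ in (-b)..b, P θ * a θ) + 3 / 20 * E' * ∫ θ in (-m)..m, P θ) := by
    have e : (fun θ => P θ * g θ) = fun θ => -((Set.Ioo (-b) b).indicator (fun θ => P θ * a θ) θ +
        (Set.Ioo (-m) m).indicator (fun θ => 3 / 20 * E' * P θ) θ) := by
      funext θ
      simp only [hg, Set.indicator]
      split_ifs <;> ring
    rw [e, intervalIntegral.integral_neg,
      intervalIntegral.integral_add (ii_ind (f := fun θ => P θ * a θ) (hPc.mul ha) b _ _)
        (ii_ind (f := fun θ => 3 / 20 * E' * P θ) (continuous_const.mul hPc) m _ _),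
      int_ind_Ioo hb.le (by linarith), int_ind_Ioo hm0.le (by linarith),
      intervalIntegral.integral_const_mul]
  have hlow := pois_low ha (E := E') (η := η') (b := b) (h := hh) (θ₀ := θ₀) hE'0 hη'
    (by linarith) hθ₀ hhh ha0 hpair
  have hfin : ∫ θ in (-Real.pi)..Real.pi, P θ * g θ ≤ -(0.13 * E') := by
    rw [hint]; exact neg_le_neg hlow
  have hCe := C_le_exp hη hE D.hηE
  calc ‖Dser μ x t ρ Ψ θ₀ η'‖ ≤ _ := hJ
    _ ≤ Real.exp (-(0.13 * E')) * Real.exp (0.00096 * E) :=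
        mul_le_mul (Real.exp_le_exp.2 hfin) hCe hC0.le (Real.exp_pos _).le
    _ = Real.exp (-(0.128 * E)) := by
        rw [← Real.exp_add]; congr 1; rw [hE']; ring

end

/-- last level: `F ζ = ∑ r^u ζ^u d u`, `r = exp(-1/500)`, `‖d u‖ ≤ 2`, `‖F 0‖ = 1`
(`PD.norm_Dl_bit`, `URep.bit`), `‖F‖ ≤ 2/(1-r) ≤ 1002` on the circle and `≤ exp(-E)` on the arc
`|θ| ≤ s0/500`; `jensen_disc` at `w = 0`. -/
theorem last {n d t : ℕ} {x : Fin n → Bool} {μ : (Fin n → Bool) → ℝ} {B γ0 A ρ η E : ℝ}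
    (hpd : PD d t x μ) (hd : 1 ≤ d) (h0 : 0 < γ0) (hρ : 0 ≤ ρ) (hη : 1 / 500 ≤ η)
    (hE : 10000 ≤ E) (H : Hyp μ x t B γ0 A 0 ρ η E) : False := by
  have hπ := Real.pi_gt_three
  have hπ4 := Real.pi_lt_four
  set φ : Bool → ℂ := fun b => if b then 1 else 0 with hφ
  have hφ1 : ∀ b, ‖φ b‖ ≤ 1 := by
    intro b; cases b <;> simp [hφ]
  have hU := URep.bit B γ0 A 0 hφ1
  set Ψ : (ℕ → Bool) → ℕ → ℂ := fun y j => φ (y j) with hΨ
  set r : ℝ := Real.exp (-(1 / 500)) with hr
  have hr0 : 0 < r := Real.exp_pos _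
  have hr1 : r ≤ 500 / 501 := by
    have e1 := Real.add_one_le_exp (1 / 500 : ℝ)
    rw [hr, Real.exp_neg, inv_le_comm₀ (Real.exp_pos _) (by norm_num)]
    norm_num at e1 ⊢; linarith
  set dd : ℕ → ℂ := fun u => (r : ℂ) ^ u * ((gw ρ u : ℂ) * Dl μ x fun y => Ψ (yb y) (t + u))
    with hdd
  have key : ∀ θ : ℝ, ∑ u ∈ Finset.range (n - t), cexp (θ * I) ^ u * dd u =
      Dser μ x t ρ Ψ θ (1 / 500 : ℝ) := by
    intro θ
    rw [Dser]
    refine Finset.sum_congr rfl fun u _ => ?_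
    simp only [hdd]
    rw [← mul_assoc, ← mul_pow, hr, Complex.ofReal_exp, ← Complex.exp_add, ← Complex.exp_nat_mul]
    congr 2
    push_cast; ring
  have hdn : ∀ u, ‖dd u‖ ≤ 2 * r ^ u := by
    intro u
    have e1 := URep.Dl_le hpd hU h0 (by omega) (t + u)
    have e2 : gw ρ u ≤ 1 := by
      rw [gw, Real.exp_le_one_iff]
      have : 0 ≤ ρ * (u : ℝ) ^ 2 / 2 := by positivity
      linarith
    have e3 : 0 ≤ gw ρ u := (Real.exp_pos _).le
    simp only [hdd, norm_mul, norm_pow, Complex.norm_real, Real.norm_of_nonneg hr0.le,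
      Real.norm_of_nonneg e3]
    rw [mul_comm]
    refine mul_le_mul_of_nonneg_right ?_ (by positivity)
    calc gw ρ u * _ ≤ 1 * (2 * 1) := mul_le_mul e2 e1 (norm_nonneg _) (by norm_num)
      _ = 2 := by norm_num
  have hall : ∀ θ : ℝ, ‖∑ u ∈ Finset.range (n - t), cexp (θ * I) ^ u * dd u‖ ≤ Real.exp 8 := by
    intro θ
    have hr1' : r < 1 := by linarith
    calc ‖∑ u ∈ Finset.range (n - t), cexp (θ * I) ^ u * dd u‖
        ≤ ∑ u ∈ Finset.range (n - t), 2 * r ^ u := by
          refine norm_sum_le_of_le _ fun u _ => ?_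
          rw [norm_mul, norm_pow, Complex.norm_exp_ofReal_mul_I, one_pow, one_mul]
          exact hdn u
      _ = 2 * ∑ u ∈ Finset.range (n - t), r ^ u := by rw [Finset.mul_sum]
      _ ≤ 2 * (1 - r)⁻¹ := by
          gcongr
          rw [← tsum_geometric_of_lt_one hr0.le hr1']
          exact (summable_geometric_of_lt_one hr0.le hr1').sum_le_tsum _
            fun i _ => by positivity
      _ ≤ 2 * 501 := by
          gcongr
          rw [inv_le_comm₀ (by linarith) (by norm_num)]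
          norm_num at hr1 ⊢; linarith
      _ ≤ 2.7 ^ 8 := by norm_num
      _ ≤ Real.exp 1 ^ 8 := by
          have := Real.exp_one_gt_d9
          exact pow_le_pow_left₀ (by norm_num) (by linarith) 8
      _ = Real.exp 8 := by rw [← Real.exp_nat_mul]; norm_num
  set c : ℝ := s0 * (1 / 500) with hc
  have hc' : c = 17 / 4000 := by rw [hc, s0]; norm_num
  set g : ℝ → ℝ := fun θ => 8 - (Set.Ioo (-c) c).indicator (fun _ => E + 8) θ with hg
  have hgi : IntervalIntegrable g MeasureTheory.volume (-Real.pi) Real.pi :=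
    intervalIntegrable_const.sub (ii_ind continuous_const c _ _)
  have hbd : ∀ θ ∈ Set.Icc (-Real.pi) Real.pi,
      ‖∑ u ∈ Finset.range (n - t), cexp (θ * I) ^ u * dd u‖ ≤ Real.exp (g θ) := by
    intro θ _
    by_cases hθ : θ ∈ Set.Ioo (-c) c
    · have e : g θ = -E := by simp only [hg, Set.indicator_of_mem hθ]; ring
      rw [e, key]
      exact H Ψ hU θ (1 / 500) (by norm_num) hη (abs_lt.2 hθ).le
    · have e : g θ = 8 := by simp only [hg, Set.indicator_of_notMem hθ]; ring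
      rw [e]; exact hall θ
  have hJ := jensen_disc (n - t) dd (w := 0) (by simp) g hgi hbd
  have hnt : 0 < n - t := Nat.sub_pos_of_lt hpd.ht
  have hL : ‖∑ u ∈ Finset.range (n - t), (0 : ℂ) ^ u * dd u‖ = 1 := by
    rw [Finset.sum_eq_single 0]
    · have e := hpd.norm_Dl_bit
      simp only [hdd, pow_zero, one_mul, gw, Nat.cast_zero, add_zero]
      simpa [hΨ, hφ] using e
    · intro u _ hu; simp [hu]
    · intro h; exact absurd (Finset.mem_range.2 hnt) h
  have hI : ∫ θ in (-Real.pi)..Real.pi, (1 - ‖(0 : ℂ)‖ ^ 2) / ‖cexp (θ * I) - 0‖ ^ 2 * g θ =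
      2 * Real.pi * 8 - 2 * c * (E + 8) := by
    have e : (fun θ : ℝ => (1 - ‖(0 : ℂ)‖ ^ 2) / ‖cexp (θ * I) - 0‖ ^ 2 * g θ) = g := by
      funext θ
      simp [Complex.norm_exp_ofReal_mul_I]
    rw [e, hg, intervalIntegral.integral_sub intervalIntegrable_const
      (ii_ind continuous_const c _ _), int_ind_Ioo (by rw [hc']; norm_num) (by rw [hc']; linarith)]
    simp only [intervalIntegral.integral_const, smul_eq_mul]
    ring
  rw [hL, hI] at hJ
  have hneg : (2 * Real.pi)⁻¹ * (2 * Real.pi * 8 - 2 * c * (E + 8)) < 0 := by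
    apply mul_neg_of_pos_of_neg (by positivity)
    rw [hc']; linarith
  have := Real.exp_lt_one_iff.2 hneg
  linarith

end Crest.Agent.R300
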