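import Crest.Agent.R300.Level0
import Crest.Agent.R300.Step
import Crest.Agent.R300.Levels2

/-! # Row 300: the main analytic theorem. -/

set_option autoImplicit false

namespace Crest.Agent.R300

theorem StatClose.mono {n k k' : ℕ} {μ : (Fin n → Bool) → ℝ} {x : Fin n → Bool} {p ε : ℝ}
    (h : StatClose μ x p k ε) (hk : k' ≤ k) : StatClose μ x p k' ε :=
  fun σ r hv => h σ r ⟨hv.1.trans hk, hv.2⟩

theorem no_pd : ∃ C : ℝ, 1 ≤ C ∧ ∀ n : ℕ, 2 ≤ n → ∀ p : ℝ, 0 < p → p < 1 →
    ∀ (k t : ℕ) (ε : ℝ) (x : Fin n → Bool) (μ : (Fin n → Bool) → ℝ), C * XX n p ^ 2 ≤ k →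
      0 ≤ ε → ε ≤ Real.exp (-(C * Bud n p)) → PD k t x μ → StatClose μ x p k ε → False := by
  obtain ⟨C, hC, hbud⟩ := budget
  refine ⟨C, hC, fun n hn p hp hp1 k t ε x μ hk hε0 hε hpd hS => ?_⟩
  obtain ⟨L, Q, B, η, b, hQ1, hQ, hB, hqB, hL, h0, hlast, h, h10⟩ := scales hn hp hp1
  obtain ⟨h4, hlev⟩ := hbud n hn p hp hp1 L Q hQ1 hQ hL
  have h4k : 4 ^ L ≤ k := by exact_mod_cast h4.trans hk
  set E : ℕ → ℝ := fun l => (1 / 0.128) ^ (L - l) * (10 ^ 6 * (1 + Real.log n / 2 ^ L + L))
    with hE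
  set ρ : ℕ → ℝ := fun l => Nat.casesOn l 0 fun l => η l ^ 2 / (400 * E l) with hρ
  have hD := stepData_of_scales hn hB h0 h h10 E (fun _ => rfl) ρ rfl (fun _ => rfl)
  have hn' : (2 : ℝ) ≤ n := by exact_mod_cast hn
  have hpos : ∀ m : ℕ, 1 ≤ 4 ^ m := fun m => Nat.one_le_pow _ _ (by norm_num)
  have hγ0 : (0 : ℝ) < 1 / (3000 * n) := by positivity
  have hlog : 0 ≤ Real.log n := Real.log_nonneg (by linarith)
  have key : ∀ l ≤ L, Hyp μ x t B (1 / (3000 * n)) (B / 4 ^ l) (4 ^ (L - l) - 1) (ρ l) (η l)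
      (E l) := by
    intro l
    induction l with
    | zero =>
      intro _
      have hk1 : 4 ^ L - 1 + 1 ≤ k := by have := hpos L; omega
      have hQ0 : 0 < Q := by linarith
      have := level0 (k := 4 ^ L - 1) (A := B) (m := p / (20 * Q)) (E := E 0) hpd hk1 hp hp1 hε0
        (hS.mono hk1) hB (by linarith) le_rfl hγ0
        (by rw [div_le_one (by positivity)]; linarith) (by positivity)
        (by rw [div_le_iff₀ (by positivity)]; linarith)
        (by
          have hB0 : 0 < B := by linarith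
          have : p / (20 * Q) * (4 * (1 - p) / p) = (1 - p) / (5 * Q) := by field_simp; ring
          rw [this, div_le_div_iff₀ (by positivity) (by positivity)]
          nlinarith)
        (by simpa [hE] using hlev ε hε0 hε)
      simpa [h0, hρ] using this
    | succ l ih =>
      intro hl
      have hl' : l < L := hl
      have e1 : 4 ^ (L - l) - 1 = 4 * (4 ^ (L - l - 1) - 1) + 3 := by
        have : L - l = (L - l - 1) + 1 := by omega
        have h2 := hpos (L - l - 1)
        rw [this, pow_succ]; simp only [Nat.add_sub_cancel]; omega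
      have e2 : B / 4 ^ l = 4 * (B / 4 ^ (l + 1)) := by rw [pow_succ]; field_simp
      have hH := ih hl'.le
      rw [e1, e2] at hH
      have hd : 4 * (4 ^ (L - l - 1) - 1) + 4 ≤ k := by
        have h2 := hpos (L - l - 1)
        have h3 : 4 ^ (L - l) ≤ 4 ^ L := Nat.pow_le_pow_right (by norm_num) (by omega)
        omega
      have := step hpd hd (hD l hl') hH
      have e3 : E (l + 1) = 0.128 * E l := by
        have : L - l = (L - (l + 1)) + 1 := by omega
        simp only [hE]; rw [this, pow_succ (1 / 0.128 : ℝ)]; norm_num; ring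
      have e4 : L - (l + 1) = L - l - 1 := by omega
      rw [e3, e4, (h l hl').2.2.2.2.1]
      exact this
  have hfin := key L le_rfl
  have hρL : 0 ≤ ρ L := by
    have hEpos : ∀ l, 0 ≤ E l := fun l => by simp only [hE]; positivity
    rcases L with _ | L
    · simp [hρ]
    · have := hEpos L
      simp only [hρ]; positivity
  refine last hpd (le_trans (hpos L) h4k) hγ0 hρL hlast ?_ (by simpa using hfin)
  simp only [hE, Nat.sub_self, pow_zero, one_mul]
  have : 0 ≤ Real.log n / 2 ^ L + L := by positivity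
  nlinarith

/-- two different words are separated by a statistic -/
theorem separate : ∃ C : ℝ, 1 ≤ C ∧ ∀ n : ℕ, 2 ≤ n → ∀ p : ℝ, 0 < p → p < 1 →
    ∀ (k : ℕ) (x y : Fin n → Bool), C * XX n p ^ 2 ≤ k → x ≠ y →
      ∃ σ r, ValidSig n k σ r ∧ Real.exp (-(C * Bud n p)) < |PS p y σ r - PS p x σ r| := by
  obtain ⟨C, hC, h⟩ := no_pd
  refine ⟨C, hC, fun n hn p hp hp1 k x y hk hxy => ?_⟩
  by_contra hcon
  push Not at hcon
  obtain ⟨t, ht⟩ := pd_point k hxy
  refine h n hn p hp hp1 k t _ x _ hk (Real.exp_pos _).le le_rfl ht fun σ r hv => ?_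
  simpa using hcon σ r hv

end Crest.Agent.R300
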