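import Crest.Agent.Lib.PolyTime.More

/-!
# Row 300: a generic perceptron with an integer state.

Recipe.  Put `N' = N + 1`, `D = 16 N'^2 A^2 E^2`, `T = 4 N'^2 A^2 E^2 + 1`, start at `z = replicate N 0`; step:
if `S (a, D, z) = some g` then `z_i += ⌊8 N' E * clip(g_i)⌋` for `i < N` (`clip x = max (-A) (min A x)`,
rebuild the list by `(range N).map`), else keep `z`.  Sizes on all inputs: `|z_i| ≤ j (8 N' E A + 1)` after `j`
steps (`PT.iterate`).  Correctness: `w = z / D`, `η = 1 / (2 N' A^2 E)` (so `D η = 8 N' E`), potential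
`Φ = ∑_{i<N} (w_i - ψ_i)^2 ≤ N` at the start; a real step changes `w_i` by `η g_i - θ_i / D`, `θ_i ∈ [0,1)`, and
`Φ' ≤ Φ - 2η/E + 2 N/D + 2 N η^2 A^2 + 2N/D^2 ≤ Φ - 1/(4 N' A^2 E^2)` (use `∑ |w_i - ψ_i| ≤ N'` from `Φ ≤ N`,
e.g. `|t| ≤ (1 + t^2)/2`).  So some step among the first `T` meets `none`, and then the state is constant.
-/

set_option autoImplicit false

namespace Crest.Agent.R300

open Crest.Agent.Lib.PolyTime Finset

/-- one step of the perceptron -/
def percStep (S : List ℤ → Option (List ℚ)) (N A c : ℕ) (z : List ℤ) : List ℤ :=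
  (S z).elim z fun g => (List.range N).map fun i =>
    z.getD i 0 + ⌊(c : ℚ) * max (-(A : ℚ)) (min (A : ℚ) (g.getD i 0))⌋

theorem perc_size (S : List ℤ → Option (List ℚ)) (N A c j : ℕ) :
    ((percStep S N A c)^[j] (List.replicate N 0)).length = N ∧
      ∀ x ∈ (percStep S N A c)^[j] (List.replicate N 0), x.natAbs ≤ j * (c * A + 1) := by
  induction j with
  | zero => simp
  | succ j ih =>
    rw [Function.iterate_succ_apply']
    generalize (percStep S N A c)^[j] (List.replicate N 0) = z at ih ⊢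
    unfold percStep
    cases S z with
    | none => exact ⟨ih.1, fun x hx => (ih.2 x hx).trans (Nat.mul_le_mul_right _ (Nat.le_succ j))⟩
    | some g =>
      refine ⟨by simp, fun x hx => ?_⟩
      obtain ⟨i, -, rfl⟩ := List.mem_map.1 hx
      have h1 : (z.getD i 0).natAbs ≤ j * (c * A + 1) := by
        rw [List.getD_eq_getElem?_getD]
        cases h : z[i]? with
        | none => simp
        | some y => exact ih.2 y (List.mem_of_getElem? h)
      have hA : (0 : ℚ) ≤ A := Nat.cast_nonneg A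
      have hc : (0 : ℚ) ≤ c := Nat.cast_nonneg c
      set y : ℚ := max (-(A : ℚ)) (min (A : ℚ) (g.getD i 0)) with hy
      have h2 : -((c * A : ℕ) : ℤ) ≤ ⌊(c : ℚ) * y⌋ := by
        rw [Int.le_floor]
        push_cast
        have : -(A : ℚ) ≤ y := le_max_left _ _
        nlinarith
      have h3 : ⌊(c : ℚ) * y⌋ ≤ ((c * A : ℕ) : ℤ) := by
        rw [← Int.cast_le (R := ℚ)]
        refine (Int.floor_le _).trans ?_
        push_cast
        exact mul_le_mul_of_nonneg_left (max_le (by linarith) (min_le_left _ _)) hc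
      rw [add_mul, one_mul]
      omega

theorem perc_coord {u g η a D θ : ℝ} (hD : 1 ≤ D) (hg : |g| ≤ a) (h0 : 0 ≤ θ) (h1 : θ ≤ 1) :
    (u + η * g - θ / D) ^ 2 ≤
      u ^ 2 + 2 * η * (g * u) + D⁻¹ * u ^ 2 + (3 * D⁻¹ + 2 * η ^ 2 * a ^ 2) := by
  have hd0 : 0 < D⁻¹ := by positivity
  have hd1 : D⁻¹ ≤ 1 := inv_le_one_of_one_le₀ hD
  rw [div_eq_mul_inv]
  generalize D⁻¹ = d at hd0 hd1
  have h2 : g ^ 2 ≤ a ^ 2 := sq_le_sq' (abs_le.1 hg).1 (abs_le.1 hg).2
  have h3 : η ^ 2 * g ^ 2 ≤ η ^ 2 * a ^ 2 := mul_le_mul_of_nonneg_left h2 (sq_nonneg η)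
  have h4 : θ ^ 2 ≤ 1 := pow_le_one₀ h0 h1
  have h5 : 0 ≤ d * (u + θ) ^ 2 := by positivity
  have h6 : d * θ ^ 2 ≤ d := mul_le_of_le_one_right hd0.le h4
  have h7 : d * (d * θ ^ 2) ≤ d := mul_le_of_le_one_right hd0.le (h6.trans hd1)
  nlinarith [sq_nonneg (η * g + θ * d)]

theorem perc_conv {N A E : ℕ} (hA : 1 ≤ A) (hE : 1 ≤ E) (S : List ℤ → Option (List ℚ)) (ψ : ℕ → ℝ)
    (hψ : ∀ i < N, |ψ i| ≤ 1)
    (H : ∀ z g, S z = some g → (∀ i < N, |g.getD i 0| ≤ A) ∧ 1 / (E : ℝ) ≤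
      ∑ i ∈ range N, ((g.getD i 0 : ℚ) : ℝ) * (ψ i - (z.getD i 0 : ℤ) /
        ((16 * ((N + 1) * (N + 1) * (A * A) * (E * E)) : ℕ) : ℝ))) :
    S ((percStep S N A (8 * (N + 1) * E))^[4 * ((N + 1) * (N + 1) * (A * A) * (E * E)) + 1]
      (List.replicate N 0)) = none := by
  have ha : (1 : ℝ) ≤ A := by exact_mod_cast hA
  have he : (1 : ℝ) ≤ E := by exact_mod_cast hE
  have hn : (0 : ℝ) ≤ N := Nat.cast_nonneg N
  set D : ℝ := ((16 * ((N + 1) * (N + 1) * (A * A) * (E * E)) : ℕ) : ℝ) with hD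
  have hD1 : 1 ≤ D := by
    rw [hD, Nat.one_le_cast, Nat.succ_le_iff]
    positivity
  set K : ℝ := (N + 1) * A ^ 2 * E ^ 2 with hK
  have hK0 : 0 < K := by positivity
  have hDK : D = 16 * (N + 1) * K := by
    rw [hD, hK]
    push_cast
    ring
  set η : ℝ := 1 / (2 * (N + 1) * A ^ 2 * E) with hη
  set Φ : List ℤ → ℝ := fun z => ∑ i ∈ range N, ((z.getD i 0 : ℤ) / D - ψ i) ^ 2 with hΦ
  have hstep : ∀ z g, S z = some g → Φ z ≤ N →
      Φ (percStep S N A (8 * (N + 1) * E) z) ≤ Φ z - 1 / (4 * K) := fun z g hg hz => by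
    obtain ⟨h1, h2⟩ := H z g hg
    have h3 : Φ (percStep S N A (8 * (N + 1) * E) z) ≤ ∑ i ∈ range N,
        (((z.getD i 0 : ℤ) / D - ψ i) ^ 2
          + 2 * η * (((g.getD i 0 : ℚ) : ℝ) * ((z.getD i 0 : ℤ) / D - ψ i))
          + D⁻¹ * ((z.getD i 0 : ℤ) / D - ψ i) ^ 2 + (3 * D⁻¹ + 2 * η ^ 2 * (A : ℝ) ^ 2)) := by
      refine sum_le_sum fun i hi => ?_
      have hi' := mem_range.1 hi
      have h4 := abs_le.1 (h1 i hi')
      have h5 : (percStep S N A (8 * (N + 1) * E) z).getD i 0 =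
          z.getD i 0 + ⌊((8 * (N + 1) * E : ℕ) : ℚ) * g.getD i 0⌋ := by
        rw [percStep, hg, Option.elim_some, List.getD_eq_getElem _ _ (by simpa using hi'),
          List.getElem_map, List.getElem_range, min_eq_right h4.2, max_eq_right h4.1]
      rw [h5]
      set q : ℚ := ((8 * (N + 1) * E : ℕ) : ℚ) * g.getD i 0 with hq
      have h6 : ((⌊q⌋ : ℤ) : ℝ) ≤ (q : ℝ) := by exact_mod_cast Int.floor_le q
      have h7 : (q : ℝ) ≤ ((⌊q⌋ : ℤ) : ℝ) + 1 := by exact_mod_cast (Int.lt_floor_add_one q).le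
      refine le_trans (le_of_eq ?_) (perc_coord (θ := (q : ℝ) - ((⌊q⌋ : ℤ) : ℝ)) hD1
        (by exact_mod_cast h1 i hi') (by linarith) (by linarith))
      congr 1
      have h8 : η * ((g.getD i 0 : ℚ) : ℝ) = (q : ℝ) / D := by
        rw [hq, hDK, hK, hη]
        push_cast
        field_simp
        ring
      rw [h8]
      push_cast
      ring
    rw [sum_add_distrib, sum_add_distrib, sum_add_distrib, ← mul_sum, ← mul_sum, sum_const,
      card_range, nsmul_eq_mul] at h3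
    have h4 : ∑ i ∈ range N, ((g.getD i 0 : ℚ) : ℝ) * ((z.getD i 0 : ℤ) / D - ψ i) ≤ -(1 / E) := by
      rw [le_neg, ← sum_neg_distrib]
      exact h2.trans (le_of_eq (sum_congr rfl fun i _ => by ring))
    have h5 : 2 * η * ∑ i ∈ range N, ((g.getD i 0 : ℚ) : ℝ) * ((z.getD i 0 : ℤ) / D - ψ i) ≤
        -(1 / K) := by
      refine (mul_le_mul_of_nonneg_left h4 (by positivity)).trans (le_of_eq ?_)
      rw [hη, hK]
      field_simp
    have h6 : D⁻¹ * Φ z ≤ D⁻¹ * (N + 1) := mul_le_mul_of_nonneg_left (by linarith) (by positivity)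
    have h7 : (N : ℝ) * (3 * D⁻¹ + 2 * η ^ 2 * (A : ℝ) ^ 2) ≤
        (N + 1) * (3 * D⁻¹ + 2 * η ^ 2 * (A : ℝ) ^ 2) :=
      mul_le_mul_of_nonneg_right (by linarith) (by positivity)
    have h8 : D⁻¹ * (N + 1) + (N + 1) * (3 * D⁻¹ + 2 * η ^ 2 * (A : ℝ) ^ 2) = 1 / K - 1 / (4 * K) := by
      rw [hDK, hη, hK]
      field_simp
      ring
    change _ ≤ Φ z + _ + D⁻¹ * Φ z + _ at h3
    linarith
  have key : ∀ j : ℕ, S ((percStep S N A (8 * (N + 1) * E))^[j] (List.replicate N 0)) = none ∨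
      Φ ((percStep S N A (8 * (N + 1) * E))^[j] (List.replicate N 0)) ≤ N - j / (4 * K) := by
    intro j
    induction j with
    | zero =>
      refine Or.inr ?_
      simp only [Function.iterate_zero, id, Nat.cast_zero, zero_div, sub_zero]
      refine (sum_le_card_nsmul _ _ 1 fun i hi => ?_).trans (by simp)
      have hi' := mem_range.1 hi
      rw [List.getD_eq_getElem _ _ (by simpa using hi'), List.getElem_replicate]
      simpa using hψ i hi'
    | succ j ih =>
      rw [Function.iterate_succ_apply']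
      generalize (percStep S N A (8 * (N + 1) * E))^[j] (List.replicate N 0) = z at ih ⊢
      cases hg : S z with
      | none =>
        refine Or.inl ?_
        rw [percStep, hg, Option.elim_none, hg]
      | some g =>
        have h1 := ih.resolve_left (by simp [hg])
        have h2 : (0 : ℝ) ≤ j / (4 * K) := by positivity
        have h3 := hstep z g hg (by linarith)
        refine Or.inr ?_
        push_cast
        rw [add_div]
        linarith
  refine (key _).resolve_right fun h => ?_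
  have h1 := (sum_nonneg fun i _ => sq_nonneg _).trans h
  have h2 : ((4 * ((N + 1) * (N + 1) * (A * A) * (E * E)) + 1 : ℕ) : ℝ) / (4 * K) =
      N + 1 + 1 / (4 * K) := by
    rw [hK]
    push_cast
    field_simp
  have h3 : 0 < 1 / (4 * K) := by positivity
  linarith

theorem exists_perc {α : Type} [Enc α] (S : α × ℕ × List ℤ → Option (List ℚ)) (hS : PT S)
    (N A E : α → ℕ) (hN : PT N) (hN' : PB N) (hA : PT A) (hA' : PB A) (hE : PT E) (hE' : PB E) :
    ∃ R : α → ℕ × List ℤ, PT R ∧ ∀ a, 1 ≤ A a → 1 ≤ E a → 0 < (R a).1 ∧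
      ∀ ψ : ℕ → ℝ, (∀ i < N a, |ψ i| ≤ 1) →
        (∀ (D : ℕ) (z : List ℤ) (g : List ℚ), 0 < D → S (a, D, z) = some g →
          (∀ i < N a, |g.getD i 0| ≤ A a) ∧ 1 / (E a : ℝ) ≤
            ∑ i ∈ range (N a), ((g.getD i 0 : ℚ) : ℝ) * (ψ i - (z.getD i 0 : ℤ) / (D : ℝ))) →
        S (a, (R a).1, (R a).2) = none := by
  refine ⟨fun a => (16 * ((N a + 1) * (N a + 1) * (A a * A a) * (E a * E a)),
    (percStep (fun z => S (a, 16 * ((N a + 1) * (N a + 1) * (A a * A a) * (E a * E a)), z)) (N a) (A a)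
      (8 * (N a + 1) * E a))^[4 * ((N a + 1) * (N a + 1) * (A a * A a) * (E a * E a)) + 1]
      (List.replicate (N a) 0)), PT.prodMk (by fun_prop) ?_, fun a hA1 hE1 => ⟨by positivity,
        fun ψ hψ H => perc_conv hA1 hE1 _ ψ hψ fun z g hg => H _ z g (by positivity) hg⟩⟩
  refine PT.iterate (fun a => N a * (6 * ((4 * ((N a + 1) * (N a + 1) * (A a * A a) * (E a * E a)) + 1)
    * (8 * (N a + 1) * E a * A a + 1)) + 7 + 1) + 1) (by fun_prop) (by fun_prop) (by fun_prop) ?_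
    (by fun_prop) fun a j hj => ?_
  · unfold percStep
    refine PT.option_elim (hS.comp (g := fun p : α × List ℤ =>
      (p.1, 16 * ((N p.1 + 1) * (N p.1 + 1) * (A p.1 * A p.1) * (E p.1 * E p.1)), p.2))
      (by fun_prop)) (by fun_prop) (by fun_prop)
  · obtain ⟨h1, h2⟩ := perc_size
      (fun z => S (a, 16 * ((N a + 1) * (N a + 1) * (A a * A a) * (E a * E a)), z)) (N a) (A a)
      (8 * (N a + 1) * E a) j
    refine (esize_list_le (B := 6 * ((4 * ((N a + 1) * (N a + 1) * (A a * A a) * (E a * E a)) + 1)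
      * (8 * (N a + 1) * E a * A a + 1)) + 7) fun x hx => ?_).trans (by rw [h1])
    have h3 := (h2 x hx).trans (Nat.mul_le_mul_right _ hj)
    have h4 := esize_nat_le_self x.natAbs
    rw [esize_int]
    omega

end Crest.Agent.R300
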