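import Crest.Agent.R300.Prod

/-!
# Row 300: fourfold products, part 2.

`prod_term`: `gauss3` (index set `range n ×ˢ range n ×ˢ range n`, `lam = 0.98`) on top of
`prod_core`.  `prod4`: telescoping
`∏ Sᵢ(J+1) - ∏ Sᵢ(J) = ∑_{i₀} (∏_{i<i₀} Sᵢ(J)) a_{i₀}(J) ∏_{i>i₀} Sᵢ(J+1)`
(`Finset.sum_range_sub`), four applications of `prod_term`, and numerics
(`9^(4k+3) ≤ exp(0.0009E)`, `(12000/η)^3 ≤ exp(29 + 0.0003E)`, `√E ≤ exp(E/10^4)`).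
-/

set_option autoImplicit false

namespace Crest.Agent.R300

open Complex

theorem prod4_triple (s : Finset ℕ) (f g h : ℕ → ℂ) :
    (∑ j ∈ s, f j) * (∑ j ∈ s, g j) * ∑ j ∈ s, h j =
      ∑ i ∈ s ×ˢ s ×ˢ s, f i.1 * g i.2.1 * h i.2.2 := by
  rw [Finset.sum_product, mul_assoc, Finset.sum_mul]
  refine Finset.sum_congr rfl fun a _ => ?_
  rw [Finset.sum_product, Finset.sum_mul_sum, Finset.mul_sum]
  refine Finset.sum_congr rfl fun b _ => ?_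
  rw [Finset.mul_sum]
  exact Finset.sum_congr rfl fun c _ => (mul_assoc _ _ _).symm

theorem prod4_PSum (w p : ℕ → ℂ) (Ψ : (ℕ → Bool) → ℕ → ℂ) (y : ℕ → Bool) {m n : ℕ} (h : m ≤ n) :
    PSum (fun j => w j * p j) Ψ y m =
      ∑ j ∈ Finset.range n, w j * (if j < m then p j * Ψ y j else 0) := by
  unfold PSum
  rw [← Finset.sum_subset (Finset.range_subset_range.2 h) fun j _ hj => by
    rw [if_neg (by simpa using hj), mul_zero]]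
  refine Finset.sum_congr rfl fun j hj => ?_
  rw [if_pos (Finset.mem_range.1 hj), mul_assoc]

theorem prod4_expand {n : ℕ} (μ : (Fin n → Bool) → ℝ) (x : Fin n → Bool)
    (a : (Fin n → Bool) → ℕ → ℂ) (p₁ p₂ p₃ : ℕ → ℂ) (Ψ₁ Ψ₂ Ψ₃ : (ℕ → Bool) → ℕ → ℂ)
    {e₁ e₂ e₃ : ℕ} (he₁ : e₁ ≤ 1) (he₂ : e₂ ≤ 1) (he₃ : e₃ ≤ 1) :
    ∃ c : ℕ × ℕ × ℕ → ℂ, ∀ w₁ w₂ w₃ : ℕ → ℂ,
      (Dl μ x fun y => ∑ J ∈ Finset.range n, a y J *
        (PSum (fun j => w₁ j * p₁ j) Ψ₁ (yb y) (J + e₁) *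
          PSum (fun j => w₂ j * p₂ j) Ψ₂ (yb y) (J + e₂) *
          PSum (fun j => w₃ j * p₃ j) Ψ₃ (yb y) (J + e₃))) =
      ∑ i ∈ Finset.range n ×ˢ Finset.range n ×ˢ Finset.range n,
        c i * (w₁ i.1 * w₂ i.2.1 * w₃ i.2.2) := by
  refine ⟨fun i => Dl μ x fun y => ∑ J ∈ Finset.range n, a y J *
    ((if i.1 < J + e₁ then p₁ i.1 * Ψ₁ (yb y) i.1 else 0) *
      (if i.2.1 < J + e₂ then p₂ i.2.1 * Ψ₂ (yb y) i.2.1 else 0) *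
      (if i.2.2 < J + e₃ then p₃ i.2.2 * Ψ₃ (yb y) i.2.2 else 0)), fun w₁ w₂ w₃ => ?_⟩
  simp only [mul_comm (Dl μ x _), ← Dl_mul_left]
  rw [← Dl_sum]
  refine congrArg (Dl μ x) (funext fun y => ?_)
  simp only [Finset.mul_sum (Finset.range n)]
  rw [Finset.sum_comm]
  refine Finset.sum_congr rfl fun J hJ => ?_
  have hJ' := Finset.mem_range.1 hJ
  rw [prod4_PSum w₁ p₁ Ψ₁ _ (show J + e₁ ≤ n by omega),
    prod4_PSum w₂ p₂ Ψ₂ _ (show J + e₂ ≤ n by omega),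
    prod4_PSum w₃ p₃ Ψ₃ _ (show J + e₃ ≤ n by omega), prod4_triple, Finset.mul_sum]
  exact Finset.sum_congr rfl fun i _ => by ring

theorem prod4_two_pow (m : ℕ) : (2 : ℝ) ^ m ≤ Real.exp m := by
  have h : (2 : ℝ) ≤ Real.exp 1 := by
    have := Real.add_one_le_exp (1 : ℝ)
    linarith
  calc (2 : ℝ) ^ m ≤ Real.exp 1 ^ m := pow_le_pow_left₀ (by norm_num) h m
    _ = Real.exp m := by rw [← Real.exp_nat_mul, mul_one]

theorem prod4_num {η E : ℝ} {k : ℕ} (hη : 0 < η) (hE : 100000 ≤ E)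
    (hk : 10000 * ((k : ℝ) + 1) ≤ E) (hηE : 1 / η ≤ Real.exp (E / 10000)) :
    (100 * (1 + 43 * √E) * Real.exp (9 + E / 230) * (3 ^ (8 * k + 6) * (12000 / η) ^ 3) *
          Real.exp (-E)) * Real.exp (3 * (η / 3000) ^ 2 / (2 * (η ^ 2 / (400 * E)))) /
        √(1 - 0.98) ^ 3 ≤ Real.exp (-(0.992 * E)) / 4 := by
  have hE0 : 0 < E := by linarith
  have e1 : 3 * (η / 3000) ^ 2 / (2 * (η ^ 2 / (400 * E))) = E / 15000 := by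
    field_simp
    ring
  have h1 : (0.14 : ℝ) ≤ √(1 - 0.98) := Real.le_sqrt_of_sq_le (by norm_num)
  have h2 : (1 / 400 : ℝ) ≤ √(1 - 0.98) ^ 3 :=
    le_trans (by norm_num) (pow_le_pow_left₀ (by norm_num) h1 3)
  have h3 : 1 + 43 * √E ≤ Real.exp (10 + E / 5000) := by
    have a1 : (300 : ℝ) ≤ √E := Real.le_sqrt_of_sq_le (by linarith)
    have a2 : √E * √E = E := Real.mul_self_sqrt hE0.le
    have a3 : √E ≤ E / 300 := by nlinarith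
    have a4 := prod4_two_pow 10
    have a5 := Real.add_one_le_exp (E / 5000)
    rw [Real.exp_add]
    calc 1 + 43 * √E ≤ 2 ^ 10 * (E / 5000 + 1) := by linarith
      _ ≤ Real.exp 10 * Real.exp (E / 5000) := by
        exact mul_le_mul (by exact_mod_cast a4) a5 (by positivity) (by positivity)
  have h4 : (3 : ℝ) ^ (8 * k + 6) ≤ Real.exp (E / 625) := by
    calc (3 : ℝ) ^ (8 * k + 6) ≤ (2 ^ 2) ^ (8 * k + 6) :=
          pow_le_pow_left₀ (by norm_num) (by norm_num) _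
      _ = 2 ^ (2 * (8 * k + 6)) := by rw [← pow_mul]
      _ ≤ Real.exp ((2 * (8 * k + 6) : ℕ) : ℝ) := prod4_two_pow _
      _ ≤ Real.exp (E / 625) := Real.exp_le_exp.2 (by push_cast; linarith)
  have h5 : (12000 / η) ^ 3 ≤ Real.exp (42 + 3 * E / 10000) := by
    have a4 := prod4_two_pow 14
    have a1 : 12000 / η ≤ Real.exp (14 + E / 10000) := by
      rw [Real.exp_add]
      calc 12000 / η = 12000 * (1 / η) := by ring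
        _ ≤ Real.exp 14 * Real.exp (E / 10000) :=
          mul_le_mul (le_trans (b := 2 ^ 14) (by norm_num) (by exact_mod_cast a4)) hηE (by positivity)
            (by positivity)
    calc (12000 / η) ^ 3 ≤ Real.exp (14 + E / 10000) ^ 3 := pow_le_pow_left₀ (by positivity) a1 3
      _ = Real.exp (42 + 3 * E / 10000) := by
        rw [← Real.exp_nat_mul]
        congr 1
        push_cast
        ring
  have h6 : (160000 : ℝ) ≤ Real.exp 18 :=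
    le_trans (b := 2 ^ 18) (by norm_num) (by exact_mod_cast prod4_two_pow 18)
  rw [e1, div_le_div_iff₀ (by positivity) (by norm_num)]
  calc 100 * (1 + 43 * √E) * Real.exp (9 + E / 230) * (3 ^ (8 * k + 6) * (12000 / η) ^ 3) *
          Real.exp (-E) * Real.exp (E / 15000) * 4
      = (160000 * (1 + 43 * √E) * Real.exp (9 + E / 230) * (3 ^ (8 * k + 6) * (12000 / η) ^ 3) *
          Real.exp (-E) * Real.exp (E / 15000)) * (1 / 400) := by ring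
    _ ≤ (Real.exp 18 * Real.exp (10 + E / 5000) * Real.exp (9 + E / 230) *
          (Real.exp (E / 625) * Real.exp (42 + 3 * E / 10000)) *
          Real.exp (-E) * Real.exp (E / 15000)) * √(1 - 0.98) ^ 3 := by gcongr
    _ ≤ Real.exp (-(0.992 * E)) * √(1 - 0.98) ^ 3 := by
        simp only [← Real.exp_add]
        gcongr
        linarith

section
variable {n d t k : ℕ} {x : Fin n → Bool} {μ : (Fin n → Bool) → ℝ} {B γ0 A ρp η E b : ℝ}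
  {Ψ₀ Ψ₁ Ψ₂ Ψ₃ : (ℕ → Bool) → ℕ → ℂ} {θ₀ θ₁ θ₂ θ₃ : ℝ}

theorem prod_term (hpd : PD d t x μ) (hd : 4 * k + 4 ≤ d) (D : StepData n B γ0 A ρp η E b k)
    (H : Hyp μ x t B γ0 (4 * A) (4 * k + 3) ρp η E)
    (h₀ : URep B γ0 A k 1 Ψ₀) (h₁ : URep B γ0 A k 1 Ψ₁) (h₂ : URep B γ0 A k 1 Ψ₂)
    (h₃ : URep B γ0 A k 1 Ψ₃) (b₁ : |θ₁| ≤ b) (b₂ : |θ₂| ≤ b) (b₃ : |θ₃| ≤ b)
    (hs : |θ₀ + θ₁ + θ₂ + θ₃| ≤ √(η ^ 2 / (400 * E))) (e₁ e₂ e₃ : ℕ) (he₁ : e₁ ≤ 1)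
    (he₂ : e₂ ≤ 1) (he₃ : e₃ ≤ 1) :
    ‖Dl μ x fun y => ∑ J ∈ Finset.range n,
        (gw (η ^ 2 / (400 * E)) ((J : ℝ) - t) : ℂ) * cexp (θ₀ * I * ((J : ℝ) - t : ℝ)) *
          Ψ₀ (yb y) J *
        (PSum (fun j => (gw (η ^ 2 / (400 * E)) ((j : ℝ) - t) : ℂ) *
            cexp (θ₁ * I * ((j : ℝ) - t : ℝ))) Ψ₁ (yb y) (J + e₁) *
          PSum (fun j => (gw (η ^ 2 / (400 * E)) ((j : ℝ) - t) : ℂ) *
            cexp (θ₂ * I * ((j : ℝ) - t : ℝ))) Ψ₂ (yb y) (J + e₂) *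
          PSum (fun j => (gw (η ^ 2 / (400 * E)) ((j : ℝ) - t) : ℂ) *
            cexp (θ₃ * I * ((j : ℝ) - t : ℝ))) Ψ₃ (yb y) (J + e₃))‖ ≤
      Real.exp (-(0.992 * E)) / 4 := by
  have hE0 : 0 < E := by linarith [D.hE]
  have hη := D.hη
  have hρ : 0 < η ^ 2 / (400 * E) := by positivity
  obtain ⟨c, hc⟩ := prod4_expand μ x
    (fun y J => (gw (η ^ 2 / (400 * E)) ((J : ℝ) - t) : ℂ) * cexp (θ₀ * I * ((J : ℝ) - t : ℝ)) *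
      Ψ₀ (yb y) J)
    (fun j => cexp (θ₁ * I * ((j : ℝ) - t : ℝ))) (fun j => cexp (θ₂ * I * ((j : ℝ) - t : ℝ)))
    (fun j => cexp (θ₃ * I * ((j : ℝ) - t : ℝ))) Ψ₁ Ψ₂ Ψ₃ he₁ he₂ he₃
  rw [hc]
  refine le_trans (gauss3 _ c (fun i => (i.1 : ℝ) - t) (fun i => (i.2.1 : ℝ) - t)
    (fun i => (i.2.2 : ℝ) - t) (lam := 0.98) (η / 3000) hρ (by norm_num) (by positivity)
    fun τ₁ τ₂ τ₃ => ?_) (prod4_num D.hη D.hE D.hk D.hηE)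
  have h := prod_core hpd hd D H h₀ h₁ h₂ h₃ b₁ b₂ b₃ hs e₁ e₂ e₃ he₁ he₂ he₃ τ₁ τ₂ τ₃
  have e : ∀ θ τ : ℝ,
      (fun j : ℕ => cexp (((θ + τ : ℝ) * I + (η / 3000 : ℝ)) * ((j : ℝ) - t : ℝ))) =
      fun j : ℕ => cexp ((τ * I + (η / 3000 : ℝ)) * ((j : ℝ) - t : ℝ)) *
        cexp (θ * I * ((j : ℝ) - t : ℝ)) := by
    intro θ τ
    funext j
    rw [← Complex.exp_add]
    congr 1
    push_cast
    ring
  rw [e, e, e, hc] at h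
  exact h

theorem prod4 (hpd : PD d t x μ) (hd : 4 * k + 4 ≤ d) (D : StepData n B γ0 A ρp η E b k)
    (H : Hyp μ x t B γ0 (4 * A) (4 * k + 3) ρp η E)
    (h₀ : URep B γ0 A k 1 Ψ₀) (h₁ : URep B γ0 A k 1 Ψ₁) (h₂ : URep B γ0 A k 1 Ψ₂)
    (h₃ : URep B γ0 A k 1 Ψ₃) (b₀ : |θ₀| ≤ b) (b₁ : |θ₁| ≤ b) (b₂ : |θ₂| ≤ b) (b₃ : |θ₃| ≤ b)
    (hs : |θ₀ + θ₁ + θ₂ + θ₃| ≤ √(η ^ 2 / (400 * E))) :
    ‖Dl μ x fun y => Yw n t (η ^ 2 / (400 * E)) θ₀ Ψ₀ y * Yw n t (η ^ 2 / (400 * E)) θ₁ Ψ₁ y *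
        Yw n t (η ^ 2 / (400 * E)) θ₂ Ψ₂ y * Yw n t (η ^ 2 / (400 * E)) θ₃ Ψ₃ y‖ ≤
      Real.exp (-(0.992 * E)) := by
  have t0 := prod_term hpd hd D H h₀ h₁ h₂ h₃ b₁ b₂ b₃ hs 1 1 1 le_rfl le_rfl le_rfl
  have t1 := prod_term hpd hd D H h₁ h₀ h₂ h₃ (θ₀ := θ₁) b₀ b₂ b₃
    (by rwa [show θ₁ + θ₀ + θ₂ + θ₃ = θ₀ + θ₁ + θ₂ + θ₃ by ring]) 0 1 1 zero_le_one le_rfl le_rfl
  have t2 := prod_term hpd hd D H h₂ h₀ h₁ h₃ (θ₀ := θ₂) b₀ b₁ b₃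
    (by rwa [show θ₂ + θ₀ + θ₁ + θ₃ = θ₀ + θ₁ + θ₂ + θ₃ by ring]) 0 0 1 zero_le_one zero_le_one
    le_rfl
  have t3 := prod_term hpd hd D H h₃ h₀ h₁ h₂ (θ₀ := θ₃) b₀ b₁ b₂
    (by rwa [show θ₃ + θ₀ + θ₁ + θ₂ = θ₀ + θ₁ + θ₂ + θ₃ by ring]) 0 0 0 zero_le_one zero_le_one
    zero_le_one
  have hn := (norm_add_le _ _).trans (add_le_add ((norm_add_le _ _).trans (add_le_add
    ((norm_add_le _ _).trans (add_le_add t0 t1)) t2)) t3)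
  rw [← Dl_add, ← Dl_add, ← Dl_add] at hn
  refine le_trans (le_of_eq (congrArg (fun f => ‖Dl μ x f‖) (funext fun y => ?_)))
    (hn.trans (le_of_eq (by ring)))
  generalize (η ^ 2 / (400 * E)) = ρ
  have hY : ∀ (θ : ℝ) (Ψ : (ℕ → Bool) → ℕ → ℂ), Yw n t ρ θ Ψ y =
      PSum (fun j => (gw ρ ((j : ℝ) - t) : ℂ) * cexp (θ * I * ((j : ℝ) - t : ℝ))) Ψ (yb y) n :=
    fun _ _ => rfl
  have hS : ∀ (w : ℕ → ℂ) (Ψ : (ℕ → Bool) → ℕ → ℂ) (J : ℕ),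
      PSum w Ψ (yb y) (J + 1) = PSum w Ψ (yb y) J + w J * Ψ (yb y) J :=
    fun _ _ _ => Finset.sum_range_succ _ _
  have h0 : ∀ (w : ℕ → ℂ) (Ψ : (ℕ → Bool) → ℕ → ℂ), PSum w Ψ (yb y) 0 = 0 :=
    fun _ _ => Finset.sum_range_zero _
  rw [hY, hY, hY, hY, ← Finset.sum_add_distrib, ← Finset.sum_add_distrib, ← Finset.sum_add_distrib]
  have tel := Finset.sum_range_sub (fun J =>
    PSum (fun j => (gw ρ ((j : ℝ) - t) : ℂ) * cexp (θ₀ * I * ((j : ℝ) - t : ℝ))) Ψ₀ (yb y) J *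
    PSum (fun j => (gw ρ ((j : ℝ) - t) : ℂ) * cexp (θ₁ * I * ((j : ℝ) - t : ℝ))) Ψ₁ (yb y) J *
    PSum (fun j => (gw ρ ((j : ℝ) - t) : ℂ) * cexp (θ₂ * I * ((j : ℝ) - t : ℝ))) Ψ₂ (yb y) J *
    PSum (fun j => (gw ρ ((j : ℝ) - t) : ℂ) * cexp (θ₃ * I * ((j : ℝ) - t : ℝ))) Ψ₃ (yb y) J) n
  simp only [h0, mul_zero, sub_zero] at tel
  rw [← tel]
  refine Finset.sum_congr rfl fun J _ => ?_
  simp only [add_zero, hS]
  ring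

end

end Crest.Agent.R300
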