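import Mathlib

/-!
# Row 300: the mathematics of the positive-semidefiniteness test.

`M` is a real symmetric `n × n` matrix with entries bounded by `K`, `B = n K • 1 - M`.
* `B_psd`: `u ⬝ M u ≤ K (∑ |u|)^2 ≤ K n ∑ u^2`.
* `pow_psd`: `B^(2a) = (B^a)ᵀ B^a`, `B^(2a+1) = (B^a)ᵀ B B^a`.
* `abs_sum_le`: test the form on `e_s ± e_t`: `2 |P s t| ≤ P s s + P t t`.
* `psd_of_traces`: if `K = 0` then `M = 0`.  Otherwise `tr B^(s+1) = n K tr B^s - ∑ (B^s) a b * M a b ≤ Λ tr B^s`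
  with `Λ = n K + K / (2E)` (if `tr B^s ≤ 0` use `abs_sum_le`), so `tr B^s ≤ n Λ^s` for `s ≤ T`.  For a unit
  vector `c` and symmetric `Q`: `(c ⬝ Q c)^2 ≤ |Q c|^2 = c ⬝ Q^2 c ≤ tr Q^2` (Cauchy-Schwarz), hence
  `(c ⬝ B c)^(2^j) ≤ c ⬝ B^(2^j) c ≤ tr B^(2^j) ≤ n Λ^(2^j)` for `j ≥ 1`, `T/2 < 2^j ≤ T`.  If
  `c ⬝ B c > n K + K/E = Λ (1 + 1/(2 E n + 1))`, Bernoulli (`one_add_mul_le_pow`) gives a contradiction.
-/

set_option autoImplicit false

namespace Crest.Agent.R300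

open Matrix Finset

variable {n : ℕ}

theorem psdM_form (P : Matrix (Fin n) (Fin n) ℝ) (u v : Fin n → ℝ) :
    u ⬝ᵥ (P *ᵥ v) = ∑ s, ∑ t, u s * P s t * v t := by
  simp only [dotProduct, mulVec, Finset.mul_sum, mul_assoc]

theorem psdM_symm {P : Matrix (Fin n) (Fin n) ℝ} (hP : P.IsSymm) (u v : Fin n → ℝ) :
    u ⬝ᵥ (P *ᵥ v) = (P *ᵥ u) ⬝ᵥ v := by
  rw [dotProduct_mulVec, ← mulVec_transpose, hP.eq]

theorem psdM_cs {P : Matrix (Fin n) (Fin n) ℝ} (hP : P.IsSymm) (h : ∀ u, 0 ≤ u ⬝ᵥ (P *ᵥ u))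
    (u v : Fin n → ℝ) : (u ⬝ᵥ (P *ᵥ v)) ^ 2 ≤ (u ⬝ᵥ (P *ᵥ u)) * (v ⬝ᵥ (P *ᵥ v)) := by
  have e : v ⬝ᵥ (P *ᵥ u) = u ⬝ᵥ (P *ᵥ v) := by rw [psdM_symm hP, dotProduct_comm]
  have := discrim_le_zero (a := v ⬝ᵥ (P *ᵥ v)) (b := 2 * (u ⬝ᵥ (P *ᵥ v))) (c := u ⬝ᵥ (P *ᵥ u))
    fun x => by
      have := h (u + x • v)
      simp only [mulVec_add, mulVec_smul, add_dotProduct, dotProduct_add, smul_dotProduct,
        dotProduct_smul, smul_eq_mul, e] at this
      linarith
  rw [discrim] at this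
  linarith

theorem B_psd {M : Matrix (Fin n) (Fin n) ℝ} {K : ℝ} (hK : ∀ s t, |M s t| ≤ K) (u : Fin n → ℝ) :
    0 ≤ u ⬝ᵥ ((((n : ℝ) * K) • (1 : Matrix (Fin n) (Fin n) ℝ) - M) *ᵥ u) := by
  rw [sub_mulVec, smul_mulVec, one_mulVec, dotProduct_sub, dotProduct_smul, psdM_form, smul_eq_mul,
    sub_nonneg]
  have h1 : ∀ s t, u s * M s t * u t ≤ K / 2 * (u s * u s) + K / 2 * (u t * u t) := by
    intro s t
    have a := abs_le.1 (hK s t)
    nlinarith [mul_nonneg (by linarith : 0 ≤ K - M s t) (sq_nonneg (u s + u t)),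
      mul_nonneg (by linarith : 0 ≤ K + M s t) (sq_nonneg (u s - u t))]
  refine (Finset.sum_le_sum fun s _ => Finset.sum_le_sum fun t _ => h1 s t).trans (le_of_eq ?_)
  simp only [Finset.sum_add_distrib, Finset.sum_const, Finset.card_univ, Fintype.card_fin,
    nsmul_eq_mul, ← Finset.mul_sum, dotProduct]
  ring

theorem pow_psd {B : Matrix (Fin n) (Fin n) ℝ} (hB : B.IsSymm) (h : ∀ u, 0 ≤ u ⬝ᵥ (B *ᵥ u)) (s : ℕ)
    (u : Fin n → ℝ) : 0 ≤ u ⬝ᵥ ((B ^ s) *ᵥ u) := by
  induction s using Nat.twoStepInduction generalizing u with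
  | zero =>
    rw [pow_zero, one_mulVec]
    exact Finset.sum_nonneg fun i _ => mul_self_nonneg _
  | one => rw [pow_one]; exact h u
  | more s ih _ =>
    rw [pow_succ, pow_succ', ← mulVec_mulVec, ← mulVec_mulVec, psdM_symm hB]
    exact ih _

theorem abs_sum_le {P : Matrix (Fin n) (Fin n) ℝ} (hP : P.IsSymm) (h : ∀ u, 0 ≤ u ⬝ᵥ (P *ᵥ u)) :
    ∑ s, ∑ t, |P s t| ≤ n * P.trace := by
  have e : ∀ s t, (Pi.single s 1 : Fin n → ℝ) ⬝ᵥ (P *ᵥ Pi.single t 1) = P s t := by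
    intro s t
    simp
  have h1 : ∀ s t, |P s t| ≤ 1 / 2 * P s s + 1 / 2 * P t t := by
    intro s t
    have a := h (Pi.single s 1 + Pi.single t 1)
    have b := h (Pi.single s 1 - Pi.single t 1)
    simp only [mulVec_add, mulVec_sub, add_dotProduct, dotProduct_add, sub_dotProduct,
      dotProduct_sub, e, hP.apply s t] at a b
    rw [abs_le]
    constructor <;> linarith
  refine (Finset.sum_le_sum fun s _ => Finset.sum_le_sum fun t _ => h1 s t).trans (le_of_eq ?_)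
  simp only [Finset.sum_add_distrib, Finset.sum_const, Finset.card_univ, Fintype.card_fin,
    nsmul_eq_mul, ← Finset.mul_sum, Matrix.trace, Matrix.diag]
  ring

theorem psd_of_traces {M : Matrix (Fin n) (Fin n) ℝ} (hM : M.IsSymm) {K : ℝ} (hK0 : 0 ≤ K)
    (hK : ∀ s t, |M s t| ≤ K) {E T : ℕ} (hE : 1 ≤ E) (hT : 2 * (n + 1) * (2 * E * n + 1) ≤ T)
    (h : ∀ s < T, ((((n : ℝ) * K) • (1 : Matrix (Fin n) (Fin n) ℝ) - M) ^ s).trace ≤ 0 ∨
      -K * ((((n : ℝ) * K) • (1 : Matrix (Fin n) (Fin n) ℝ) - M) ^ s).trace <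
        2 * E * ∑ a, ∑ b, ((((n : ℝ) * K) • (1 : Matrix (Fin n) (Fin n) ℝ) - M) ^ s) a b * M a b)
    (c : Fin n → ℝ) : -(K / E) * (c ⬝ᵥ c) ≤ c ⬝ᵥ (M *ᵥ c) := by
  rcases hK0.eq_or_lt with rfl | hK0
  · have : M = 0 := by
      ext s t
      exact abs_nonpos_iff.1 (hK s t)
    simp [this]
  set B := ((n : ℝ) * K) • (1 : Matrix (Fin n) (Fin n) ℝ) - M with hB
  have hBs : B.IsSymm := (Matrix.isSymm_one.smul _).sub hM
  have hpsd := pow_psd hBs (B_psd hK)
  have hE' : (1 : ℝ) ≤ E := by exact_mod_cast hE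
  have hn : (0 : ℝ) ≤ n := Nat.cast_nonneg n
  set Λ : ℝ := n * K + K / (2 * E) with hΛ
  have hΛ0 : 0 < Λ := by positivity
  have htr : ∀ s, s ≤ T → (B ^ s).trace ≤ n * Λ ^ s := by
    intro s
    induction s with
    | zero => simp
    | succ s ih =>
      intro hs
      have ih := ih (by omega)
      have e : (B ^ (s + 1)).trace = n * K * (B ^ s).trace - ∑ a, ∑ b, (B ^ s) a b * M a b := by
        rw [pow_succ]
        conv_lhs => rw [show B ^ s * B = ((n : ℝ) * K) • B ^ s - B ^ s * M by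
          conv_lhs => enter [2]; rw [hB]
          rw [mul_sub, Matrix.mul_smul, mul_one]]
        rw [trace_sub, trace_smul, smul_eq_mul]
        congr 1
        simp only [Matrix.trace, Matrix.diag, Matrix.mul_apply]
        exact Finset.sum_congr rfl fun a _ => Finset.sum_congr rfl fun b _ => by rw [hM.apply a b]
      rw [e]
      rcases h s (by omega) with h1 | h1
      · have a1 := abs_sum_le (hBs.pow s) (hpsd s)
        have a2 : -∑ a, ∑ b, (B ^ s) a b * M a b ≤ K * ∑ a, ∑ b, |(B ^ s) a b| := by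
          simp only [← Finset.sum_neg_distrib, Finset.mul_sum]
          refine Finset.sum_le_sum fun a _ => Finset.sum_le_sum fun b _ => ?_
          refine (neg_le_abs _).trans ?_
          rw [abs_mul, mul_comm]
          exact mul_le_mul_of_nonneg_right (hK a b) (abs_nonneg _)
        have a3 := mul_le_mul_of_nonneg_left a1 hK0.le
        have a4 : (n : ℝ) * K * (B ^ s).trace ≤ 0 :=
          mul_nonpos_of_nonneg_of_nonpos (by positivity) h1
        have a5 : 0 ≤ (n : ℝ) * Λ ^ (s + 1) := by positivity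
        linarith
      · have a1 : -∑ a, ∑ b, (B ^ s) a b * M a b ≤ K / (2 * E) * (B ^ s).trace := by
          rw [div_mul_eq_mul_div, le_div_iff₀ (by positivity)]
          linarith
        calc _ ≤ Λ * (B ^ s).trace := by rw [hΛ]; linarith
          _ ≤ Λ * (n * Λ ^ s) := mul_le_mul_of_nonneg_left ih hΛ0.le
          _ = _ := by ring
  by_contra hc
  push Not at hc
  set x : ℝ := 1 / (2 * E * n + 1) with hx
  have hx0 : 0 < x := by positivity
  set μ : ℝ := Λ * (1 + x) with hμ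
  have hμ0 : 0 < μ := by positivity
  have hμe : μ = n * K + K / E := by
    rw [hμ, hΛ, hx]
    field_simp
    ring
  set a : ℕ → ℝ := fun s => c ⬝ᵥ ((B ^ s) *ᵥ c) with ha
  have a0 : a 0 = c ⬝ᵥ c := by simp [ha]
  have hstep : ∀ s, μ * a s < a (s + 1) := by
    intro s
    induction s with
    | zero =>
      have : a (0 + 1) = n * K * (c ⬝ᵥ c) - c ⬝ᵥ (M *ᵥ c) := by
        simp only [ha, zero_add, pow_one]
        rw [hB, sub_mulVec, smul_mulVec, one_mulVec, dotProduct_sub, dotProduct_smul, smul_eq_mul]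
      rw [this, a0, hμe]
      linarith
    | succ s ih =>
      have h1 := psdM_cs (hBs.pow s) (hpsd s) c (B *ᵥ c)
      have e1 : c ⬝ᵥ ((B ^ s) *ᵥ (B *ᵥ c)) = a (s + 1) := by
        simp only [ha]
        rw [mulVec_mulVec, ← pow_succ]
      have e2 : (B *ᵥ c) ⬝ᵥ ((B ^ s) *ᵥ (B *ᵥ c)) = a (s + 1 + 1) := by
        simp only [ha]
        rw [← psdM_symm hBs, mulVec_mulVec, mulVec_mulVec, ← pow_succ', ← pow_succ]
      rw [e1, e2] at h1
      have h2 : 0 ≤ a s := hpsd s c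
      have h3 : 0 < a (s + 1) := lt_of_le_of_lt (by positivity) ih
      change _ ≤ a s * _ at h1
      by_contra h4
      push Not at h4
      have h5 := mul_le_mul_of_nonneg_left h4 h2
      have h6 := mul_lt_mul_of_pos_right ih h3
      nlinarith
  have hpow : ∀ s, μ ^ s * a 0 ≤ a s := by
    intro s
    induction s with
    | zero => simp
    | succ s ih =>
      have := mul_le_mul_of_nonneg_left ih hμ0.le
      have h2 := hstep s
      rw [pow_succ']
      linarith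
  have hsq : ∀ s, c s * c s ≤ c ⬝ᵥ c := fun s =>
    Finset.single_le_sum (f := fun i => c i * c i) (fun i _ => mul_self_nonneg _) (Finset.mem_univ s)
  have hc0 : 0 < c ⬝ᵥ c := by
    rcases (show 0 ≤ a 0 from hpsd 0 c).eq_or_lt with h0 | h0
    · have : c = 0 := dotProduct_self_eq_zero.1 (a0 ▸ h0.symm)
      simp [this] at hc
    · rwa [a0] at h0
  have hup : a T ≤ (c ⬝ᵥ c) * (n * (n * Λ ^ T)) := by
    have b1 := abs_sum_le (hBs.pow T) (hpsd T)
    have b2 : a T ≤ (c ⬝ᵥ c) * ∑ s, ∑ t, |(B ^ T) s t| := by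
      simp only [ha]
      rw [psdM_form]
      simp only [Finset.mul_sum]
      refine Finset.sum_le_sum fun s _ => Finset.sum_le_sum fun t _ => ?_
      refine (le_abs_self _).trans ?_
      rw [mul_right_comm, abs_mul]
      refine mul_le_mul_of_nonneg_right ?_ (abs_nonneg _)
      have := hsq s
      have := hsq t
      rw [abs_le]
      constructor <;> nlinarith [sq_nonneg (c s + c t), sq_nonneg (c s - c t)]
    exact b2.trans (mul_le_mul_of_nonneg_left
      (b1.trans (mul_le_mul_of_nonneg_left (htr T le_rfl) hn)) hc0.le)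
  have hlow := hpow T
  rw [a0, hμ, mul_pow] at hlow
  have hΛT : 0 < Λ ^ T := by positivity
  have h1 : (1 + x) ^ T ≤ (n : ℝ) * n := by
    refine le_of_mul_le_mul_left ?_ (mul_pos hΛT hc0)
    linarith
  have h2 := one_add_mul_le_pow (a := x) (by linarith) ((n + 1) * (2 * E * n + 1))
  have h3 : (((n + 1) * (2 * E * n + 1) : ℕ) : ℝ) * x = n + 1 := by
    rw [hx]
    push_cast
    field_simp
  rw [h3] at h2
  have h4 : ((1 + x) ^ ((n + 1) * (2 * E * n + 1))) ^ 2 ≤ (1 + x) ^ T := by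
    rw [← pow_mul]
    exact pow_le_pow_right₀ (by linarith) (by rw [mul_comm, ← mul_assoc]; exact hT)
  have h5 := pow_le_pow_left₀ (by positivity) h2 2
  nlinarith

end Crest.Agent.R300
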