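import Crest.Agent.R300.DDefs
import Crest.Agent.R300.PsdM

/-!
# Row 300: a polynomial-time test for approximate positive semidefiniteness.

Recipe.  `n = M.length`, `mk n f = (range n).map fun s => (range n).map fun t => f s t`,
`B = mk n fun s t => (if s = t then n * K else 0) - entZ M s t`, `P 0 = 1`,
`P (j+1) = mk n fun s t => ∑ l < n, entZ (P j) s l * entZ B l t`.  Run `T = 2 (n+1) (2 E n + 1)` rounds with state
`(P j, found)` (or: list all powers and use `find?`) and return the first `P j` with `0 < tr` and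
`2 E ∑ P s t * M s t ≤ -K tr`.  Sizes on all inputs: `|entZ (P j) s t| ≤ (n β + 1)^j` with `β = n K + 2^(esize M)`
a bound for the entries of `B`; `PT.of_nat_rec`/`PT.iterate` with `esize_list_le`, `esize_nat_le_of_le_two_pow`.
Correctness: `(fun s t : Fin n => (entZ (P j) s t : ℝ)) = B ^ j` as matrices, then `PsdM`
(`Finset.sum_range`, `Fin.sum_univ_eq_sum_range` to pass between `range n` and `Fin n`).
-/

set_option autoImplicit false

namespace Crest.Agent.R300

open Crest.Agent.Lib.PolyTime Finset

/-- a matrix as a list of rows -/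
def psdMk (n : ℕ) (f : ℕ → ℕ → ℤ) : List (List ℤ) :=
  (List.range n).map fun s => (List.range n).map fun t => f s t

def psdB (M : List (List ℤ)) (K s t : ℕ) : ℤ :=
  (if s = t then (M.length : ℤ) * K else 0) - entZ M s t

def psdStep (M : List (List ℤ)) (K : ℕ) (P : List (List ℤ)) : List (List ℤ) :=
  psdMk M.length fun s t => ∑ l ∈ range M.length, entZ P s l * psdB M K l t

def psdPow (M : List (List ℤ)) (K j : ℕ) : List (List ℤ) :=
  (psdStep M K)^[j] (psdMk M.length fun s t => if s = t then 1 else 0)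

def psdT (a : List (List ℤ) × ℕ × List Unit) : ℕ :=
  2 * (a.1.length + 1) * (2 * a.2.2.length * a.1.length + 1)

def psdTest (a : List (List ℤ) × ℕ × List Unit) (P : List (List ℤ)) : Bool :=
  decide (0 < ∑ s ∈ range a.1.length, entZ P s s ∧
    2 * (a.2.2.length : ℤ) * ∑ s ∈ range a.1.length, ∑ t ∈ range a.1.length,
      entZ P s t * entZ a.1 s t ≤ -(a.2.1 : ℤ) * ∑ s ∈ range a.1.length, entZ P s s)

def psdO (a : List (List ℤ) × ℕ × List Unit) : Option (List (List ℤ)) :=
  ((List.range (psdT a)).map fun j => psdPow a.1 a.2.1 (min j (psdT a))).find? (psdTest a)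

theorem psd_ent_mk (n : ℕ) (f : ℕ → ℕ → ℤ) (s t : ℕ) :
    entZ (psdMk n f) s t = if s < n ∧ t < n then f s t else 0 := by
  by_cases hs : s < n <;> by_cases ht : t < n <;>
    simp [entZ, psdMk, List.getD_eq_getElem?_getD, hs, ht]

theorem psd_ent_le (M : List (List ℤ)) (s t : ℕ) : (entZ M s t).natAbs ≤ 2 ^ esize M := by
  unfold entZ
  rcases lt_or_ge t (M.getD s []).length with ht | ht
  · have h1 : (M.getD s []).getD t 0 ∈ M.getD s [] := by
      rw [List.getD_eq_getElem _ _ ht]
      exact List.getElem_mem _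
    have hs : s < M.length := by
      by_contra hs
      rw [List.getD_eq_default _ _ (not_lt.1 hs)] at ht
      simp at ht
    have h2 : M.getD s [] ∈ M := by
      rw [List.getD_eq_getElem _ _ hs]
      exact List.getElem_mem _
    exact (natAbs_lt_two_pow_esize _).le.trans (Nat.pow_le_pow_right two_pos
      ((esize_lt_of_mem h1).le.trans (esize_lt_of_mem h2).le))
  · rw [List.getD_eq_default _ _ ht]
    exact Nat.zero_le _

theorem psd_B_le (M : List (List ℤ)) (K s t : ℕ) :
    M.length * (psdB M K s t).natAbs ≤ 2 ^ (3 * (esize M + esize K) + 1) := by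
  have h1 : M.length ≤ 2 ^ (esize M + esize K) :=
    (length_lt_esize M).le.trans ((Nat.le_add_right _ _).trans Nat.lt_two_pow_self.le)
  have h2 : K ≤ 2 ^ (esize M + esize K) :=
    (lt_two_pow_esize K).le.trans (Nat.pow_le_pow_right two_pos (Nat.le_add_left _ _))
  have h3 : (entZ M s t).natAbs ≤ 2 ^ (esize M + esize K) :=
    (psd_ent_le M s t).trans (Nat.pow_le_pow_right two_pos (Nat.le_add_right _ _))
  have h4 : (psdB M K s t).natAbs ≤ M.length * K + (entZ M s t).natAbs := by
    unfold psdB
    refine (Int.natAbs_sub_le _ _).trans (Nat.add_le_add_right ?_ _)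
    split_ifs
    · rw [Int.natAbs_mul]
      simp
    · simp
  have h5 : 1 ≤ 2 ^ (esize M + esize K) := Nat.one_le_two_pow
  rw [pow_succ, mul_comm 3, pow_mul]
  generalize 2 ^ (esize M + esize K) = x at *
  calc _ ≤ x * (x * x + x * x) :=
        Nat.mul_le_mul h1 (h4.trans (Nat.add_le_add (Nat.mul_le_mul h1 h2)
          (h3.trans (Nat.le_mul_of_pos_left _ h5))))
    _ = _ := by ring

theorem psd_pow_le (M : List (List ℤ)) (K j : ℕ) : ∃ f, psdPow M K j = psdMk M.length f ∧
    ∀ s t, (f s t).natAbs ≤ 2 ^ (j * (3 * (esize M + esize K) + 1)) := by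
  induction j with
  | zero =>
    refine ⟨_, rfl, fun s t => ?_⟩
    split_ifs <;> simp
  | succ j ih =>
    obtain ⟨f, h1, h2⟩ := ih
    refine ⟨_, by rw [psdPow, Function.iterate_succ_apply', ← psdPow, psdStep], fun s t => ?_⟩
    rcases Nat.eq_zero_or_pos M.length with h0 | h0
    · simp [h0]
    refine Nat.le_of_mul_le_mul_left ?_ h0
    calc _ ≤ M.length * ∑ l ∈ range M.length, (entZ (psdPow M K j) s l * psdB M K l t).natAbs :=
          Nat.mul_le_mul_left _ (Int.natAbs_sum_le _ _)
      _ ≤ ∑ _l ∈ range M.length, 2 ^ ((j + 1) * (3 * (esize M + esize K) + 1)) := by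
          rw [mul_sum]
          refine sum_le_sum fun l _ => ?_
          rw [Int.natAbs_mul, mul_left_comm, add_mul, one_mul, pow_add]
          refine Nat.mul_le_mul ?_ (psd_B_le M K l t)
          rw [h1, psd_ent_mk]
          split_ifs
          · exact h2 s l
          · exact Nat.zero_le _
      _ = _ := by simp

theorem psd_esize (M : List (List ℤ)) (K j : ℕ) : esize (psdPow M K j) ≤ M.length *
    (M.length * (6 * (j * (3 * (esize M + esize K) + 1)) + 7 + 6 + 1) + 1 + 1) + 1 := by
  obtain ⟨f, h1, h2⟩ := psd_pow_le M K j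
  rw [h1]
  refine (esize_list_le (B := M.length * (6 * (j * (3 * (esize M + esize K) + 1)) + 7 + 6 + 1) + 1)
    fun r hr => ?_).trans (by simp [psdMk])
  obtain ⟨s, -, rfl⟩ := List.mem_map.1 hr
  refine (esize_list_le (B := 6 * (j * (3 * (esize M + esize K) + 1)) + 7 + 6)
    fun z hz => ?_).trans (by simp)
  obtain ⟨t, -, rfl⟩ := List.mem_map.1 hz
  rw [esize_int]
  exact Nat.add_le_add_right (esize_nat_le_of_le_two_pow (h2 s t)) _

theorem psd_pt_pow {α : Type} [Enc α] {M : α → List (List ℤ)} {K j : α → ℕ} (hM : PT M) (hK : PT K)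
    (hj : PT j) (hj' : PB j) : PT fun a => psdPow (M a) (K a) (j a) := by
  refine PT.iterate (f := fun a => psdStep (M a) (K a)) (fun a => (M a).length *
    ((M a).length * (6 * (j a * (3 * (esize (M a) + esize (K a)) + 1)) + 7 + 6 + 1) + 1 + 1) + 1)
    hj hj' ?_ ?_ (by fun_prop) fun a i hi => (psd_esize _ _ _).trans (by gcongr)
  · unfold psdMk
    fun_prop
  · unfold psdStep psdMk psdB entZ
    fun_prop

theorem psd_pt : PT psdO := by
  have h1 : PT psdT := by unfold psdT; fun_prop
  have h2 : PB psdT := by unfold psdT; fun_prop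
  unfold psdO
  refine PT.find? (PT.map (by fun_prop) (psd_pt_pow (by fun_prop) (by fun_prop) (by fun_prop)
    (by fun_prop))) ?_
  unfold psdTest entZ
  fun_prop

/-- the real matrix of a list -/
def psdR (n : ℕ) (P : List (List ℤ)) : Matrix (Fin n) (Fin n) ℝ := fun s t => (entZ P s t : ℝ)

theorem psd_R_pow (M : List (List ℤ)) (K j : ℕ) : psdR M.length (psdPow M K j) =
    (((M.length : ℝ) * K) • (1 : Matrix (Fin M.length) (Fin M.length) ℝ) - psdR M.length M) ^ j := by
  induction j with
  | zero =>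
    ext s t
    simp [psdR, psdPow, psd_ent_mk, Matrix.one_apply, Fin.val_inj]
  | succ j ih =>
    ext s t
    rw [pow_succ, ← ih, Matrix.mul_apply, psdPow, Function.iterate_succ_apply', ← psdPow, psdR,
      psdStep, psd_ent_mk, if_pos ⟨s.2, t.2⟩, Finset.sum_range]
    push_cast
    refine sum_congr rfl fun l _ => ?_
    simp [psdR, psdB, Matrix.one_apply, Fin.val_inj]

theorem psd_qf (n : ℕ) (P : List (List ℤ)) (u : ℕ → ℝ) : qf n (fun s t => (entZ P s t : ℝ)) u =
    (fun s : Fin n => u s) ⬝ᵥ (psdR n P).mulVec fun s : Fin n => u s := by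
  simp only [qf, Finset.sum_range, dotProduct, Matrix.mulVec, psdR, mul_sum]
  exact sum_congr rfl fun s _ => sum_congr rfl fun t _ => by ring

theorem psd_tr (n : ℕ) (P : List (List ℤ)) :
    (psdR n P).trace = ((∑ s ∈ range n, entZ P s s : ℤ) : ℝ) := by
  simp [Matrix.trace, psdR, Finset.sum_range]

theorem exists_psd : ∃ O : List (List ℤ) × ℕ × List Unit → Option (List (List ℤ)), PT O ∧
    ∀ (M : List (List ℤ)) (K : ℕ) (E : List Unit), 1 ≤ E.length →
      (∀ s < M.length, ∀ t < M.length, entZ M s t = entZ M t s) →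
      (∀ s < M.length, ∀ t < M.length, |entZ M s t| ≤ K) →
      (O (M, K, E) = none → ∀ u : ℕ → ℝ, -((K : ℝ) / E.length) * ∑ s ∈ range M.length, u s ^ 2 ≤
        qf M.length (fun s t => (entZ M s t : ℝ)) u) ∧
      ∀ P, O (M, K, E) = some P →
        0 < ∑ s ∈ range M.length, entZ P s s ∧
        (∀ u : ℕ → ℝ, 0 ≤ qf M.length (fun s t => (entZ P s t : ℝ)) u) ∧
        ∑ s ∈ range M.length, ∑ t ∈ range M.length, |entZ P s t| ≤
          M.length * ∑ s ∈ range M.length, entZ P s s ∧
        2 * (E.length : ℤ) * ∑ s ∈ range M.length, ∑ t ∈ range M.length, entZ P s t * entZ M s t ≤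
          -(K : ℤ) * ∑ s ∈ range M.length, entZ P s s := by
  refine ⟨psdO, psd_pt, fun M K E hE hs hK => ?_⟩
  have hM : (psdR M.length M).IsSymm := Matrix.IsSymm.ext fun s t => by
    simp only [psdR, hs s s.2 t t.2]
  have hK' : ∀ s t, |psdR M.length M s t| ≤ (K : ℝ) := fun s t => by
    unfold psdR
    exact_mod_cast hK s s.2 t t.2
  have hB := (Matrix.isSymm_one.smul ((M.length : ℝ) * K)).sub hM
  refine ⟨fun h u => ?_, fun P h => ?_⟩
  · have h1 := psd_of_traces hM (Nat.cast_nonneg K) hK' hE (T := psdT (M, K, E)) le_rfl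
      (fun j hj => by
        have h2 := List.find?_eq_none.1 h _ (List.mem_map.2 ⟨j, List.mem_range.2 hj, rfl⟩)
        rw [min_eq_left hj.le] at h2
        simp only [psdTest, decide_eq_true_eq, not_and_or, not_lt, not_le] at h2
        rw [← psd_R_pow, psd_tr]
        refine h2.imp (fun h3 => by exact_mod_cast h3) fun h3 => ?_
        rw [Finset.sum_range fun s => ∑ t ∈ range M.length, _] at h3
        simp only [Finset.sum_range fun t => _ * entZ M _ t] at h3
        unfold psdR
        exact_mod_cast h3) fun s => u s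
    rw [psd_qf, Finset.sum_range]
    simpa only [dotProduct, pow_two] using h1
  · have h1 := List.find?_some h
    obtain ⟨j, -, rfl⟩ := List.mem_map.1 (List.mem_of_find?_eq_some h)
    simp only [psdTest, decide_eq_true_eq] at h1
    dsimp only
    generalize min j (psdT (M, K, E)) = i at h1
    have h2 : ∀ u, 0 ≤ u ⬝ᵥ (psdR M.length (psdPow M K i)).mulVec u := fun u => by
      rw [psd_R_pow]
      exact pow_psd hB (B_psd hK') i u
    refine ⟨h1.1, fun u => by rw [psd_qf]; exact h2 _, ?_, h1.2⟩
    have h3 := abs_sum_le (by rw [psd_R_pow]; exact hB.pow i) h2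
    rw [psd_tr] at h3
    rw [Finset.sum_range fun s => ∑ t ∈ range M.length, _]
    simp only [Finset.sum_range fun t => |entZ _ _ t|]
    unfold psdR at h3
    exact_mod_cast h3

end Crest.Agent.R300
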