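import Crest.Agent.R300.Sep
import Crest.Agent.R300.Perc

/-! # Row 300: the solver of the semidefinite feasibility problem. -/

set_option autoImplicit false

namespace Crest.Agent.R300

open Crest.Agent.Lib.PolyTime Finset

theorem exists_sdp : ∃ F : SdpIn → Bool, PT F ∧
    ∀ (N E : List Unit) (idx : List (List ℕ)) (cs : List (List ℚ × ℚ)),
      1 ≤ E.length → SdpWF N.length idx cs →
      ((∃ ψ, Exact N.length E.length idx cs ψ) → F ((N, E), idx, cs) = true) ∧
      (F ((N, E), idx, cs) = true → ∃ ψ, Approx N.length E.length idx cs ψ) := by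
  obtain ⟨S, hS, hspec⟩ := exists_sep
  obtain ⟨R, hR, hRs⟩ := exists_perc S hS (fun a => a.1.1.length) (fun a => a.2.1.length + 1)
    (fun a => a.1.2.length) (by fun_prop) (by fun_prop) (by fun_prop) (by fun_prop) (by fun_prop)
    (by fun_prop)
  refine ⟨fun a => (S (a, (R a).1, (R a).2)).isNone, ?_, ?_⟩
  · exact PT.isNone (hS.comp (g := fun a => (a, (R a).1, (R a).2)) (by fun_prop))
  · intro N E idx cs hE hwf
    obtain ⟨hD, hmain⟩ := hRs ((N, E), idx, cs) (by simp) hE
    constructor
    · rintro ⟨ψ, hψ⟩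
      have := hmain ψ hψ.box fun D z g hD hg => by
        obtain ⟨h1, h2⟩ := (hspec N E idx cs D z hE hwf hD).2 g hg
        exact ⟨h1, h2 ψ hψ⟩
      simpa using this
    · intro h
      exact ⟨_, (hspec N E idx cs _ _ hE hwf hD).1 (by simpa using h)⟩

end Crest.Agent.R300
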