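import Crest.Agent.R300.Psd

/-!
# Row 300: the separation oracle of the semidefinite feasibility problem.

Input `(((N, E), idx, cs), D, z)`, the current point is `w i = z.getD i 0 / D`.
1. If some `i < N` has `2 D < |z_i|` return `-sign(z_i) e_i` (gain `≥ 2 - 1 ≥ 1/E`).
2. Else if some `c ∈ cs` has `2/E < |∑_{i<N} c_i w_i - c.2|` (exact rational arithmetic) return `∓ c.1`
   (gain `> 2/E - 1/E`).
3. Else call `exists_psd` on `M = idx.map (row ↦ …)` (build it as `(range n₁).map fun s => (range n₁).map fun t =>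
   z.getD (entN idx s t) 0`, `n₁ = idx.length`) with `K = 2 D`.  `none`: return `none` (divide by `D`).
   `some P`: return `g_i = (∑_{s,t<n₁, entN idx s t = i} P s t) / tr P`, `i < N`.  Then `|g_i| ≤ n₁`,
   `∑ g_i w_i = ∑ P s t M s t / (D tr P) ≤ -1/E` and `∑ g_i ψ_i = qf P u / tr P ≥ 0` for a rank-one `ψ`
   (`Finset.sum_comm`, `Finset.sum_ite_eq`, fibres of `(s,t) ↦ entN idx s t ∈ range N`).
-/

set_option autoImplicit false

namespace Crest.Agent.R300

open Crest.Agent.Lib.PolyTime Finset

namespace SepAux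

/-- the rational value `∑ c_i z_i / D` -/
def dotR (N : ℕ) (c : List ℚ) (D : ℕ) (z : List ℤ) : ℚ :=
  ∑ i ∈ range N, c.getD i 0 * (((z.getD i 0 : ℤ) : ℚ) / (D : ℚ))

/-- the matrix `z (idx s t)` -/
def gramZ (idx : List (List ℕ)) (z : List ℤ) : List (List ℤ) :=
  (List.range idx.length).map fun s => (List.range idx.length).map fun t =>
    z.getD (entN idx s t) 0

/-- the cut given by a positive semidefinite matrix -/
def cutP (N : ℕ) (idx : List (List ℕ)) (P : List (List ℤ)) : List ℚ :=
  (List.range N).map fun i =>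
    ((∑ s ∈ range idx.length, ∑ t ∈ range idx.length,
      (if entN idx s t = i then entZ P s t else 0) : ℤ) : ℚ) /
    ((∑ s ∈ range idx.length, entZ P s s : ℤ) : ℚ)

/-- the separation oracle -/
def sepF (O : List (List ℤ) × ℕ × List Unit → Option (List (List ℤ)))
    (a : SdpIn × ℕ × List ℤ) : Option (List ℚ) :=
  ((List.range a.1.1.1.length).find? fun i =>
      decide (2 * ((a.2.1 : ℕ) : ℤ) < |a.2.2.getD i 0|)).elim
    ((a.1.2.2.find? fun c => decide ((2 : ℚ) / ((a.1.1.2.length : ℕ) : ℚ) <
        |dotR a.1.1.1.length c.1 a.2.1 a.2.2 - c.2|)).elim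
      ((O (gramZ a.1.2.1 a.2.2, 2 * a.2.1, a.1.1.2)).map fun P => cutP a.1.1.1.length a.1.2.1 P)
      fun c => some (c.1.map fun x =>
        if c.2 < dotR a.1.1.1.length c.1 a.2.1 a.2.2 then -x else x))
    fun i => some ((List.range a.1.1.1.length).map fun j =>
      if j = i then (if a.2.2.getD i 0 < 0 then (1 : ℚ) else -1) else 0)

theorem pt_dotR {α : Type} [Enc α] {N : α → List Unit} {c : α → List ℚ} {D : α → ℕ}
    {z : α → List ℤ} (hN : PT N) (hc : PT c) (hD : PT D) (hz : PT z) :
    PT fun a => dotR (N a).length (c a) (D a) (z a) := by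
  unfold dotR
  fun_prop

theorem pt_gramZ {α : Type} [Enc α] {idx : α → List (List ℕ)} {z : α → List ℤ} (hi : PT idx)
    (hz : PT z) : PT fun a => gramZ (idx a) (z a) := by
  unfold gramZ entN
  fun_prop

theorem pt_cutP {α : Type} [Enc α] {N : α → List Unit} {idx : α → List (List ℕ)}
    {P : α → List (List ℤ)} (hN : PT N) (hi : PT idx) (hP : PT P) :
    PT fun a => cutP (N a).length (idx a) (P a) := by
  unfold cutP entN entZ
  fun_prop

theorem pt_sepF {O : List (List ℤ) × ℕ × List Unit → Option (List (List ℤ))} (hO : PT O) :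
    PT (sepF O) := by
  unfold sepF
  refine PT.option_elim (by fun_prop) (PT.option_elim ?_ (PT.option_map ?_ ?_) ?_) (by fun_prop)
  · refine PT.find? (by fun_prop) (PT.decide (PT.rat_lt (by fun_prop) (PT.rat_abs (PT.rat_sub
      (pt_dotR (by fun_prop) (by fun_prop) (by fun_prop) (by fun_prop)) (by fun_prop)))))
  · exact hO.comp ((pt_gramZ (by fun_prop) (by fun_prop)).prodMk (by fun_prop))
  · exact pt_cutP (by fun_prop) (by fun_prop) (by fun_prop)
  · refine PT.some (PT.map (by fun_prop) (PT.ite (PT.rat_lt (by fun_prop)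
      (pt_dotR (by fun_prop) (by fun_prop) (by fun_prop) (by fun_prop))) (by fun_prop)
      (by fun_prop)))

theorem getD_map_range {β : Type} (n : ℕ) (f : ℕ → β) (d : β) {i : ℕ} (hi : i < n) :
    ((List.range n).map f).getD i d = f i := by
  rw [List.getD_eq_getElem?_getD, List.getElem?_map, List.getElem?_range hi]
  rfl

theorem length_gramZ (idx : List (List ℕ)) (z : List ℤ) : (gramZ idx z).length = idx.length := by
  simp [gramZ]

theorem entZ_gramZ (idx : List (List ℕ)) (z : List ℤ) {s t : ℕ} (hs : s < idx.length)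
    (ht : t < idx.length) : entZ (gramZ idx z) s t = z.getD (entN idx s t) 0 := by
  unfold entZ gramZ
  rw [getD_map_range _ _ _ hs, getD_map_range _ _ _ ht]

theorem dotR_cast (N : ℕ) (c : List ℚ) (D : ℕ) (z : List ℤ) :
    ((dotR N c D z : ℚ) : ℝ) = dotQ N c fun i => (z.getD i 0 : ℤ) / (D : ℝ) := by
  unfold dotR dotQ
  push_cast
  rfl

theorem sum_cutP {N : ℕ} {idx : List (List ℕ)}
    (hlt : ∀ s < idx.length, ∀ t < idx.length, entN idx s t < N) (P : List (List ℤ))
    (φ : ℕ → ℝ) :
    ∑ i ∈ range N, (((cutP N idx P).getD i 0 : ℚ) : ℝ) * φ i =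
      (∑ s ∈ range idx.length, ∑ t ∈ range idx.length, (entZ P s t : ℝ) * φ (entN idx s t)) /
        ((∑ s ∈ range idx.length, entZ P s s : ℤ) : ℝ) := by
  have h1 : ∀ i ∈ range N, (((cutP N idx P).getD i 0 : ℚ) : ℝ) * φ i =
      (∑ s ∈ range idx.length, ∑ t ∈ range idx.length,
        (if entN idx s t = i then (entZ P s t : ℝ) * φ i else 0)) /
        ((∑ s ∈ range idx.length, entZ P s s : ℤ) : ℝ) := by
    intro i hi
    unfold cutP
    rw [getD_map_range _ _ _ (mem_range.1 hi), Rat.cast_div, Rat.cast_intCast, Rat.cast_intCast,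
      div_mul_eq_mul_div]
    congr 1
    rw [Int.cast_sum, sum_mul]
    refine sum_congr rfl fun s _ => ?_
    rw [Int.cast_sum, sum_mul]
    refine sum_congr rfl fun t _ => ?_
    split_ifs <;> simp
  rw [sum_congr rfl h1, ← sum_div]
  congr 1
  rw [sum_comm]
  refine sum_congr rfl fun s hs => ?_
  rw [sum_comm]
  refine sum_congr rfl fun t ht => ?_
  rw [sum_ite_eq, if_pos (mem_range.2 (hlt s (mem_range.1 hs) t (mem_range.1 ht)))]

theorem abs_cutP_le {N : ℕ} (idx : List (List ℕ)) (P : List (List ℤ))
    (htr : 0 < ∑ s ∈ range idx.length, entZ P s s)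
    (habs : ∑ s ∈ range idx.length, ∑ t ∈ range idx.length, |entZ P s t| ≤
      idx.length * ∑ s ∈ range idx.length, entZ P s s) {i : ℕ} (hi : i < N) :
    |(cutP N idx P).getD i 0| ≤ ((idx.length + 1 : ℕ) : ℚ) := by
  unfold cutP
  rw [getD_map_range _ _ _ hi]
  have h1 : |∑ s ∈ range idx.length, ∑ t ∈ range idx.length,
      (if entN idx s t = i then entZ P s t else 0)| ≤
      ∑ s ∈ range idx.length, ∑ t ∈ range idx.length, |entZ P s t| := by
    refine (abs_sum_le_sum_abs _ _).trans (sum_le_sum fun s _ => ?_)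
    refine (abs_sum_le_sum_abs _ _).trans (sum_le_sum fun t _ => ?_)
    split_ifs <;> simp
  set A := ∑ s ∈ range idx.length, ∑ t ∈ range idx.length,
      (if entN idx s t = i then entZ P s t else 0) with hA
  set T := ∑ s ∈ range idx.length, entZ P s s with hT
  have hT' : (0 : ℚ) < (T : ℚ) := by exact_mod_cast htr
  have h2 : |(A : ℚ)| ≤ (idx.length : ℚ) * (T : ℚ) := by exact_mod_cast h1.trans habs
  rw [abs_div, abs_of_pos hT', div_le_iff₀ hT']
  push_cast
  nlinarith

end SepAux

open SepAux in
theorem exists_sep : ∃ S : SdpIn × ℕ × List ℤ → Option (List ℚ), PT S ∧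
    ∀ (N E : List Unit) (idx : List (List ℕ)) (cs : List (List ℚ × ℚ)) (D : ℕ) (z : List ℤ),
      1 ≤ E.length → SdpWF N.length idx cs → 0 < D →
      (S (((N, E), idx, cs), D, z) = none →
        Approx N.length E.length idx cs fun i => (z.getD i 0 : ℤ) / (D : ℝ)) ∧
      ∀ g, S (((N, E), idx, cs), D, z) = some g →
        (∀ i < N.length, |g.getD i 0| ≤ ((idx.length + 1 : ℕ) : ℚ)) ∧
        ∀ ψ, Exact N.length E.length idx cs ψ → 1 / (E.length : ℝ) ≤
          ∑ i ∈ range N.length, ((g.getD i 0 : ℚ) : ℝ) * (ψ i - (z.getD i 0 : ℤ) / (D : ℝ)) := by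
  obtain ⟨O, hO, hspec⟩ := exists_psd
  refine ⟨sepF O, pt_sepF hO, ?_⟩
  intro N E idx cs D z hE hwf hD
  have hE' : (1 : ℝ) ≤ (E.length : ℝ) := by exact_mod_cast hE
  have hE0 : (0 : ℝ) < (E.length : ℝ) := by linarith
  have hD' : (0 : ℝ) < (D : ℝ) := by exact_mod_cast hD
  have h1le : (1 : ℚ) ≤ ((idx.length + 1 : ℕ) : ℚ) := by exact_mod_cast Nat.le_add_left 1 _
  unfold sepF
  dsimp only
  rcases h1 : (List.range N.length).find? (fun i => decide (2 * (D : ℤ) < |z.getD i 0|)) with _ | i
  · have hbox : ∀ i < N.length, |z.getD i 0| ≤ 2 * (D : ℤ) := fun i hi => by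
      have := List.find?_eq_none.1 h1 i (List.mem_range.2 hi)
      simpa using this
    simp only [Option.elim_none]
    generalize h2 : List.find? _ cs = o
    rcases o with _ | c
    · have hlin : ∀ c ∈ cs, |dotQ N.length c.1 (fun i => (z.getD i 0 : ℤ) / (D : ℝ)) - (c.2 : ℝ)| ≤
          2 / (E.length : ℝ) := fun c hc => by
        have h := List.find?_eq_none.1 h2 c hc
        have h' : |dotR N.length c.1 D z - c.2| ≤ (2 : ℚ) / ((E.length : ℕ) : ℚ) := by
          simpa using h
        rw [← dotR_cast]
        have h'' := (Rat.cast_le (K := ℝ)).2 h'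
        push_cast at h''
        exact h''
      simp only [Option.elim_none]
      obtain ⟨hnone, hsome⟩ := hspec (gramZ idx z) (2 * D) E hE
        (by
          rw [length_gramZ]
          intro s hs t ht
          rw [entZ_gramZ _ _ hs ht, entZ_gramZ _ _ ht hs, hwf.symm s hs t ht])
        (by
          rw [length_gramZ]
          intro s hs t ht
          rw [entZ_gramZ _ _ hs ht]
          exact_mod_cast hbox _ (hwf.lt s hs t ht))
      rw [length_gramZ] at hnone hsome
      refine ⟨fun h => ⟨hlin, fun u => ?_⟩, fun g hg => ?_⟩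
      · have h3 := hnone (Option.map_eq_none_iff.1 h) u
        have h4 : qf idx.length (fun s t => ((z.getD (entN idx s t) 0 : ℤ) : ℝ) / (D : ℝ)) u =
            qf idx.length (fun s t => (entZ (gramZ idx z) s t : ℝ)) u / D := by
          unfold qf
          rw [sum_div]
          refine sum_congr rfl fun s hs => ?_
          rw [sum_div]
          refine sum_congr rfl fun t ht => ?_
          beta_reduce
          rw [entZ_gramZ _ _ (mem_range.1 hs) (mem_range.1 ht)]
          ring
        rw [h4, le_div_iff₀ hD']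
        refine le_trans (le_of_eq ?_) h3
        push_cast
        ring
      · obtain ⟨P, hP, rfl⟩ := Option.map_eq_some_iff.1 hg
        obtain ⟨htr, hpsd, habs, hneg⟩ := hsome P hP
        refine ⟨fun i hi => abs_cutP_le idx P htr habs hi, fun ψ hψ => ?_⟩
        obtain ⟨u, hu⟩ := hψ.rk1
        rw [sum_cutP hwf.lt]
        have htr' : (0 : ℝ) < ((∑ s ∈ range idx.length, entZ P s s : ℤ) : ℝ) := by
          exact_mod_cast htr
        have hneg' : 2 * (E.length : ℝ) * ((∑ s ∈ range idx.length, ∑ t ∈ range idx.length,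
            entZ P s t * entZ (gramZ idx z) s t : ℤ) : ℝ) ≤
            -(2 * (D : ℝ)) * ((∑ s ∈ range idx.length, entZ P s s : ℤ) : ℝ) := by
          exact_mod_cast hneg
        have h4 : ∑ s ∈ range idx.length, ∑ t ∈ range idx.length, (entZ P s t : ℝ) *
            (ψ (entN idx s t) - ((z.getD (entN idx s t) 0 : ℤ) : ℝ) / (D : ℝ)) =
            qf idx.length (fun s t => (entZ P s t : ℝ)) u -
              ((∑ s ∈ range idx.length, ∑ t ∈ range idx.length,
                entZ P s t * entZ (gramZ idx z) s t : ℤ) : ℝ) / D := by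
          unfold qf
          rw [Int.cast_sum, sum_div, ← sum_sub_distrib]
          refine sum_congr rfl fun s hs => ?_
          rw [Int.cast_sum, sum_div, ← sum_sub_distrib]
          refine sum_congr rfl fun t ht => ?_
          rw [entZ_gramZ _ _ (mem_range.1 hs) (mem_range.1 ht),
            hu s (mem_range.1 hs) t (mem_range.1 ht)]
          push_cast
          ring
        rw [h4]
        have h5 := hpsd u
        set T : ℝ := ((∑ s ∈ range idx.length, entZ P s s : ℤ) : ℝ)
        set B : ℝ := ((∑ s ∈ range idx.length, ∑ t ∈ range idx.length,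
            entZ P s t * entZ (gramZ idx z) s t : ℤ) : ℝ)
        have h6 : B / D ≤ -(T / E.length) := by
          rw [div_le_iff₀ hD', ← neg_div, div_mul_eq_mul_div, le_div_iff₀ hE0]
          nlinarith
        rw [le_div_iff₀ htr']
        have h7 : 1 / (E.length : ℝ) * T = T / E.length := by ring
        linarith
    · simp only [Option.elim_some]
      refine ⟨fun h => absurd h (by simp), fun g hg => ?_⟩
      obtain rfl := Option.some.inj hg
      have hc : c ∈ cs := List.mem_of_find?_eq_some h2
      have hbig : (2 : ℚ) / ((E.length : ℕ) : ℚ) < |dotR N.length c.1 D z - c.2| := by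
        simpa using List.find?_some h2
      have hbig' : 2 / (E.length : ℝ) <
          |dotQ N.length c.1 (fun i => (z.getD i 0 : ℤ) / (D : ℝ)) - (c.2 : ℝ)| := by
        rw [← dotR_cast]
        have h'' := (Rat.cast_lt (K := ℝ)).2 hbig
        push_cast at h''
        exact h''
      have hget : ∀ i, (c.1.map fun x => if c.2 < dotR N.length c.1 D z then -x else x).getD i 0 =
          if c.2 < dotR N.length c.1 D z then -(c.1.getD i 0) else c.1.getD i 0 := by
        intro i
        rw [List.getD_eq_getElem?_getD, List.getD_eq_getElem?_getD, List.getElem?_map]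
        cases c.1[i]? <;> simp
      refine ⟨fun i hi => ?_, fun ψ hψ => ?_⟩
      · rw [hget]
        have := hwf.coef c hc i hi
        split_ifs
        · rw [abs_neg]; linarith
        · linarith
      · have hl := abs_le.1 (hψ.lin c hc)
        have h21 : 2 / (E.length : ℝ) = 1 / (E.length : ℝ) + 1 / (E.length : ℝ) := by ring
        simp only [hget]
        by_cases hlt : c.2 < dotR N.length c.1 D z
        · have hlt' : (c.2 : ℝ) < dotQ N.length c.1 (fun i => (z.getD i 0 : ℤ) / (D : ℝ)) := by
            rw [← dotR_cast]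
            exact_mod_cast hlt
          rw [abs_of_pos (sub_pos.2 hlt')] at hbig'
          have h4 : ∑ i ∈ range N.length, (((if c.2 < dotR N.length c.1 D z then -(c.1.getD i 0)
              else c.1.getD i 0 : ℚ)) : ℝ) * (ψ i - ((z.getD i 0 : ℤ) : ℝ) / (D : ℝ)) =
              dotQ N.length c.1 (fun i => (z.getD i 0 : ℤ) / (D : ℝ)) - dotQ N.length c.1 ψ := by
            unfold dotQ
            rw [← sum_sub_distrib]
            refine sum_congr rfl fun i _ => ?_
            rw [if_pos hlt]
            push_cast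
            ring
          rw [h4]
          linarith [hl.2]
        · have hlt' : dotQ N.length c.1 (fun i => (z.getD i 0 : ℤ) / (D : ℝ)) ≤ (c.2 : ℝ) := by
            rw [← dotR_cast]
            exact_mod_cast not_lt.1 hlt
          rw [abs_of_nonpos (sub_nonpos.2 hlt')] at hbig'
          have h4 : ∑ i ∈ range N.length, (((if c.2 < dotR N.length c.1 D z then -(c.1.getD i 0)
              else c.1.getD i 0 : ℚ)) : ℝ) * (ψ i - ((z.getD i 0 : ℤ) : ℝ) / (D : ℝ)) =
              dotQ N.length c.1 ψ - dotQ N.length c.1 (fun i => (z.getD i 0 : ℤ) / (D : ℝ)) := by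
            unfold dotQ
            rw [← sum_sub_distrib]
            refine sum_congr rfl fun i _ => ?_
            rw [if_neg hlt]
            ring
          rw [h4]
          linarith [hl.1]
  · simp only [Option.elim_some]
    refine ⟨fun h => absurd h (by simp), fun g hg => ?_⟩
    obtain rfl := Option.some.inj hg
    have hi : i < N.length := List.mem_range.1 (List.mem_of_find?_eq_some h1)
    have hbig : 2 * (D : ℤ) < |z.getD i 0| := by simpa using List.find?_some h1
    refine ⟨fun j hj => ?_, fun ψ hψ => ?_⟩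
    · rw [getD_map_range _ _ _ hj]
      split_ifs <;> simp <;> positivity
    · have h4 : ∀ j ∈ range N.length, ((((List.range N.length).map fun j =>
          if j = i then (if z.getD i 0 < 0 then (1 : ℚ) else -1) else 0).getD j 0 : ℚ) : ℝ) *
          (ψ j - ((z.getD j 0 : ℤ) : ℝ) / (D : ℝ)) =
          if j = i then (if z.getD i 0 < 0 then (1 : ℝ) else -1) *
            (ψ j - ((z.getD j 0 : ℤ) : ℝ) / (D : ℝ)) else 0 := by
        intro j hj
        rw [getD_map_range _ _ _ (mem_range.1 hj)]
        split_ifs <;> simp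
      rw [sum_congr rfl h4, sum_ite_eq', if_pos (mem_range.2 hi)]
      have hb := abs_le.1 (hψ.box i hi)
      have hinv : 1 / (E.length : ℝ) ≤ 1 := by
        rw [div_le_iff₀ hE0]; linarith
      split_ifs with hneg
      · rw [abs_of_neg hneg] at hbig
        have h5 : 2 * (D : ℝ) < -((z.getD i 0 : ℤ) : ℝ) := by exact_mod_cast hbig
        have h6 : ((z.getD i 0 : ℤ) : ℝ) / D ≤ -2 := by
          rw [div_le_iff₀ hD']; linarith
        linarith [hb.1]
      · rw [abs_of_nonneg (not_lt.1 hneg)] at hbig
        have h5 : 2 * (D : ℝ) < ((z.getD i 0 : ℤ) : ℝ) := by exact_mod_cast hbig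
        have h6 : 2 ≤ ((z.getD i 0 : ℤ) : ℝ) / D := by
          rw [le_div_iff₀ hD']; linarith
        linarith [hb.2]

end Crest.Agent.R300
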