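import Crest.Agent.R300.GBasic

/-!
# Row 300: quasi-shuffle product of generating functions.

`G_mul`: strong induction on `L₁.length + L₂.length`, and inside an induction on `j` using
`G_succ` on both sides: with `G₁ = G (a₁::L₁)`, `G₁' = G L₁`, ...
`(v₁G₁ + φ₁G₁')(v₂G₂ + φ₂G₂') = v₁v₂ G₁G₂ + (v₂φ₁) G₁'G₂ + (v₁φ₂) G₁G₂' + φ₁φ₂ G₁'G₂'`.
`G 1 [] y j = 1`.  The invariants are inductions along `sh` (`sh.induct` / functional induction).
For `nu`: `1 - ‖v₁‖ ≤ 1 - ‖v₁v₂‖` and `(1-‖v₁‖)(1-‖v₂‖) ≤ 1 - ‖v₁v₂‖`.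
-/

set_option autoImplicit false

namespace Crest.Agent.R300

open Complex

/-- quasi-shuffle -/
noncomputable def sh : List Atom → List Atom → List (List Atom)
  | [], L => [L]
  | a :: L, [] => [a :: L]
  | a :: L, a' :: L' =>
      (sh L (a' :: L')).map (fun M => (a.1 * a'.1, fun b => a'.1 * a.2 b) :: M) ++
      (sh (a :: L) L').map (fun M => (a.1 * a'.1, fun b => a.1 * a'.2 b) :: M) ++
      (sh L L').map (fun M => (a.1 * a'.1, fun b => a.2 b * a'.2 b) :: M)
termination_by L L' => L.length + L'.length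

theorem Shuffle_sum_zero (c : Atom) (l : List (List Atom)) (y : ℕ → Bool) :
    ((l.map fun M => c :: M).map fun M => G 1 M y 0).sum = 0 := by
  induction l with
  | nil => simp
  | cons M l ih => rw [List.map_cons, List.map_cons, List.sum_cons, ih, G_cons_zero, add_zero]

theorem Shuffle_sum_succ (c : Atom) (l : List (List Atom)) (y : ℕ → Bool) (j : ℕ) :
    ((l.map fun M => c :: M).map fun M => G 1 M y (j + 1)).sum =
      c.1 * ((l.map fun M => c :: M).map fun M => G 1 M y j).sum +
        c.2 (y j) * (l.map fun M => G 1 M y j).sum := by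
  induction l with
  | nil => simp
  | cons M l ih =>
    simp only [List.map_cons, List.sum_cons]
    rw [ih, G_succ]
    ring

theorem G_mul (L L' : List Atom) (y : ℕ → Bool) (j : ℕ) :
    G 1 L y j * G 1 L' y j = ((sh L L').map fun M => G 1 M y j).sum := by
  induction L, L' using sh.induct generalizing j with
  | case1 L => simp [sh, G]
  | case2 a L => simp [sh, G]
  | case3 a L a' L' ih1 ih2 ih3 =>
    rw [sh]
    simp only [List.map_append, List.sum_append]
    induction j with
    | zero => rw [Shuffle_sum_zero, Shuffle_sum_zero, Shuffle_sum_zero, G_cons_zero]; simp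
    | succ j ih =>
      rw [Shuffle_sum_succ, Shuffle_sum_succ, Shuffle_sum_succ, ← ih1, ← ih2, ← ih3, G_succ 1 a,
        G_succ 1 a']
      linear_combination (a.1 * a'.1) * ih

theorem length_sh_le (L L' : List Atom) : (sh L L').length ≤ 3 ^ (L.length + L'.length) := by
  induction L, L' using sh.induct with
  | case1 L =>
    rw [sh]
    exact Nat.one_le_pow _ _ (by norm_num)
  | case2 a L =>
    rw [sh]
    exact Nat.one_le_pow _ _ (by norm_num)
  | case3 a L a' L' ih1 ih2 ih3 =>
    rw [sh]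
    simp only [List.length_append, List.length_map, List.length_cons] at *
    have e1 : L.length + (L'.length + 1) = (L.length + L'.length) + 1 := by ring
    have e2 : L.length + 1 + L'.length = (L.length + L'.length) + 1 := by ring
    have e3 : L.length + 1 + (L'.length + 1) = (L.length + L'.length) + 1 + 1 := by ring
    rw [e1, pow_succ] at ih1
    rw [e2, pow_succ] at ih2
    rw [e3, pow_succ, pow_succ]
    omega

theorem length_of_mem_sh {L L' M : List Atom} (h : M ∈ sh L L') :
    M.length ≤ L.length + L'.length := by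
  induction L, L' using sh.induct generalizing M with
  | case1 L =>
    rw [sh, List.mem_singleton] at h
    simp [h]
  | case2 a L =>
    rw [sh, List.mem_singleton] at h
    simp [h]
  | case3 a L a' L' ih1 ih2 ih3 =>
    rw [sh] at h
    simp only [List.mem_append, List.mem_map] at h
    rcases h with (⟨N, hN, rfl⟩ | ⟨N, hN, rfl⟩) | ⟨N, hN, rfl⟩
    · have := ih1 hN
      simp only [List.length_cons] at *
      omega
    · have := ih2 hN
      simp only [List.length_cons] at *
      omega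
    · have := ih3 hN
      simp only [List.length_cons] at *
      omega

theorem ok_of_mem_sh {B γ0 A : ℝ} (h0 : 0 < γ0) (hA : 0 ≤ A) {L L' M : List Atom}
    (hL : Ok B γ0 A L) (hL' : Ok B γ0 A L') (h : M ∈ sh L L') : Ok B γ0 (2 * A) M := by
  induction L, L' using sh.induct generalizing M with
  | case1 L =>
    rw [sh, List.mem_singleton] at h
    rw [h]
    exact hL'.mono h0.le (by linarith)
  | case2 a L =>
    rw [sh, List.mem_singleton] at h
    rw [h]
    exact hL.mono h0.le (by linarith)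
  | case3 a L a' L' ih1 ih2 ih3 =>
    rw [sh] at h
    simp only [List.mem_append, List.mem_map] at h
    have ha := hL a List.mem_cons_self
    have ha' := hL' a' List.mem_cons_self
    have hT : Ok B γ0 A L := fun c hc => hL c (List.mem_cons_of_mem _ hc)
    have hT' : Ok B γ0 A L' := fun c hc => hL' c (List.mem_cons_of_mem _ hc)
    have hz : InZ B γ0 (2 * A) (a.1 * a'.1) := ha.1.mul ha'.1 h0.le hA
    have hn : ‖a.1‖ ≤ 1 := (ha.1.norm_lt h0).le
    have hn' : ‖a'.1‖ ≤ 1 := (ha'.1.norm_lt h0).le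
    have hmul : ∀ u v : ℂ, ‖u‖ ≤ 1 → ‖v‖ ≤ 1 → ‖u * v‖ ≤ 1 := fun u v hu hv => by
      rw [norm_mul]
      exact mul_le_one₀ hu (norm_nonneg _) hv
    rcases h with (⟨N, hN, rfl⟩ | ⟨N, hN, rfl⟩) | ⟨N, hN, rfl⟩
    · intro c hc
      rcases List.mem_cons.1 hc with rfl | hc
      · exact ⟨hz, fun b => hmul _ _ hn' (ha.2 b)⟩
      · exact ih1 hT hL' hN c hc
    · intro c hc
      rcases List.mem_cons.1 hc with rfl | hc
      · exact ⟨hz, fun b => hmul _ _ hn (ha'.2 b)⟩
      · exact ih2 hL hT' hN c hc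
    · intro c hc
      rcases List.mem_cons.1 hc with rfl | hc
      · exact ⟨hz, fun b => hmul _ _ (ha.2 b) (ha'.2 b)⟩
      · exact ih3 hT hT' hN c hc

theorem nu_mul_le_of_mem_sh {L L' M : List Atom} (hL : ∀ a ∈ L, ‖a.1‖ < 1)
    (hL' : ∀ a ∈ L', ‖a.1‖ < 1) (h : M ∈ sh L L') : nu L * nu L' ≤ nu M := by
  induction L, L' using sh.induct generalizing M with
  | case1 L =>
    rw [sh, List.mem_singleton] at h
    rw [h, nu_nil, one_mul]
  | case2 a L =>
    rw [sh, List.mem_singleton] at h
    rw [h, nu_nil, mul_one]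
  | case3 a L a' L' ih1 ih2 ih3 =>
    rw [sh] at h
    simp only [List.mem_append, List.mem_map] at h
    have ha := hL a List.mem_cons_self
    have ha' := hL' a' List.mem_cons_self
    have hT : ∀ c ∈ L, ‖c.1‖ < 1 := fun c hc => hL c (List.mem_cons_of_mem _ hc)
    have hT' : ∀ c ∈ L', ‖c.1‖ < 1 := fun c hc => hL' c (List.mem_cons_of_mem _ hc)
    have h1 : 1 - ‖a.1‖ ≤ 1 - ‖a.1 * a'.1‖ := by
      rw [norm_mul]
      nlinarith [norm_nonneg a.1, norm_nonneg a'.1]
    have h2 : 1 - ‖a'.1‖ ≤ 1 - ‖a.1 * a'.1‖ := by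
      rw [norm_mul]
      nlinarith [norm_nonneg a.1, norm_nonneg a'.1]
    have h3 : (1 - ‖a.1‖) * (1 - ‖a'.1‖) ≤ 1 - ‖a.1 * a'.1‖ := by
      nlinarith [norm_nonneg a.1, norm_nonneg a'.1]
    have hp : 0 ≤ 1 - ‖a.1 * a'.1‖ := by linarith
    have p1 := (nu_pos hL).le
    have p2 := (nu_pos hL').le
    have p3 := (nu_pos hT).le
    have p4 := (nu_pos hT').le
    rcases h with (⟨N, hN, rfl⟩ | ⟨N, hN, rfl⟩) | ⟨N, hN, rfl⟩
    · rw [nu_cons a, nu_cons _ N, mul_assoc]
      exact mul_le_mul h1 (ih1 hT hL' hN) (mul_nonneg p3 p2) hp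
    · rw [nu_cons a', nu_cons _ N, mul_left_comm]
      exact mul_le_mul h2 (ih2 hL hT' hN) (mul_nonneg p1 p4) hp
    · rw [nu_cons a, nu_cons a', nu_cons _ N, mul_mul_mul_comm]
      exact mul_le_mul h3 (ih3 hT hT' hN) (mul_nonneg p3 p4) hp

end Crest.Agent.R300
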