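import Crest.Agent.R300.DDefs

/-!
# Row 300: the list of all statistics.

Recipe.  `lvl n 0 = [[]]`, `lvl n (j+1) = [] :: (letters n).flatMap fun a => (lvl n j).map (a :: ·)`
with `letters n = range n ×ˢ [false, true]` lists the `σ` of length `≤ j` with entries `< n`, and
`(lvl n j).length ≤ (2n+1)^j`.  `exists_sigset`: `toFinset` of `lvl n k ×ˢ range (n+1)`.
`exists_sigs`: the same recursion with `take (pad.length)` after every round (the cap is not active
under the hypothesis), `min k pad.length` rounds (`k < 2^k ≤ pad.length`); `PT.iterate` or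
`PT.of_nat_rec` with the invariant: at most `pad.length + 1` elements, each of length `≤ j` with entries
`(g, b)`, `g < n` (`esize_list_le`, `esize_nat_le_self`).
-/

set_option autoImplicit false

namespace Crest.Agent.R300

open Crest.Agent.Lib.PolyTime
/-- the letters `(g, b)` with `g < n` -/
def sigsLetters (n : ℕ) : List (ℕ × Bool) := List.range n ×ˢ [false, true]

theorem sigs_mem_letters {n : ℕ} {a : ℕ × Bool} : a ∈ sigsLetters n ↔ a.1 < n := by
  obtain ⟨g, b⟩ := a
  unfold sigsLetters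
  rw [List.mem_product]
  cases b <;> simp

theorem sigs_length_letters (n : ℕ) : (sigsLetters n).length = 2 * n := by
  unfold sigsLetters
  rw [List.length_product]
  simp [Nat.mul_comm]

/-- one round -/
def sigsStep (n : ℕ) (L : List (List (ℕ × Bool))) : List (List (ℕ × Bool)) :=
  [] :: (sigsLetters n).flatMap fun a => L.map fun s => a :: s

theorem sigs_mem_step {n : ℕ} {L : List (List (ℕ × Bool))} {σ : List (ℕ × Bool)} :
    σ ∈ sigsStep n L ↔ σ = [] ∨ ∃ a s, a.1 < n ∧ s ∈ L ∧ σ = a :: s := by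
  unfold sigsStep
  simp only [List.mem_cons, List.mem_flatMap, List.mem_map, sigs_mem_letters]
  constructor
  · rintro (h | ⟨a, ha, s, hs, rfl⟩)
    · exact Or.inl h
    · exact Or.inr ⟨a, s, ha, hs, rfl⟩
  · rintro (h | ⟨a, s, ha, hs, rfl⟩)
    · exact Or.inl h
    · exact Or.inr ⟨a, ha, s, hs, rfl⟩

theorem sigs_length_step (n : ℕ) (L : List (List (ℕ × Bool))) :
    (sigsStep n L).length = 2 * n * L.length + 1 := by
  unfold sigsStep
  rw [List.length_cons, List.length_flatMap]
  simp [sigs_length_letters]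

/-- all words of length at most `j` -/
def sigsLvl (n : ℕ) : ℕ → List (List (ℕ × Bool))
  | 0 => [[]]
  | j + 1 => sigsStep n (sigsLvl n j)

theorem sigs_mem_lvl (n : ℕ) : ∀ (j : ℕ) (σ : List (ℕ × Bool)),
    σ ∈ sigsLvl n j ↔ σ.length ≤ j ∧ ∀ a ∈ σ, a.1 < n
  | 0, σ => by
    cases σ <;> simp [sigsLvl]
  | j + 1, σ => by
    rw [sigsLvl, sigs_mem_step]
    cases σ with
    | nil => simp
    | cons a s =>
      constructor
      · rintro (h | ⟨a', s', ha, hs, h⟩)
        · cases h
        · obtain ⟨rfl, rfl⟩ := List.cons.inj h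
          rw [sigs_mem_lvl n j] at hs
          refine ⟨by simpa using hs.1, ?_⟩
          intro x hx
          rcases List.mem_cons.1 hx with rfl | hx
          · exact ha
          · exact hs.2 x hx
      · rintro ⟨h1, h2⟩
        refine Or.inr ⟨a, s, h2 a (by simp), ?_, rfl⟩
        rw [sigs_mem_lvl n j]
        exact ⟨by simpa using h1, fun x hx => h2 x (by simp [hx])⟩

theorem sigs_length_lvl (n : ℕ) : ∀ j, (sigsLvl n j).length ≤ (2 * n + 2) ^ j
  | 0 => by simp [sigsLvl]
  | j + 1 => by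
    rw [sigsLvl, sigs_length_step, pow_succ]
    have h := sigs_length_lvl n j
    have h1 : 1 ≤ (2 * n + 2) ^ j := Nat.one_le_pow _ _ (by omega)
    nlinarith [Nat.mul_le_mul_left (2 * n) h]

/-- the capped recursion -/
def sigsCap (n c : ℕ) : ℕ → List (List (ℕ × Bool))
  | 0 => [[]]
  | j + 1 => (sigsStep n (sigsCap n c j)).take c

theorem sigs_cap_eq (n c : ℕ) : ∀ j, (2 * n + 2) ^ j ≤ c → sigsCap n c j = sigsLvl n j
  | 0, _ => rfl
  | j + 1, h => by
    have h1 : (2 * n + 2) ^ j ≤ c :=
      le_trans (Nat.pow_le_pow_right (by omega) (Nat.le_succ j)) h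
    rw [sigsCap, sigs_cap_eq n c j h1, sigsLvl]
    exact List.take_of_length_le (le_trans (sigs_length_lvl n (j + 1)) h)

theorem sigs_cap_length (n c : ℕ) : ∀ j, (sigsCap n c j).length ≤ c + 1
  | 0 => by simp [sigsCap]
  | j + 1 => by
    rw [sigsCap, List.length_take]
    omega

theorem sigs_cap_mem (n c : ℕ) : ∀ (j : ℕ) (σ : List (ℕ × Bool)), σ ∈ sigsCap n c j →
    σ.length ≤ j ∧ ∀ a ∈ σ, a.1 < n
  | 0, σ, h => by
    simp only [sigsCap, List.mem_singleton] at h
    subst h
    simp
  | j + 1, σ, h => by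
    rw [sigsCap] at h
    have h' := List.mem_of_mem_take h
    rw [sigs_mem_step] at h'
    rcases h' with rfl | ⟨a, s, ha, hs, rfl⟩
    · simp
    · obtain ⟨h1, h2⟩ := sigs_cap_mem n c j s hs
      refine ⟨by simpa using h1, ?_⟩
      intro x hx
      rcases List.mem_cons.1 hx with rfl | hx
      · exact ha
      · exact h2 x hx

theorem sigs_cap_esize (n c j : ℕ) :
    esize (sigsCap n c j) ≤ (c + 1) * (j * (6 * n + 6) + 2) + 1 := by
  have h : ∀ σ ∈ sigsCap n c j, esize σ ≤ j * (6 * n + 6) + 1 := by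
    intro σ hσ
    obtain ⟨h1, h2⟩ := sigs_cap_mem n c j σ hσ
    have h3 : ∀ a ∈ σ, esize a ≤ 6 * n + 5 := by
      intro a ha
      have := h2 a ha
      rw [esize_prod]
      have e1 := esize_nat_le_self a.1
      have e2 := esize_bool_le a.2
      omega
    have h4 := esize_list_le h3
    have h5 : σ.length * (6 * n + 5 + 1) ≤ j * (6 * n + 6) := Nat.mul_le_mul_right _ h1
    omega
  have h6 := esize_list_le h
  have h7 : (sigsCap n c j).length * (j * (6 * n + 6) + 1 + 1) ≤
      (c + 1) * (j * (6 * n + 6) + 2) := Nat.mul_le_mul_right _ (sigs_cap_length n c j)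
  omega

theorem sigs_cap_pt : PT fun a : List Unit × ℕ × List Unit =>
    sigsCap a.1.length a.2.2.length (min a.2.1 a.2.2.length) := by
  refine PT.of_nat_rec (n := fun a : List Unit × ℕ × List Unit => min a.2.1 a.2.2.length)
    (F := fun a j => sigsCap a.1.length a.2.2.length j)
    (g := fun a _ L => (sigsStep a.1.length L).take a.2.2.length)
    (fun a => (a.2.2.length + 1) * (a.2.2.length * (6 * a.1.length + 6) + 2) + 1)
    (by fun_prop) (PB.min_right (by fun_prop)) (PT.const _) ?_ (fun _ _ => rfl) (by fun_prop) ?_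
  · unfold sigsStep sigsLetters
    fun_prop
  · intro a i hi
    refine le_trans (sigs_cap_esize _ _ _) ?_
    have hi' : i ≤ a.2.2.length := le_trans hi (min_le_right _ _)
    gcongr


theorem exists_sigset (n k : ℕ) : ∃ s : Finset (List (ℕ × Bool) × ℕ),
    s.card ≤ (2 * n + 2) ^ (k + 1) ∧ ∀ σ r, (σ, r) ∈ s ↔ ValidSig n k σ r := by
  refine ⟨(sigsLvl n k ×ˢ List.range (n + 1)).toFinset, ?_, ?_⟩
  · refine le_trans (List.toFinset_card_le _) ?_
    rw [List.length_product, List.length_range, pow_succ]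
    exact Nat.mul_le_mul (sigs_length_lvl n k) (by omega)
  · intro σ r
    rw [List.mem_toFinset, List.mem_product, sigs_mem_lvl, List.mem_range]
    unfold ValidSig
    constructor
    · rintro ⟨⟨h1, h2⟩, h3⟩
      exact ⟨h1, h2, by omega⟩
    · rintro ⟨h1, h2, h3⟩
      exact ⟨⟨h1, h2⟩, by omega⟩

theorem exists_sigs : ∃ Sg : List Unit × ℕ × List Unit → List (List (ℕ × Bool) × ℕ), PT Sg ∧
    ∀ (nu : List Unit) (k : ℕ) (pad : List Unit), (2 * nu.length + 2) ^ (k + 1) ≤ pad.length →
      ∀ σ r, (σ, r) ∈ Sg (nu, k, pad) ↔ ValidSig nu.length k σ r := by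
  refine ⟨fun a => sigsCap a.1.length a.2.2.length (min a.2.1 a.2.2.length) ×ˢ
    List.range (a.1.length + 1), PT.sprod sigs_cap_pt (by fun_prop), ?_⟩
  intro nu k pad h σ r
  have h1 : (2 * nu.length + 2) ^ k ≤ pad.length :=
    le_trans (Nat.pow_le_pow_right (by omega) (Nat.le_succ k)) h
  have h2 : k ≤ pad.length := by
    have h3 : k < 2 ^ k := Nat.lt_two_pow_self
    have h4 : 2 ^ k ≤ (2 * nu.length + 2) ^ k := Nat.pow_le_pow_left (by omega) k
    omega
  simp only [min_eq_left h2]
  rw [sigs_cap_eq _ _ _ h1, List.mem_product, sigs_mem_lvl, List.mem_range]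
  unfold ValidSig
  constructor
  · rintro ⟨⟨h1, h2⟩, h3⟩
    exact ⟨h1, h2, by omega⟩
  · rintro ⟨h1, h2, h3⟩
    exact ⟨⟨h1, h2⟩, by omega⟩

end Crest.Agent.R300
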