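import Crest.Agent.R300.Tr
import Crest.Agent.R300.GBasic

/-!
# Row 300: from pattern statistics to generating functions with variables in the disc
`{z : ‖z - q‖ ≤ p}`.

Recipe.  Let `GLs` be the list version of `G` (on the reversed prefix, defined below).
1. `G_eq_GLs` (induction on `L` and `j`, `G_succ`, `List.range_succ`).
2. `trE_GLs` (real and imaginary parts, or state `trE` componentwise): induction on the word `l`,
   generalising `L`: a new letter is dropped with probability `q` and kept with probability `p`.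
3. `GLs_expand`: for strings of length `≤ n`, `GLs u0 L` is a combination of at most
   `(2n)^|L| (n+1)` pattern indicators with coefficients of norm `≤ 1` (induction on `L`:
   `GLs u0 (a::L) l = ∑_{g<n} ∑_b a.1^g a.2 b [l.drop g = b :: l'] GLs u0 L l'`).
4. `stat_bound`: write `z = q + p u`, `u = (z-q)/p`; `G z0 L (yb y) n = p^(-|L|) · E GLs u0 Lᵘ`
   evaluated at the reversed trace (`trE_reverse`, `List.ofFn`), then use 3 and `StatClose`
   (`Dl μ x` of `y ↦ (PS p y σ r : ℂ)` has norm `|∑ μ PS - PS x|`).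
-/

set_option autoImplicit false

namespace Crest.Agent.R300

open Complex

/-- list version of `G`: the argument is the reversed prefix -/
noncomputable def GLs (z0 : ℂ) : List Atom → List Bool → ℂ
  | [], l => z0 ^ l.length
  | _ :: _, [] => 0
  | a :: L, b :: l => a.1 * GLs z0 (a :: L) l + a.2 b * GLs z0 L l
termination_by L l => (L.length, l.length)

theorem GLs_nil (z0 : ℂ) (l : List Bool) : GLs z0 [] l = z0 ^ l.length := by
  rw [GLs]

theorem GLs_cons_nil (z0 : ℂ) (a : Atom) (L : List Atom) : GLs z0 (a :: L) [] = 0 := by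
  rw [GLs]

theorem GLs_cons_cons (z0 : ℂ) (a : Atom) (L : List Atom) (b : Bool) (l : List Bool) :
    GLs z0 (a :: L) (b :: l) = a.1 * GLs z0 (a :: L) l + a.2 b * GLs z0 L l := by
  rw [GLs]

theorem G_eq_GLs (z0 : ℂ) (L : List Atom) (y : ℕ → Bool) (j : ℕ) :
    G z0 L y j = GLs z0 L ((List.range j).map y).reverse := by
  induction L generalizing j with
  | nil => simp [G, GLs_nil]
  | cons a L ih =>
    induction j with
    | zero => simp [G_cons_zero, GLs_cons_nil]
    | succ j ihj =>
      rw [G_succ, ihj, ih j, List.range_succ, List.map_append, List.reverse_append]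
      simp [GLs_cons_cons]

/-- complex-valued version of `trE` -/
noncomputable def st_trC (p : ℝ) : List Bool → (List Bool → ℂ) → ℂ
  | [], F => F []
  | b :: l, F => ((1 - p : ℝ) : ℂ) * st_trC p l F + p * st_trC p l (fun τ => F (b :: τ))

theorem st_trC_eq (p : ℝ) (l : List Bool) (F : List Bool → ℂ) :
    st_trC p l F = (trE p l (fun τ => (F τ).re) : ℂ) + (trE p l (fun τ => (F τ).im) : ℂ) * I := by
  induction l generalizing F with
  | nil => simp [st_trC, trE]
  | cons b l ih =>
    simp only [st_trC, trE]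
    rw [ih F, ih (fun τ => F (b :: τ))]
    push_cast
    ring

theorem st_trC_ofReal (p : ℝ) (l : List Bool) (F : List Bool → ℝ) :
    st_trC p l (fun τ => (F τ : ℂ)) = (trE p l F : ℂ) := by
  induction l generalizing F with
  | nil => simp [st_trC, trE]
  | cons b l ih =>
    simp only [st_trC, trE]
    rw [ih F, ih (fun τ => F (b :: τ))]
    push_cast
    ring

theorem st_trC_add (p : ℝ) (l : List Bool) (F H : List Bool → ℂ) :
    st_trC p l (fun τ => F τ + H τ) = st_trC p l F + st_trC p l H := by
  induction l generalizing F H with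
  | nil => simp [st_trC]
  | cons b l ih =>
    simp only [st_trC]
    rw [ih F H, ih (fun τ => F (b :: τ)) (fun τ => H (b :: τ))]
    ring

theorem st_trC_const_mul (p : ℝ) (c : ℂ) (l : List Bool) (F : List Bool → ℂ) :
    st_trC p l (fun τ => c * F τ) = c * st_trC p l F := by
  induction l generalizing F with
  | nil => simp [st_trC]
  | cons b l ih =>
    simp only [st_trC]
    rw [ih F, ih (fun τ => F (b :: τ))]
    ring

theorem st_trC_zero (p : ℝ) (l : List Bool) : st_trC p l (fun _ => 0) = 0 := by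
  induction l with
  | nil => simp [st_trC]
  | cons b l ih => simp only [st_trC, ih]; ring

theorem st_trC_list_sum {ι : Type} (p : ℝ) (l : List Bool) (s : List ι) (F : ι → List Bool → ℂ) :
    st_trC p l (fun τ => (s.map fun i => F i τ).sum) = (s.map fun i => st_trC p l (F i)).sum := by
  induction s with
  | nil => simpa using st_trC_zero p l
  | cons i s ih =>
    simp only [List.map_cons, List.sum_cons]
    rw [st_trC_add, ih]

theorem st_trC_congr (p : ℝ) (l : List Bool) {F H : List Bool → ℂ}
    (h : ∀ τ, τ.length ≤ l.length → F τ = H τ) : st_trC p l F = st_trC p l H := by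
  induction l generalizing F H with
  | nil => simpa [st_trC] using h [] (by simp)
  | cons b l ih =>
    simp only [st_trC]
    rw [ih (F := F) (H := H) (fun τ hτ => h τ (by simp; omega)),
      ih (F := fun τ => F (b :: τ)) (H := fun τ => H (b :: τ))
        (fun τ hτ => h _ (by simp; omega))]

theorem st_trC_GLs (p : ℝ) (u0 : ℂ) (L : List Atom) (l : List Bool) :
    st_trC p l (GLs u0 L) = GLs ((1 - p : ℝ) + p * u0)
        (L.map fun a => (((1 - p : ℝ) : ℂ) + p * a.1, fun b => (p : ℂ) * a.2 b)) l := by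
  induction l generalizing L with
  | nil =>
    cases L with
    | nil => simp [st_trC, GLs_nil]
    | cons a L => simp [st_trC, GLs_cons_nil]
  | cons b l ih =>
    cases L with
    | nil =>
      have h1 : (fun τ => GLs u0 [] (b :: τ)) = fun τ => u0 * GLs u0 [] τ := by
        funext τ
        simp [GLs_nil, pow_succ, mul_comm]
      simp only [st_trC]
      rw [h1, st_trC_const_mul, ih []]
      simp only [List.map_nil, GLs_nil, List.length_cons, pow_succ]
      ring
    | cons a L =>
      have h1 : (fun τ => GLs u0 (a :: L) (b :: τ)) =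
          fun τ => a.1 * GLs u0 (a :: L) τ + a.2 b * GLs u0 L τ := by
        funext τ
        rw [GLs_cons_cons]
      simp only [st_trC]
      rw [h1, st_trC_add, st_trC_const_mul, st_trC_const_mul, ih (a :: L), ih L]
      simp only [List.map_cons, GLs_cons_cons]
      ring

theorem trE_GLs (p : ℝ) (u0 : ℂ) (L : List Atom) (l : List Bool) :
    (trE p l (fun τ => (GLs u0 L τ).re) : ℂ) + (trE p l (fun τ => (GLs u0 L τ).im) : ℂ) * I =
      GLs ((1 - p : ℝ) + p * u0)
        (L.map fun a => (((1 - p : ℝ) : ℂ) + p * a.1, fun b => (p : ℂ) * a.2 b)) l := by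
  rw [← st_trC_eq, st_trC_GLs]

/-- one step of the pattern: skip `g` letters, weigh the next letter, continue with `F` -/
noncomputable def st_stepF (w : Bool → ℂ) (F : List Bool → ℂ) : List Bool → ℂ
  | [] => 0
  | c :: l' => w c * F l'

theorem GLs_cons_eq_sum (u0 : ℂ) (a : Atom) (L : List Atom) (l : List Bool) (n : ℕ)
    (hl : l.length ≤ n) :
    GLs u0 (a :: L) l = ∑ g ∈ Finset.range n, a.1 ^ g * st_stepF a.2 (GLs u0 L) (l.drop g) := by
  induction l generalizing n with
  | nil => simp [GLs_cons_nil, st_stepF]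
  | cons c l ih =>
    obtain ⟨n, rfl⟩ : ∃ m, n = m + 1 := ⟨n - 1, by simp at hl; omega⟩
    rw [Finset.sum_range_succ', GLs_cons_cons, ih n (by simpa using hl), Finset.mul_sum]
    congr 1
    · refine Finset.sum_congr rfl fun g _ => ?_
      rw [List.drop_succ_cons, pow_succ]
      ring
    · simp [st_stepF]

theorem st_list_sum_range (f : ℕ → ℂ) (n : ℕ) :
    ((List.range n).map f).sum = ∑ i ∈ Finset.range n, f i := by
  induction n with
  | zero => simp
  | succ n ih => rw [List.range_succ, List.map_append, List.sum_append, ih, Finset.sum_range_succ]; simp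

theorem st_list_sum_flatMap {α β : Type} (l : List α) (f : α → List β) (g : β → ℂ) :
    ((l.flatMap f).map g).sum = (l.map fun a => ((f a).map g).sum).sum := by
  induction l with
  | nil => simp
  | cons a l ih => rw [List.flatMap_cons, List.map_append, List.sum_append, ih]; simp

theorem st_list_length_flatMap_le {α β : Type} (l : List α) (f : α → List β) (c : ℕ)
    (h : ∀ a ∈ l, (f a).length ≤ c) : (l.flatMap f).length ≤ l.length * c := by
  induction l with
  | nil => simp
  | cons a l ih =>
    rw [List.flatMap_cons, List.length_append, List.length_cons, Nat.succ_mul]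
    have h1 := h a (by simp)
    have h2 := ih fun b hb => h b (by simp [hb])
    omega

theorem st_hit_nil {g : ℕ} {l : List Bool} (h : l.drop g = []) (b : Bool) (σ : List (ℕ × Bool))
    (r : ℕ) : hit ((g, b) :: σ) r l = false := by
  simp only [hit, h]

theorem st_hit_cons {g : ℕ} {l l' : List Bool} {c : Bool} (h : l.drop g = c :: l') (b : Bool)
    (σ : List (ℕ × Bool)) (r : ℕ) : hit ((g, b) :: σ) r l = ((c == b) && hit σ r l') := by
  simp only [hit, h]

theorem GLs_expand (n : ℕ) {u0 : ℂ} (hu : ‖u0‖ ≤ 1) (L : List Atom)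
    (hL : ∀ a ∈ L, ‖a.1‖ ≤ 1 ∧ ∀ b, ‖a.2 b‖ ≤ 1) :
    ∃ s : List (ℂ × List (ℕ × Bool) × ℕ), s.length ≤ (2 * n) ^ L.length * (n + 1) ∧
      (∀ m ∈ s, ‖m.1‖ ≤ 1 ∧ ValidSig n L.length m.2.1 m.2.2) ∧
      ∀ l : List Bool, l.length ≤ n →
        GLs u0 L l = (s.map fun m => m.1 * (if hit m.2.1 m.2.2 l then 1 else 0)).sum := by
  induction L with
  | nil =>
    refine ⟨(List.range (n + 1)).map fun r => (u0 ^ r, [], r), by simp, ?_, ?_⟩
    · intro m hm
      obtain ⟨r, hr, rfl⟩ := List.mem_map.1 hm
      rw [List.mem_range] at hr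
      refine ⟨?_, by simp, by simp, by simp only; omega⟩
      rw [norm_pow]
      exact pow_le_one₀ (norm_nonneg _) hu
    · intro l hl
      rw [List.map_map, st_list_sum_range, GLs_nil, Finset.sum_eq_single l.length]
      · simp [hit]
      · intro r _ hr
        simp [hit, hr.symm]
      · intro h
        exact absurd (Finset.mem_range.2 (by omega)) h
  | cons a L ih =>
    obtain ⟨s, hs1, hs2, hs3⟩ := ih fun a' ha' => hL a' (by simp [ha'])
    obtain ⟨ha1, ha2⟩ := hL a (by simp)
    refine ⟨(List.range n).flatMap fun g =>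
      (s.map fun m => (a.1 ^ g * a.2 false * m.1, (g, false) :: m.2.1, m.2.2)) ++
      (s.map fun m => (a.1 ^ g * a.2 true * m.1, (g, true) :: m.2.1, m.2.2)), ?_, ?_, ?_⟩
    · refine (st_list_length_flatMap_le _ _ (2 * s.length) ?_).trans ?_
      · intro g _
        simp only [List.length_append, List.length_map]
        omega
      · rw [List.length_range, List.length_cons, pow_succ]
        calc n * (2 * s.length) ≤ n * (2 * ((2 * n) ^ L.length * (n + 1))) := by gcongr
          _ = _ := by ring
    · have key : ∀ (g : ℕ) (b : Bool), g < n → ∀ m ∈ s,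
          ‖a.1 ^ g * a.2 b * m.1‖ ≤ 1 ∧ ValidSig n (a :: L).length ((g, b) :: m.2.1) m.2.2 := by
        intro g b hg m hm
        obtain ⟨h1, h2, h3, h4⟩ := hs2 m hm
        refine ⟨?_, by simpa using h2, ?_, h4⟩
        · rw [norm_mul, norm_mul, norm_pow]
          have e1 : ‖a.1‖ ^ g ≤ 1 := pow_le_one₀ (norm_nonneg _) ha1
          have e2 := ha2 b
          calc ‖a.1‖ ^ g * ‖a.2 b‖ * ‖m.1‖ ≤ 1 * 1 * 1 := by gcongr
            _ = 1 := by norm_num
        · intro c hc
          rcases List.mem_cons.1 hc with rfl | hc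
          · exact hg
          · exact h3 c hc
      intro m hm
      obtain ⟨g, hg, hm⟩ := List.mem_flatMap.1 hm
      rw [List.mem_range] at hg
      rcases List.mem_append.1 hm with hm | hm
      · obtain ⟨m', hm', rfl⟩ := List.mem_map.1 hm
        exact key g false hg m' hm'
      · obtain ⟨m', hm', rfl⟩ := List.mem_map.1 hm
        exact key g true hg m' hm'
    · intro l hl
      rw [GLs_cons_eq_sum u0 a L l n hl, st_list_sum_flatMap, st_list_sum_range]
      refine Finset.sum_congr rfl fun g _ => ?_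
      rw [List.map_append, List.sum_append, List.map_map, List.map_map]
      have hlen : (l.drop g).length ≤ n := by simp; omega
      simp only [Function.comp_def]
      cases hd : l.drop g with
      | nil => simp [st_stepF, st_hit_nil hd]
      | cons c l' =>
        rw [hd] at hlen
        have h3 := hs3 l' (by simp at hlen; omega)
        simp only [st_hit_cons hd]
        cases c with
        | false =>
          simp only [st_stepF, h3]
          simp [← List.sum_map_mul_left, mul_assoc]
        | true =>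
          simp only [st_stepF, h3]
          simp [← List.sum_map_mul_left, mul_assoc]

theorem GLs_scale (z0 c : ℂ) (L : List Atom) (l : List Bool) :
    GLs z0 (L.map fun a => (a.1, fun b => c * a.2 b)) l = c ^ L.length * GLs z0 L l := by
  induction L generalizing l with
  | nil => simp
  | cons a L ih =>
    induction l with
    | nil => simp [GLs_cons_nil]
    | cons b l ihl =>
      rw [List.map_cons, GLs_cons_cons, ← List.map_cons (f := fun a : Atom =>
        ((a.1, fun b => c * a.2 b) : Atom)), ihl, ih, GLs_cons_cons, List.length_cons]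
      ring

theorem st_range_map_yb {n : ℕ} (y : Fin n → Bool) : (List.range n).map (yb y) = List.ofFn y := by
  apply List.ext_getElem
  · simp
  · intro i h1 h2
    have hi : i < n := by simpa using h2
    simp [yb, hi]

theorem st_Dl_list_sum {Ω ι : Type} [Fintype Ω] (μ : Ω → ℝ) (x : Ω) (s : List ι) (c : ι → ℂ)
    (F : ι → Ω → ℂ) :
    Dl μ x (fun y => (s.map fun i => c i * F i y).sum) =
      (s.map fun i => c i * Dl μ x (F i)).sum := by
  induction s with
  | nil => simp [Dl, Et]
  | cons i s ih =>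
    simp only [List.map_cons, List.sum_cons]
    rw [← ih]
    simp only [Dl, Et, mul_add, Finset.sum_add_distrib, mul_sub, Finset.mul_sum]
    have : ∑ y, (μ y : ℂ) * (c i * F i y) = ∑ y, c i * ((μ y : ℂ) * F i y) :=
      Finset.sum_congr rfl fun y _ => by ring
    rw [this]
    ring

theorem st_norm_list_sum_le {ι : Type} (s : List ι) (f : ι → ℂ) (ε : ℝ) (h : ∀ i ∈ s, ‖f i‖ ≤ ε) :
    ‖(s.map f).sum‖ ≤ s.length * ε := by
  induction s with
  | nil => simp
  | cons i s ih =>
    rw [List.map_cons, List.sum_cons, List.length_cons]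
    have h1 := h i (by simp)
    have h2 := ih fun j hj => h j (by simp [hj])
    refine (norm_add_le _ _).trans ?_
    push_cast
    linarith

theorem stat_bound {n k : ℕ} {μ : (Fin n → Bool) → ℝ} {x : Fin n → Bool} {p ε : ℝ} (hp : 0 < p)
    (hp1 : p < 1) (hS : StatClose μ x p k ε) {z0 : ℂ} (hz : ‖z0 - (1 - p : ℝ)‖ ≤ p)
    {L : List Atom} (hL : ∀ a ∈ L, ‖a.1 - (1 - p : ℝ)‖ ≤ p ∧ ∀ b, ‖a.2 b‖ ≤ 1)
    (hk : L.length ≤ k) :
    ‖Dl μ x (fun y => G z0 L (yb y) n)‖ ≤ (2 * n / p) ^ L.length * (n + 1) * ε := by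
  have hpC : (p : ℂ) ≠ 0 := by exact_mod_cast hp.ne'
  have hε : 0 ≤ ε := (abs_nonneg _).trans (hS [] 0 ⟨by simp, by simp, Nat.zero_le _⟩)
  have hdisc : ∀ z : ℂ, ‖z - (1 - p : ℝ)‖ ≤ p → ‖(z - (1 - p : ℝ)) / p‖ ≤ 1 := by
    intro z hz
    rw [norm_div, Complex.norm_real, Real.norm_of_nonneg hp.le, div_le_one hp]
    exact hz
  set u0 : ℂ := (z0 - (1 - p : ℝ)) / p with hu0
  set Lu : List Atom := L.map fun a => ((a.1 - (1 - p : ℝ)) / p, a.2) with hLu
  have hlen : Lu.length = L.length := by simp [hLu]
  obtain ⟨s, hs1, hs2, hs3⟩ := GLs_expand n (u0 := u0) (hdisc z0 hz) Lu (by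
    intro a ha
    obtain ⟨a', ha', rfl⟩ := List.mem_map.1 ha
    exact ⟨hdisc _ (hL a' ha').1, (hL a' ha').2⟩)
  rw [hlen] at hs1 hs2
  have hz0 : ((1 - p : ℝ) : ℂ) + p * u0 = z0 := by
    rw [hu0]; field_simp; ring
  have hmap : (Lu.map fun a => ((((1 - p : ℝ) : ℂ) + p * a.1, fun b => (p : ℂ) * a.2 b) : Atom)) =
      L.map fun a => (a.1, fun b => (p : ℂ) * a.2 b) := by
    rw [hLu, List.map_map]
    refine List.map_congr_left fun a _ => ?_
    simp only [Function.comp_def]
    congr 1
    field_simp
    ring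
  have hG : ∀ y : Fin n → Bool, G z0 L (yb y) n =
      (s.map fun m => (((p : ℂ) ^ L.length)⁻¹ * m.1) * (PS p y m.2.1 m.2.2 : ℂ)).sum := by
    intro y
    have h1 := st_trC_GLs p u0 Lu (List.ofFn y).reverse
    rw [hz0, hmap, GLs_scale] at h1
    rw [st_trC_congr p _ (fun τ hτ => hs3 τ (by simpa using hτ)), st_trC_list_sum] at h1
    have h2 : ∀ m : ℂ × List (ℕ × Bool) × ℕ,
        st_trC p (List.ofFn y).reverse (fun τ => m.1 * (if hit m.2.1 m.2.2 τ then 1 else 0)) =
          m.1 * (PS p y m.2.1 m.2.2 : ℂ) := by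
      intro m
      rw [st_trC_const_mul, PS, ← trE_reverse p (List.ofFn y)
        (fun τ => if hit m.2.1 m.2.2 τ then 1 else 0), ← st_trC_ofReal]
      congr 2
      funext τ
      split_ifs <;> simp
    simp only [h2] at h1
    rw [G_eq_GLs, st_range_map_yb]
    have hpk : (p : ℂ) ^ L.length ≠ 0 := pow_ne_zero _ hpC
    simp only [mul_assoc]
    rw [List.sum_map_mul_left, h1, ← mul_assoc, inv_mul_cancel₀ hpk, one_mul]
  have hF : (fun y : Fin n → Bool => G z0 L (yb y) n) = fun y =>
      (s.map fun m => (((p : ℂ) ^ L.length)⁻¹ * m.1) * (PS p y m.2.1 m.2.2 : ℂ)).sum :=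
    funext hG
  rw [hF, st_Dl_list_sum μ x s (fun m => ((p : ℂ) ^ L.length)⁻¹ * m.1)
    (fun m y => (PS p y m.2.1 m.2.2 : ℂ))]
  refine (st_norm_list_sum_le s _ ((p ^ L.length)⁻¹ * ε) ?_).trans ?_
  · intro m hm
    obtain ⟨h1, h2, h3, h4⟩ := hs2 m hm
    have h5 := hS m.2.1 m.2.2 ⟨h2.trans hk, h3, h4⟩
    have h6 : Dl μ x (fun y => (PS p y m.2.1 m.2.2 : ℂ)) =
        ((∑ y, μ y * PS p y m.2.1 m.2.2 - PS p x m.2.1 m.2.2 : ℝ) : ℂ) := by
      simp [Dl, Et]
    rw [h6, norm_mul, norm_mul, norm_inv, norm_pow, Complex.norm_real, Complex.norm_real,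
      Real.norm_of_nonneg hp.le, Real.norm_eq_abs]
    have h7 : 0 ≤ (p ^ L.length)⁻¹ := by positivity
    calc (p ^ L.length)⁻¹ * ‖m.1‖ * |∑ y, μ y * PS p y m.2.1 m.2.2 - PS p x m.2.1 m.2.2|
        ≤ (p ^ L.length)⁻¹ * 1 * ε := by gcongr
      _ = _ := by ring
  · have h8 : (s.length : ℝ) ≤ (2 * n) ^ L.length * (n + 1) := by exact_mod_cast hs1
    calc (s.length : ℝ) * ((p ^ L.length)⁻¹ * ε)
        ≤ ((2 * n) ^ L.length * (n + 1)) * ((p ^ L.length)⁻¹ * ε) := by gcongr
      _ = _ := by rw [div_pow]; ring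

end Crest.Agent.R300
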