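import Crest.Agent.R300.Prod4
import Crest.Agent.R300.Chain

/-!
# Row 300: one step of the induction on scales.

Let `ρ = η²/(400E)`, `β = √ρ`, `C₀ = ∑_{j<n} gw ρ (j-t) ∈ [1, 2 + 8/(3√ρ)]`, `E' = 0.992E`,
`ε = exp(-E')`, `S = (7/20)E'`, `m₀ = exp(-S)`.  Given `Ψ` put `Ψ⁺ = (Ψ + 2)/3` (`URep … 1`),
`Y θ = Yw θ Ψ⁺ / C₀`, `X θ = Y θ x`; `‖X θ‖ ≤ 1`, `re (X 0) ≥ 1/3` (`URep.norm_le`).
`step_chain`: apply `chain` with `V = Jun n (2k+2)`, `Ξ = 3`; `P4, P2, P1` come from `prod4`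
(`Yw_conj`, `URep.conj`; the missing factors are `Yw 0 (fun _ _ => 1) = C₀`).
`Dser_eq`: `Dser μ x t ρ Ψ θ 0 = 3 C₀ (Et (Y θ) - X θ)` (terms `j < t` and constants vanish).
`step`: `a θ = -log (max m₀ ‖X θ‖)` is continuous, `0 ≤ a ≤ S`; with `C₆ = 180 (b/β + 1)`,
`‖Et (Y θ) - X θ‖ ≤ C₆ exp(g θ)`, `g = -(indicator [-b,b] a + (3/20)E' indicator (-min h b, min h b))`
(outside the band use `‖Dser‖ ≤ 2 C₀`, `URep.Dl_le`, `sum_gw_le_two`).  `jensen_half` applied to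
`d u = gw ρ u Dl(…)/(3 C₀ C₆)`, then `pois_low` (with `E'`), and numerics:
`3 C₀ C₆ ≤ 10^6 E/η² ≤ exp(0.0009 E)`.
-/

set_option autoImplicit false

namespace Crest.Agent.R300

open Complex

section
variable {n d t k : ℕ} {x : Fin n → Bool} {μ : (Fin n → Bool) → ℝ} {B γ0 A ρp η E b : ℝ}

theorem Dser_eq (hpd : PD d t x μ) {Ψ : (ℕ → Bool) → ℕ → ℂ} {c : ℝ} (h : URep B γ0 A k c Ψ)
    (ρ θ : ℝ) (s s' : ℂ) :
    s * Dser μ x t ρ Ψ θ 0 = Dl μ x (Yw n t ρ θ fun y j => s * (Ψ y j + s')) := by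
  have ht := hpd.ht
  have e1 : Dl μ x (Yw n t ρ θ fun y j => s * (Ψ y j + s')) =
      ∑ j ∈ Finset.range n, (gw ρ ((j : ℝ) - t) : ℂ) * cexp (θ * I * ((j : ℝ) - t : ℝ)) *
        (s * Dl μ x (fun y => Ψ (yb y) j)) := by
    unfold Yw
    rw [Dl_sum]
    refine Finset.sum_congr rfl fun j _ => ?_
    rw [Dl_mul_left, Dl_mul_left, Dl_add, Dl_const hpd.sum_one, add_zero]
  rw [e1]
  have hn : n = t + (n - t) := by omega
  have e2 := Finset.sum_range_add (fun j : ℕ => (gw ρ ((j : ℝ) - t) : ℂ) *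
    cexp (θ * I * ((j : ℝ) - t : ℝ)) * (s * Dl μ x (fun y => Ψ (yb y) j))) t (n - t)
  rw [← hn] at e2
  rw [e2, Finset.sum_eq_zero, zero_add]
  · unfold Dser
    rw [Finset.mul_sum]
    refine Finset.sum_congr rfl fun u _ => ?_
    have e3 : (((t + u : ℕ) : ℝ) - t) = u := by push_cast; ring
    rw [e3]
    simp only [ofReal_zero, sub_zero, ofReal_natCast]
    ring
  · intro j hj
    rw [URep.Dl_zero hpd h (Finset.mem_range.1 hj)]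
    simp

theorem Yw_one (n t : ℕ) (ρ : ℝ) (y : Fin n → Bool) :
    Yw n t ρ 0 (fun _ _ => 1) y = ((∑ j ∈ Finset.range n, gw ρ ((j : ℝ) - t) : ℝ) : ℂ) := by
  unfold Yw
  simp

theorem norm_Yw_le {Ψ : (ℕ → Bool) → ℕ → ℂ} (h : URep B γ0 A k 1 Ψ) (h0 : 0 < γ0) (n t : ℕ)
    (ρ θ : ℝ) (y : Fin n → Bool) :
    ‖Yw n t ρ θ Ψ y‖ ≤ ∑ j ∈ Finset.range n, gw ρ ((j : ℝ) - t) := by
  unfold Yw
  refine (norm_sum_le _ _).trans (Finset.sum_le_sum fun j _ => ?_)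
  have e : (θ * I * ((j : ℝ) - t : ℝ) : ℂ) = ((θ * ((j : ℝ) - t) : ℝ) : ℂ) * I := by
    push_cast; ring
  rw [norm_mul, norm_mul, e, norm_exp_ofReal_mul_I, mul_one, Complex.norm_real,
    Real.norm_of_nonneg (gw_pos _ _).le]
  exact mul_le_of_le_one_right (gw_pos _ _).le (h.norm_le h0 _ _)

theorem re_Yw_ge {Ψ : (ℕ → Bool) → ℕ → ℂ} (h : URep B γ0 A k 1 Ψ) (h0 : 0 < γ0) (n t : ℕ)
    (ρ : ℝ) (y : Fin n → Bool) :
    (∑ j ∈ Finset.range n, gw ρ ((j : ℝ) - t)) / 3 ≤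
      (Yw n t ρ 0 (fun y j => (1 / 3 : ℂ) * (Ψ y j + 2)) y).re := by
  unfold Yw
  rw [re_sum, Finset.sum_div]
  refine Finset.sum_le_sum fun j _ => ?_
  have h1 := h.norm_le h0 (yb y) j
  have h2 := abs_re_le_norm (Ψ (yb y) j)
  have h3 := (abs_le.1 (h2.trans h1)).1
  have h4 := gw_pos ρ ((j : ℝ) - t)
  have e : ((gw ρ ((j : ℝ) - t) : ℂ) * cexp (((0 : ℝ) : ℂ) * I * ((j : ℝ) - t : ℝ)) *
      ((1 / 3 : ℂ) * (Ψ (yb y) j + 2))).re =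
      gw ρ ((j : ℝ) - t) * ((1 / 3) * ((Ψ (yb y) j).re + 2)) := by
    simp
  rw [e]
  nlinarith

theorem continuous_Yw (n t : ℕ) (ρ : ℝ) (Ψ : (ℕ → Bool) → ℕ → ℂ) (y : Fin n → Bool) :
    Continuous fun θ : ℝ => Yw n t ρ θ Ψ y := by
  unfold Yw
  fun_prop

theorem norm_Dser_le (hpd : PD d t x μ) {Ψ : (ℕ → Bool) → ℕ → ℂ} (h : URep B γ0 A k 1 Ψ)
    (h0 : 0 < γ0) (hd : k + 1 ≤ d) (ρ θ : ℝ) :
    ‖Dser μ x t ρ Ψ θ 0‖ ≤ 2 * ∑ j ∈ Finset.range n, gw ρ ((j : ℝ) - t) := by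
  refine le_trans ?_ (mul_le_mul_of_nonneg_left (sum_gw_le_two ρ n t) (by norm_num))
  unfold Dser
  rw [Finset.mul_sum]
  refine (norm_sum_le _ _).trans (Finset.sum_le_sum fun u _ => ?_)
  have e : ((θ * I - ((0 : ℝ) : ℂ)) * u : ℂ) = ((θ * u : ℝ) : ℂ) * I := by
    push_cast; ring
  rw [norm_mul, norm_mul, e, norm_exp_ofReal_mul_I, one_mul, Complex.norm_real,
    Real.norm_of_nonneg (gw_pos _ _).le, mul_comm]
  have := h.Dl_le hpd h0 hd (t + u)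
  exact mul_le_mul_of_nonneg_right (by linarith) (gw_pos _ _).le

theorem div_four_le {z : ℂ} {C ε : ℝ} (hC : 1 ≤ C) (hz : ‖z‖ ≤ ε) :
    ‖((C : ℂ)⁻¹) ^ 4 * z‖ ≤ ε := by
  rw [norm_mul, norm_pow, norm_inv, Complex.norm_real, Real.norm_of_nonneg (by linarith)]
  have h1 : C⁻¹ ≤ 1 := inv_le_one_of_one_le₀ hC
  have h2 : 0 ≤ C⁻¹ := inv_nonneg.2 (by linarith)
  have h3 : C⁻¹ ^ 4 ≤ 1 := pow_le_one₀ h2 h1
  exact (mul_le_of_le_one_left (norm_nonneg _) h3).trans hz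

theorem max_mul_max_le {m p q : ℝ} (hm : 0 < m) (hm1 : m ≤ 1) (hp1 : p ≤ 1)
    (hq1 : q ≤ 1) (h : p * q < m) : max m p * max m q ≤ m := by
  rcases le_total m p with h1 | h1 <;> rcases le_total m q with h2 | h2
  · rw [max_eq_right h1, max_eq_right h2]; exact h.le
  · rw [max_eq_right h1, max_eq_left h2]; nlinarith
  · rw [max_eq_left h1, max_eq_right h2]; nlinarith
  · rw [max_eq_left h1, max_eq_left h2]; nlinarith

set_option maxHeartbeats 1000000 in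
theorem step_chain (hpd : PD d t x μ) (hd : 4 * k + 4 ≤ d) (D : StepData n B γ0 A ρp η E b k)
    (H : Hyp μ x t B γ0 (4 * A) (4 * k + 3) ρp η E) {Ψ : (ℕ → Bool) → ℕ → ℂ}
    (h : URep B γ0 A k 1 Ψ) :
    ∃ (a : ℝ → ℝ) (hh : ℝ), Continuous a ∧ (∀ θ, 0 ≤ a θ) ∧ 0 < hh ∧
      (∀ φ, |φ| ≤ b → |φ + hh| ≤ b → 7 / 20 * (0.992 * E) ≤ a φ + a (φ + hh)) ∧
      (∀ θ, ‖Dser μ x t (η ^ 2 / (400 * E)) Ψ θ 0‖ ≤ 1000000 * E / η ^ 2) ∧
      (∀ θ, |θ| ≤ b → ‖Dser μ x t (η ^ 2 / (400 * E)) Ψ θ 0‖ ≤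
        1000000 * E / η ^ 2 * Real.exp (-a θ)) ∧
      (∀ θ, |θ| ≤ b → |θ| < hh → ‖Dser μ x t (η ^ 2 / (400 * E)) Ψ θ 0‖ ≤
        1000000 * E / η ^ 2 * Real.exp (-(a θ + 3 / 20 * (0.992 * E)))) := by
  have hE := D.hE
  have hη := D.hη
  have hη1 := D.hη1
  have h0 := D.hγ0
  have hb := D.hb
  have hb1 := D.hb1
  set ρ : ℝ := η ^ 2 / (400 * E) with hρdef
  have hρ : 0 < ρ := by positivity
  set C₀ : ℝ := ∑ j ∈ Finset.range n, gw ρ ((j : ℝ) - t) with hC₀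
  have hC1 : 1 ≤ C₀ := one_le_sum_gw_two ρ hpd.ht
  have hC2 : C₀ ≤ 2 + 8 / 3 / √ρ := sum_gw_two_le hρ n t
  have hβ : 0 < √ρ := Real.sqrt_pos.2 hρ
  set q : ℝ := 1 / √ρ with hq
  have hq2 : q ^ 2 = 400 * E / η ^ 2 := by
    rw [hq, div_pow, Real.sq_sqrt hρ.le, hρdef]
    field_simp
  have hq0 : 0 < q := by positivity
  have hq6 : 6 ≤ q := by
    have h1 : 400 * E ≤ 400 * E / η ^ 2 := by
      rw [le_div_iff₀ (by positivity)]
      have : η ^ 2 ≤ 1 := pow_le_one₀ hη.le hη1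
      nlinarith
    nlinarith
  have hbig : 1000000 * E / η ^ 2 = 2500 * q ^ 2 := by rw [hq2]; ring
  have hC3 : C₀ ≤ 3 * q := by
    have : 8 / 3 / √ρ = 8 / 3 * q := by rw [hq]; ring
    linarith
  have hCne : (C₀ : ℂ) ≠ 0 := by
    rw [Ne, ofReal_eq_zero]; linarith
  set E' : ℝ := 0.992 * E with hE'
  have hE'0 : 0 < E' := by rw [hE']; linarith
  set ε : ℝ := Real.exp (-E') with hε
  set m₀ : ℝ := Real.exp (-(7 / 20 * E')) with hm₀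
  have hm : 0 < m₀ := Real.exp_pos _
  have hm1 : m₀ ≤ 1 := Real.exp_le_one_iff.2 (by linarith)
  have hε0 : 0 ≤ ε := (Real.exp_pos _).le
  have hε1 : ε ≤ 1 := Real.exp_le_one_iff.2 (by linarith)
  have hsq : √ε = Real.exp (-(3 / 20 * E')) * m₀ := by
    rw [hε, hm₀, ← Real.exp_add, ← Real.exp_half]
    congr 1; ring
  have hsq1 : √ε ≤ m₀ := by
    rw [hsq]
    exact mul_le_of_le_one_left hm.le (Real.exp_le_one_iff.2 (by linarith))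
  set P : (ℕ → Bool) → ℕ → ℂ := fun y j => (1 / 3 : ℂ) * (Ψ y j + 2) with hP
  have hPr : URep B γ0 A k 1 P := by
    have h1 := (h.add (URep.const B γ0 A k 2)).smul (1 / 3 : ℂ)
    have e : ‖(1 / 3 : ℂ)‖ * (1 + ‖(2 : ℂ)‖) = 1 := by
      simp; norm_num
    rw [e] at h1
    exact h1
  have hPc := hPr.conj
  have h1r : URep B γ0 A k 1 (fun _ _ => (1 : ℂ)) := by
    have h1 := URep.const B γ0 A k 1
    rwa [norm_one] at h1
  set Y : ℝ → (Fin n → Bool) → ℂ := fun θ y => (C₀ : ℂ)⁻¹ * Yw n t ρ θ P y with hY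
  have hconjY : ∀ θ y, (starRingEnd ℂ) (Y θ y) =
      (C₀ : ℂ)⁻¹ * Yw n t ρ (-θ) (fun y j => (starRingEnd ℂ) (P y j)) y := by
    intro θ y
    simp only [hY, map_mul, map_inv₀, conj_ofReal, Yw_conj]
  have hone : ∀ y : Fin n → Bool, (C₀ : ℂ)⁻¹ * Yw n t ρ 0 (fun _ _ => 1) y = 1 := by
    intro y
    rw [Yw_one, ← hC₀, inv_mul_cancel₀ hCne]
  have hYJ : ∀ θ, Y θ ∈ Jun n (k + 1) := fun θ =>
    (Jun n (k + 1)).smul_mem (C₀ : ℂ)⁻¹ (Yw_mem_Jun hPr n t ρ θ)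
  have hX1 : ∀ θ, ‖Y θ x‖ ≤ 1 := by
    intro θ
    have h1 := norm_Yw_le hPr h0 n t ρ θ x
    simp only [hY]
    rw [norm_mul, norm_inv, Complex.norm_real, Real.norm_of_nonneg (by linarith),
      inv_mul_le_iff₀ (by linarith), mul_one]
    exact h1
  have hX0 : 1 / 3 ≤ ‖Y 0 x‖ := by
    have h1 := re_Yw_ge h h0 n t ρ x
    have h2 := re_le_norm (Yw n t ρ 0 P x)
    simp only [hY]
    rw [norm_mul, norm_inv, Complex.norm_real, Real.norm_of_nonneg (by linarith),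
      le_inv_mul_iff₀ (by linarith)]
    linarith
  have hb0 : |(0 : ℝ)| ≤ b := by rw [abs_zero]; exact hb.le
  obtain ⟨c1, hh, hh0, c2, c3⟩ := chain (μ := μ) hpd.sum_one (V := Jun n (2 * k + 2))
    (fun f hf => hpd.psd f (Jun_mono (by omega) hf)) Y (fun θ => Y θ x) (const_mem_Jun _ _ _)
    (fun θ => Jun_mono (by omega) (hYJ θ))
    (fun θ θ' => Jun_mono (by omega) (Jun_mul (hYJ θ) (Jun_conj (hYJ θ'))))
    (b := b) (β := √ρ) (ε := ε) (m₀ := m₀) (Ξ := 3) hb hβ hε0 hε1 hm hm1 (by norm_num) hX0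
    (by
      intro θ₁ θ₂ θ₃ θ₄ b1 b2 b3 b4 hs
      have h4 := prod4 hpd hd D H hPr hPr hPc hPc b1 b2 (θ₂ := -θ₃) (θ₃ := -θ₄)
        (by rwa [abs_neg]) (by rwa [abs_neg])
        (by rw [show θ₁ + θ₂ + -θ₃ + -θ₄ = θ₁ + θ₂ - θ₃ - θ₄ by ring]; exact hs)
      have h5 := div_four_le hC1 h4
      rw [← Dl_mul_left] at h5
      refine le_of_eq_of_le ?_ h5
      congr 1
      change Dl μ x (fun y => Y θ₁ y * Y θ₂ y * (starRingEnd ℂ) (Y θ₃ y) *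
        (starRingEnd ℂ) (Y θ₄ y)) = _
      congr 1
      funext y
      rw [hconjY, hconjY]
      simp only [hY]
      ring)
    (by
      intro θ b1
      have h4 := prod4 hpd hd D H hPr hPc h1r h1r b1 (θ₁ := -θ) (by rwa [abs_neg]) hb0 hb0
        (by rw [show θ + -θ + 0 + 0 = 0 by ring, abs_zero]; exact hβ.le)
      have h5 := div_four_le hC1 h4
      rw [← Dl_mul_left] at h5
      refine le_of_eq_of_le ?_ h5
      congr 1
      change Dl μ x (fun y => Y θ y * (starRingEnd ℂ) (Y θ y)) = _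
      congr 1
      funext y
      rw [hconjY]
      have := hone y
      simp only [hY]
      linear_combination (-((C₀ : ℂ)⁻¹ * Yw n t ρ θ P y * ((C₀ : ℂ)⁻¹ *
        Yw n t ρ (-θ) (fun y j => (starRingEnd ℂ) (P y j)) y)) *
        ((C₀ : ℂ)⁻¹ * Yw n t ρ 0 (fun _ _ => 1) y + 1)) * this)
    (by
      have h4 := prod4 hpd hd D H hPr h1r h1r h1r hb0 hb0 hb0 hb0
        (by rw [show (0 : ℝ) + 0 + 0 + 0 = 0 by ring, abs_zero]; exact hβ.le)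
      have h5 := div_four_le hC1 h4
      rw [← Dl_mul_left] at h5
      refine le_of_eq_of_le ?_ h5
      congr 1
      change Dl μ x (Y 0) = _
      congr 1
      funext y
      have := hone y
      simp only [hY]
      linear_combination (-((C₀ : ℂ)⁻¹ * Yw n t ρ 0 P y) *
        (((C₀ : ℂ)⁻¹ * Yw n t ρ 0 (fun _ _ => 1) y) ^ 2 +
          (C₀ : ℂ)⁻¹ * Yw n t ρ 0 (fun _ _ => 1) y + 1)) * this)
  have hD : ∀ θ, ‖Dser μ x t ρ Ψ θ 0‖ = 3 * C₀ * ‖Et μ (Y θ) - Y θ x‖ := by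
    intro θ
    have h1 := Dser_eq hpd h ρ θ (1 / 3 : ℂ) 2
    have h2 : Et μ (Y θ) - Y θ x = (C₀ : ℂ)⁻¹ * Dl μ x (Yw n t ρ θ P) := by
      rw [← Dl_mul_left]; rfl
    have h3 : Dser μ x t ρ Ψ θ 0 = ((3 * C₀ : ℝ) : ℂ) * (Et μ (Y θ) - Y θ x) := by
      rw [h2, ← h1]
      push_cast
      field_simp
    rw [h3, norm_mul, Complex.norm_real, Real.norm_of_nonneg (by linarith)]
  have hmax : ∀ θ, 0 < max m₀ ‖Y θ x‖ := fun θ => lt_of_lt_of_le hm (le_max_left _ _)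
  have hexp : ∀ θ, Real.exp (-(-Real.log (max m₀ ‖Y θ x‖))) = max m₀ ‖Y θ x‖ := by
    intro θ
    rw [neg_neg, Real.exp_log (hmax θ)]
  refine ⟨fun θ => -Real.log (max m₀ ‖Y θ x‖), hh, ?_, ?_, hh0, ?_, ?_, ?_, ?_⟩
  · have hc : Continuous fun θ : ℝ => Y θ x :=
      continuous_const.mul (continuous_Yw n t ρ P x)
    exact (Continuous.log (continuous_const.max hc.norm) fun θ => (hmax θ).ne').neg
  · intro θ
    exact neg_nonneg.2 (Real.log_nonpos (hmax θ).le (max_le hm1 (hX1 θ)))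
  · intro φ b1 b2
    have h1 := max_mul_max_le hm hm1 (hX1 φ) (hX1 (φ + hh)) (c3 φ b1 b2)
    have h2 := Real.log_le_log (mul_pos (hmax φ) (hmax (φ + hh))) h1
    rw [Real.log_mul (hmax φ).ne' (hmax (φ + hh)).ne', hm₀, Real.log_exp] at h2
    rw [hm₀]
    linarith
  · intro θ
    have h1 := norm_Dser_le hpd h h0 (by omega) ρ θ
    rw [hbig]
    nlinarith
  · intro θ b1
    rw [hexp, hD, hbig]
    have h1 := c1 θ b1
    have h2 : ‖Y θ x‖ ≤ max m₀ ‖Y θ x‖ := le_max_right _ _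
    have h3 : m₀ ≤ max m₀ ‖Y θ x‖ := le_max_left _ _
    have h4 : ‖Et μ (Y θ) - Y θ x‖ ≤ 3 * max m₀ ‖Y θ x‖ := by linarith
    have h5 : 3 * C₀ * 3 ≤ 2500 * q ^ 2 := by nlinarith
    calc 3 * C₀ * ‖Et μ (Y θ) - Y θ x‖ ≤ 3 * C₀ * (3 * max m₀ ‖Y θ x‖) :=
          mul_le_mul_of_nonneg_left h4 (by linarith)
      _ = 3 * C₀ * 3 * max m₀ ‖Y θ x‖ := by ring
      _ ≤ _ := mul_le_mul_of_nonneg_right h5 (hmax θ).le
  · intro θ b1 b2
    rw [neg_add, Real.exp_add, hexp, hD, hbig]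
    have h1 := c2 θ b1 b2
    have h2 : ‖Y θ x‖ ≤ max m₀ ‖Y θ x‖ := le_max_right _ _
    have h3 : m₀ ≤ max m₀ ‖Y θ x‖ := le_max_left _ _
    have h4 : m₀ * (1 + ‖Y θ x‖ / m₀) ≤ 2 * max m₀ ‖Y θ x‖ := by
      rw [mul_add, mul_one, mul_div_cancel₀ _ hm.ne']
      linarith
    have h5 : b / √ρ + 1 ≤ 7 / 6 * q := by
      have : b / √ρ = b * q := by rw [hq]; ring
      rw [this]
      nlinarith
    have h50 : 0 ≤ b / √ρ + 1 := by positivity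
    have h6 : 3 * C₀ * (180 * (b / √ρ + 1)) ≤ 2500 * q ^ 2 := by
      have : C₀ * (b / √ρ + 1) ≤ 3 * q * (7 / 6 * q) :=
        mul_le_mul hC3 h5 h50 (by linarith)
      nlinarith
    have hx := Real.exp_pos (-(3 / 20 * E'))
    have h7 : ‖Et μ (Y θ) - Y θ x‖ ≤
        180 * (b / √ρ + 1) * (max m₀ ‖Y θ x‖ * Real.exp (-(3 / 20 * E'))) := by
      refine h1.trans ?_
      rw [hsq]
      calc 10 * (b / √ρ + 1) * 3 ^ 2 * (Real.exp (-(3 / 20 * E')) * m₀) * (1 + ‖Y θ x‖ / m₀)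
          = 90 * (b / √ρ + 1) * Real.exp (-(3 / 20 * E')) * (m₀ * (1 + ‖Y θ x‖ / m₀)) := by ring
        _ ≤ 90 * (b / √ρ + 1) * Real.exp (-(3 / 20 * E')) * (2 * max m₀ ‖Y θ x‖) :=
          mul_le_mul_of_nonneg_left h4 (by positivity)
        _ = _ := by ring
    calc 3 * C₀ * ‖Et μ (Y θ) - Y θ x‖
        ≤ 3 * C₀ * (180 * (b / √ρ + 1) * (max m₀ ‖Y θ x‖ * Real.exp (-(3 / 20 * E')))) :=
          mul_le_mul_of_nonneg_left h7 (by linarith)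
      _ = 3 * C₀ * (180 * (b / √ρ + 1)) * (max m₀ ‖Y θ x‖ * Real.exp (-(3 / 20 * E'))) := by
          ring
      _ ≤ _ := mul_le_mul_of_nonneg_right h6 (mul_pos (hmax θ) hx).le

end

end Crest.Agent.R300
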