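import Crest.Agent.R300.Emp
import Crest.Agent.R300.DPar
import Crest.Agent.R300.Main
import Crest.Prelude.Def_TraceSym

/-! # Row 300: the reconstruction rule over an arbitrary alphabet, and the good event. -/

set_option autoImplicit false

namespace Crest.Agent.R300

open Crest.FinProb Crest.TraceRecon

theorem EP_pos (m : ℕ) : 1 ≤ EP m := Nat.one_le_two_pow

open Classical in
theorem good_two_thirds {n m k E : ℕ} {p : ℝ} (hp : 0 ≤ p) (hp1 : p ≤ 1) (hE : 1 ≤ E)
    (h3 : 3 * (2 * n + 2) ^ (k + 2) * E ^ 2 ≤ m) (𝒳 : Finset (Fin n → Bool))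
    (hX : 𝒳.card ≤ 2 * n + 2) :
    (2 / 3 : ℝ) ≤ ∑ keeps : Fin m → Fin n → Bool, (∏ j, bernoulliWeight p (keeps j)) *
        (if ∀ x ∈ 𝒳, EmpOK p k E (List.ofFn fun j => traceOf x (keeps j)) x then 1 else 0) := by
  have hpos : 0 < 3 * (2 * n + 2) ^ (k + 2) * E ^ 2 := by positivity
  have hm : 1 ≤ m := by omega
  refine le_trans ?_ (good_prob hp hp1 k hE hm 𝒳)
  have hm' : (0 : ℝ) < m := by exact_mod_cast hm
  have h4 : 3 * (𝒳.card * (2 * n + 2) ^ (k + 1) * E ^ 2) ≤ m := by
    refine le_trans ?_ h3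
    have : 𝒳.card * (2 * n + 2) ^ (k + 1) ≤ (2 * n + 2) ^ (k + 2) := by
      rw [pow_succ (2 * n + 2) (k + 1), mul_comm]
      exact Nat.mul_le_mul_left _ hX
    calc 3 * (𝒳.card * (2 * n + 2) ^ (k + 1) * E ^ 2) ≤ 3 * ((2 * n + 2) ^ (k + 2) * E ^ 2) :=
          Nat.mul_le_mul_left _ (Nat.mul_le_mul_right _ this)
      _ = _ := by ring
  have h5 : (3 : ℝ) * ((𝒳.card : ℝ) * ((2 * n + 2) ^ (k + 1) : ℕ) * (E : ℝ) ^ 2) ≤ m := by
    exact_mod_cast h4
  have h6 : (𝒳.card : ℝ) * ((2 * n + 2) ^ (k + 1) : ℕ) * (E : ℝ) ^ 2 / m ≤ 1 / 3 := by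
    rw [div_le_iff₀ hm']; linarith
  linarith

/-- indicator word of a symbol -/
def prj {s n : ℕ} (a : Fin s) (y : Fin n → Fin s) : Fin n → Bool := fun i => decide (y i = a)

theorem card_prj {s n : ℕ} (x : Fin n → Fin s) :
    (Finset.univ.image fun a => prj a x).card ≤ 2 * n + 2 := by
  have : (Finset.univ.image fun a => prj a x) ⊆
      insert (fun _ => false) (Finset.univ.image fun i => prj (x i) x) := by
    intro z hz
    obtain ⟨a, -, rfl⟩ := Finset.mem_image.1 hz
    by_cases h : ∃ i, x i = a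
    · obtain ⟨i, rfl⟩ := h
      exact Finset.mem_insert_of_mem (Finset.mem_image.2 ⟨i, Finset.mem_univ _, rfl⟩)
    · refine Finset.mem_insert.2 (Or.inl ?_)
      funext i
      simp only [prj, decide_eq_false_iff_not]
      exact fun e => h ⟨i, e⟩
  refine (Finset.card_le_card this).trans ((Finset.card_insert_le _ _).trans ?_)
  have := Finset.card_image_le (s := (Finset.univ : Finset (Fin n))) (f := fun i => prj (x i) x)
  simp only [Finset.card_univ, Fintype.card_fin] at this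
  omega

theorem sym_rule {s n m k E : ℕ} (hs : 2 ≤ s) {p : ℝ} (hp : 0 ≤ p) (hp1 : p ≤ 1) (hE : 1 ≤ E)
    (h3 : 3 * (2 * n + 2) ^ (k + 2) * E ^ 2 ≤ m)
    (hsep : ∀ x y : Fin n → Bool, x ≠ y →
      ∃ σ r, ValidSig n k σ r ∧ 9 / (E : ℝ) < |PS p y σ r - PS p x σ r|) :
    ∃ K : (Fin m → List (Fin s)) → (Fin n → Fin s) → ℝ, IsSymRule K ∧
      ∀ x : Fin n → Fin s, 2 / 3 ≤ symSuccessProb p K x := by
  classical
  let Gd : (Fin m → List (Fin s)) → (Fin n → Fin s) → Prop := fun τ y =>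
    ∀ a, EmpOK p k E (List.ofFn fun j => (τ j).map fun c => decide (c = a)) (prj a y)
  let dec : (Fin m → List (Fin s)) → (Fin n → Fin s) := fun τ =>
    if h : ∃ y, Gd τ y then h.choose else fun _ => ⟨0, by omega⟩
  have huniq : ∀ τ x y, Gd τ x → Gd τ y → y = x := by
    intro τ x y hx hy
    have hE' : (0 : ℝ) < E := by exact_mod_cast hE
    have key : ∀ a, prj a x = prj a y := by
      intro a
      by_contra hne
      obtain ⟨σ, r, hv, hlt⟩ := hsep _ _ hne
      have h1 := abs_le.1 (hx a σ r hv)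
      have h2 := abs_le.1 (hy a σ r hv)
      have h4 : |PS p (prj a y) σ r - PS p (prj a x) σ r| ≤ 2 * (1 / (E : ℝ)) :=
        abs_le.2 ⟨by linarith [h1.1, h1.2, h2.1, h2.2], by linarith [h1.1, h1.2, h2.1, h2.2]⟩
      have h5 : (9 : ℝ) / E = 9 * (1 / (E : ℝ)) := by ring
      have h6 : (0 : ℝ) < 1 / (E : ℝ) := by positivity
      linarith
    funext i
    have := congrFun (key (x i)) i
    simpa [prj] using this
  refine ⟨fun τ y => if y = dec τ then 1 else 0, fun τ => ⟨fun y => by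
    dsimp only; split_ifs <;> norm_num, by simp⟩, fun x => ?_⟩
  refine (good_two_thirds hp hp1 hE h3 (Finset.univ.image fun a => prj a x) (card_prj x)).trans ?_
  unfold symSuccessProb
  refine Finset.sum_le_sum fun keeps _ => mul_le_mul_of_nonneg_left ?_
    (Finset.prod_nonneg fun j _ => bw_nonneg hp hp1 _)
  dsimp only
  split_ifs with h1 h2 h2
  · exact le_rfl
  · exfalso
    apply h2
    have hx : Gd (fun j => symTraceOf x (keeps j)) x := by
      intro a
      have := h1 (prj a x) (Finset.mem_image.2 ⟨a, Finset.mem_univ _, rfl⟩)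
      simp only [symTraceOf, List.map_map]
      exact this
    have hex : ∃ y, Gd (fun j => symTraceOf x (keeps j)) y := ⟨x, hx⟩
    simp only [dec, dif_pos hex]
    exact (huniq _ _ _ hx hex.choose_spec).symm
  · norm_num
  · exact le_rfl

end Crest.Agent.R300
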