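import Mathlib
import Crest.Prelude.Def_TraceRecon

/-!
# Row 300 (trace reconstruction): definitions for the upper bound.  FROZEN (helper25).

Overview of the upper bound.  A *pseudo-distribution* is a signed measure `μ` on the cube, of total
mass one, nonnegative on squares of degree-`d` functions, supported on words that agree with the true
word `x` before position `t` and differ at `t` (`PD`).  Theorem `R300.Main.no_pd`: such a `μ`
cannot match all `k`-point trace statistics of `x` (`StatClose`) up to `exp(-budget)`.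
The proof is an induction on scales (`Hyp`), see the headers of the individual files.
-/

set_option autoImplicit false

namespace Crest.Agent.R300

open Complex

/-- expectation of `F` at a random trace of the word `l` (retention probability `p`) -/
noncomputable def trE (p : ℝ) : List Bool → (List Bool → ℝ) → ℝ
  | [], F => F []
  | b :: l, F => (1 - p) * trE p l F + p * trE p l (fun τ => F (b :: τ))

/-- pattern statistic on a (reversed) trace: skip `g` letters, read the bit `b`, continue; at the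
end exactly `r` letters remain -/
def hit : List (ℕ × Bool) → ℕ → List Bool → Bool
  | [], r, l => decide (l.length = r)
  | a :: σ, r, l =>
    match l.drop a.1 with
    | [] => false
    | c :: l' => (c == a.2) && hit σ r l'

/-- probability that a trace of `y` shows the pattern `(σ, r)` (read from the right end) -/
noncomputable def PS {n : ℕ} (p : ℝ) (y : Fin n → Bool) (σ : List (ℕ × Bool)) (r : ℕ) : ℝ :=
  trE p (List.ofFn y) fun τ => if hit σ r τ.reverse then 1 else 0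

/-- the index set of the statistics -/
def ValidSig (n k : ℕ) (σ : List (ℕ × Bool)) (r : ℕ) : Prop :=
  σ.length ≤ k ∧ (∀ a ∈ σ, a.1 < n) ∧ r ≤ n

def StatClose {n : ℕ} (μ : (Fin n → Bool) → ℝ) (x : Fin n → Bool) (p : ℝ) (k : ℕ) (ε : ℝ) : Prop :=
  ∀ σ r, ValidSig n k σ r → |∑ y, μ y * PS p y σ r - PS p x σ r| ≤ ε

/-- functions of degree at most `d`: span of the functions depending on at most `d` coordinates -/
def Jun (n d : ℕ) : Submodule ℂ ((Fin n → Bool) → ℂ) :=
  Submodule.span ℂ {f | ∃ S : Finset (Fin n), S.card ≤ d ∧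
    ∀ y y' : Fin n → Bool, (∀ i ∈ S, y i = y' i) → f y = f y'}

/-- pseudo-expectation -/
noncomputable def Et {Ω : Type} [Fintype Ω] (μ : Ω → ℝ) (f : Ω → ℂ) : ℂ := ∑ y, (μ y : ℂ) * f y

/-- pseudo-expectation minus the true value -/
noncomputable def Dl {Ω : Type} [Fintype Ω] (μ : Ω → ℝ) (x : Ω) (f : Ω → ℂ) : ℂ := Et μ f - f x

structure PD {n : ℕ} (d t : ℕ) (x : Fin n → Bool) (μ : (Fin n → Bool) → ℝ) : Prop where
  ht : t < n
  sum_one : ∑ y, μ y = 1
  supp : ∀ y, μ y ≠ 0 → ∀ j : Fin n, j.val < t → y j = x j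
  flip : ∀ y, μ y ≠ 0 → y ⟨t, ht⟩ ≠ x ⟨t, ht⟩
  psd : ∀ f ∈ Jun n d, 0 ≤ ∑ y, μ y * ‖f y‖ ^ 2

/-- a word as a function on `ℕ` -/
def yb {n : ℕ} (y : Fin n → Bool) : ℕ → Bool := fun j => if h : j < n then y ⟨j, h⟩ else false

/-- a gap variable together with a bit weight -/
abbrev Atom := ℂ × (Bool → ℂ)

/-- generating function of backward-looking patterns strictly before position `j` -/
noncomputable def G (z0 : ℂ) : List Atom → (ℕ → Bool) → ℕ → ℂ
  | [], _, j => z0 ^ j
  | a :: L, y, j => ∑ i ∈ Finset.range j, a.1 ^ (j - 1 - i) * a.2 (y i) * G z0 L y i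

/-- normalising factor -/
noncomputable def nu (L : List Atom) : ℝ := (L.map fun a => 1 - ‖a.1‖).prod

/-- admissible gap variables at parabola parameter `A` -/
def InZ (B γ0 A : ℝ) (v : ℂ) : Prop :=
  ∃ θ γ : ℝ, v = cexp (θ * I - γ) ∧ γ0 ≤ γ ∧ |θ| ≤ √(A * γ) + B * γ

def Ok (B γ0 A : ℝ) (L : List Atom) : Prop := ∀ a ∈ L, InZ B γ0 A a.1 ∧ ∀ b, ‖a.2 b‖ ≤ 1

/-- elementary feature anchored at `j` -/
noncomputable def feat (φ : Bool → ℂ) (L : List Atom) (y : ℕ → Bool) (j : ℕ) : ℂ :=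
  φ (y j) * G 1 L y j

/-- `Ψ` is a combination of elementary features with lists of length `≤ k`, of norm `≤ c` -/
def URep (B γ0 A : ℝ) (k : ℕ) (c : ℝ) (Ψ : (ℕ → Bool) → ℕ → ℂ) : Prop :=
  ∃ l : List (ℂ × (Bool → ℂ) × List Atom),
    (∀ m ∈ l, (∀ b, ‖m.2.1 b‖ ≤ 1) ∧ Ok B γ0 A m.2.2 ∧ m.2.2.length ≤ k) ∧
    (l.map fun m => ‖m.1‖ / nu m.2.2).sum ≤ c ∧
    ∀ y j, Ψ y j = (l.map fun m => m.1 * feat m.2.1 m.2.2 y j).sum

/-- opening of the sector -/
noncomputable def s0 : ℝ := 17 / 8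

/-- Gaussian window -/
noncomputable def gw (ρ : ℝ) (v : ℝ) : ℝ := Real.exp (-(ρ * v ^ 2 / 2))

/-- the causal, windowed difference series at `ζ = exp(iθ - η)` -/
noncomputable def Dser {n : ℕ} (μ : (Fin n → Bool) → ℝ) (x : Fin n → Bool) (t : ℕ) (ρ : ℝ)
    (Ψ : (ℕ → Bool) → ℕ → ℂ) (θ η : ℝ) : ℂ :=
  ∑ u ∈ Finset.range (n - t),
    cexp ((θ * I - η) * u) * ((gw ρ u : ℂ) * Dl μ x fun y => Ψ (yb y) (t + u))

/-- the induction hypothesis -/
def Hyp {n : ℕ} (μ : (Fin n → Bool) → ℝ) (x : Fin n → Bool) (t : ℕ) (B γ0 A : ℝ) (k : ℕ)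
    (ρ η E : ℝ) : Prop :=
  ∀ Ψ, URep B γ0 A k 1 Ψ → ∀ θ η' : ℝ, 0 < η' → η' ≤ η → |θ| ≤ s0 * η' →
    ‖Dser μ x t ρ Ψ θ η'‖ ≤ Real.exp (-E)

/-- two-sided windowed transform -/
noncomputable def Yw (n t : ℕ) (ρ θ : ℝ) (Ψ : (ℕ → Bool) → ℕ → ℂ) (y : Fin n → Bool) : ℂ :=
  ∑ j ∈ Finset.range n,
    (gw ρ ((j : ℝ) - t) : ℂ) * cexp (θ * I * ((j : ℝ) - t : ℝ)) * Ψ (yb y) j

/-- the quantity `X` of the statements -/
noncomputable def XX (n : ℕ) (p : ℝ) : ℝ := 1 + Real.log n / (1 + Real.log (1 / (1 - p)))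

/-- the exponent of the budget (with only one power of the `log X` factor) -/
noncomputable def Bud (n : ℕ) (p : ℝ) : ℝ :=
  p⁻¹ * Real.log n * XX n p ^ 2 * (1 + Real.log (XX n p))

end Crest.Agent.R300
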